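import Vale.Agent.P022K.GW.Defs
import Vale.Agent.P022E.GW.Hyp
import Vale.Agent.P022D.Sel.Pl
import Vale.Agent.P022.H916.Fld2

/-!
# P022K, block GW: places and Frobenius elements (rows `FRB`, `FLD`, `OKL`, `LEV`, `STI`)
-/

set_option linter.all false

noncomputable section

namespace Vale.Agent.P022K.GW

open NumberField IsDedekindDomain Module
open scoped Pointwise
open Vale.Agent.P022 Vale.Agent.P022.C
open Vale.Agent.P027M.S (Inert)
open Vale.Agent.P022D.W (dec)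
open Vale.Agent.P022E.GW (Ov Fb Bg Ch Cb)
open Vale.Agent.P011.ArP (Mu Pw LS)

namespace Pl

theorem cpt : CompactSpace GQ := by
  have := H443.galQb
  infer_instance

theorem mem_smul (g : GQ) (P : Id) (x : 𝓞 Qb) : x ∈ g • P ↔ g⁻¹ • x ∈ P :=
  Ideal.mem_pointwise_smul_iff_inv_smul_mem

theorem dec_iff (g : GQ) (P : Id) : g ∈ dec P ↔ g • P = P := by
  constructor
  · intro h
    ext x
    rw [mem_smul]
    exact (dec P).inv_mem h x
  · intro h x
    have := mem_smul g P (g • x)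
    rwa [h, inv_smul_smul] at this

theorem inert_conj {P : Id} {i : GQ} (h : Inert P i) (g : GQ) : Inert (g • P) (g * i * g⁻¹) :=
  fun x => by
    rw [mem_smul, smul_sub, ← mul_smul, show g⁻¹ * (g * i * g⁻¹) = i * g⁻¹ by group, mul_smul]
    exact h _

theorem inert_dec {P : Id} {i : GQ} (h : Inert P i) : i ∈ dec P := P022D.W.inP_le_dec h

/-- an open normal subgroup inside an open subgroup -/
theorem core_open {W : Subgroup GQ} (hW : IsOpen (W : Set GQ)) :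
    IsOpen (W.normalCore : Set GQ) := by
  have := cpt
  haveI : Finite (GQ ⧸ W) := W.quotient_finite_of_isOpen hW
  haveI : W.FiniteIndex := Subgroup.finiteIndex_of_finite_quotient
  exact W.normalCore.isOpen_of_isClosed_of_finiteIndex
    (W.normalCore_isClosed (W.isClosed_of_isOpen hW))

theorem pw {P : Id} {g : GQ} {q : ℕ} (hg : g ∈ dec P) (h : ∀ x : 𝓞 Qb, g • x - x ^ q ∈ P) (n : ℕ)
    (x : 𝓞 Qb) : (g ^ n) • x - x ^ q ^ n ∈ P := by
  induction n with
  | zero => simp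
  | succ n ih =>
    have h1 := (hg _).2 ih
    rw [smul_sub, ← mul_smul, ← pow_succ'] at h1
    have := P.add_mem h1 (h (x ^ q ^ n))
    rwa [sub_add_sub_cancel, ← pow_mul, ← pow_succ] at this

theorem fr_dec {P : Id} (hP : P.IsPrime) {g : GQ} {q : ℕ} (hq : q ≠ 0)
    (h : ∀ x : 𝓞 Qb, g • x - x ^ q ∈ P) : g ∈ dec P := fun x =>
  ⟨fun k => hP.mem_of_pow_mem q (by simpa using P.sub_mem k (h x)),
    fun k => by simpa using P.add_mem (h x) (P.pow_mem_of_mem k q (Nat.pos_of_ne_zero hq))⟩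

theorem gn_of {H : Subgroup GQ} (hH : IsOpen (H : Set GQ)) {l f : ℕ} {P : Id} (hP : Ov l P)
    {g : GQ} (hg : g ∈ H) (h : ∀ x : 𝓞 Qb, g • x - x ^ l ^ f ∈ P)
    (hf : ∀ k, ∀ a ∈ H, (∀ x : 𝓞 Qb, a • x - x ^ l ^ k ∈ P) → f ∣ k) : Gn H P g := by
  have hd := fr_dec hP.2.1 (pow_ne_zero f hP.1.ne_zero) h
  refine ⟨⟨hg, hd⟩, fun W hW hI a ha => ?_⟩
  obtain ⟨φ, hφ⟩ := P022D.W.exists_phi hP.1 hP.2.1 hP.2.2
  have hφd := fr_dec hP.2.1 hP.1.ne_zero hφ
  obtain ⟨k, s, u, hs, hu, e⟩ := P022D.W.dec_gen hP.1 hP.2.1 hP.2.2 hφ ha.2 (W ⊓ H).normalCore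
    (core_open (hW.inter hH))
  have huH : u ∈ H := (Subgroup.normalCore_le _ hu).2
  have h1 : φ ^ k * s ∈ H := (H.mul_mem_cancel_left huH).1 (by rw [← mul_assoc, ← e]; exact ha.1)
  have h2 : ∀ x : 𝓞 Qb, (φ ^ k * s) • x - x ^ l ^ k ∈ P := fun x => by
    have a1 := ((dec P).pow_mem hφd k _).2 (hs x)
    rw [smul_sub, ← mul_smul] at a1
    simpa using P.add_mem a1 (pw hφd hφ k x)
  obtain ⟨n, rfl⟩ := hf k _ h1 h2
  refine ⟨n, ?_⟩
  have h3 : Inert P ((g ^ n)⁻¹ * (φ ^ (f * n) * s)) := fun x => by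
    have a1 := P.sub_mem (h2 x) (pw hd h n x)
    rw [← pow_mul, sub_sub_sub_cancel_right] at a1
    have a2 := ((dec P).inv_mem ((dec P).pow_mem hd n) _).2 a1
    rwa [smul_sub, inv_smul_smul, ← mul_smul] at a2
  have h4 := hI _ (H.mul_mem (H.inv_mem (H.pow_mem hg n)) h1) h3
  have h5 := (Subgroup.normalCore_le _
    ((Subgroup.normalCore_normal (W ⊓ H)).conj_mem u hu (g ^ n)⁻¹)).1
  have := W.mul_mem h5 h4
  rw [e]
  convert this using 1
  group

theorem prime_in {R : Type} [CommRing R] {P : Ideal R} (hP : P.IsPrime) (n : ℕ) :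
    n ≠ 0 → (n : R) ∈ P → ∃ l : ℕ, l.Prime ∧ (l : R) ∈ P := by
  induction n using induction_on_primes with
  | zero => intro h; exact absurd rfl h
  | one =>
    intro _ h
    exact absurd ((Ideal.eq_top_iff_one P).2 (by simpa using h)) hP.ne_top
  | prime_mul p a hp ih =>
    intro h0 h
    rw [Nat.cast_mul] at h
    rcases hP.mem_or_mem h with h | h
    · exact ⟨p, hp, h⟩
    · exact ih (fun e => h0 (by rw [e, mul_zero])) h

theorem ov_uniq {l l' : ℕ} {P : Id} (h : Ov l P) (h' : Ov l' P) : l = l' := by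
  by_contra e
  obtain ⟨a, b, hab⟩ := (Nat.isCoprime_iff_coprime.2
    ((Nat.coprime_primes h.1 h'.1).2 e)).intCast (R := 𝓞 Qb)
  apply h.2.1.ne_top
  rw [Ideal.eq_top_iff_one, ← hab, Int.cast_natCast, Int.cast_natCast]
  exact P.add_mem (P.mul_mem_left _ h.2.2) (P.mul_mem_left _ h'.2.2)

theorem ex_ov {l : ℕ} (hl : l.Prime) : ∃ P : Id, Ov l P := by
  obtain ⟨P, h⟩ := H916.exists_prime hl
  exact ⟨P, hl, h⟩

theorem ov_trans {l : ℕ} {P P' : Id} (h : Ov l P) (h' : Ov l P') : ∃ g : GQ, g • P = P' := by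
  obtain ⟨g, hg⟩ := H916.exists_smul (algebraMap ℚ Qb) h.2.1 h'.2.1 (by
    rw [P022D.Sel.Pl.below_rat h.1 h.2.1 h.2.2, P022D.Sel.Pl.below_rat h.1 h'.2.1 h'.2.2])
  exact ⟨g, hg.symm⟩

section

variable {L : Type} [Field L] [NumberField L] (j : L →+* Qb)

/-- the place below a prime -/
def dn (l : ℕ) (P : Id) (h : Ov l P) : HeightOneSpectrum (𝓞 L) where
  asIdeal := below j P
  isPrime := H20.below_prime j h.2.1
  ne_bot e := by
    have h1 := H20.l_mem_below j h.2.2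
    rw [e, Ideal.mem_bot] at h1
    exact h.1.ne_zero (Nat.cast_eq_zero.1 h1)

theorem dn_onto (w : HeightOneSpectrum (𝓞 L)) : ∃ l P h, dn j l P h = w := by
  obtain ⟨P, hP, e⟩ := H916.exists_above j w.asIdeal w.isPrime
  obtain ⟨l, hl, h⟩ := prime_in w.isPrime _ (Ideal.absNorm_eq_zero_iff.not.2 w.ne_bot)
    (Ideal.absNorm_mem _)
  rw [← e, below, Ideal.mem_comap, map_natCast] at h
  exact ⟨l, P, ⟨hl, hP, h⟩, HeightOneSpectrum.ext e⟩

theorem fix_int {g : GQ} (hg : g ∈ GK j) (y : 𝓞 L) :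
    g • RingOfIntegers.mapRingHom j y = RingOfIntegers.mapRingHom j y :=
  RingOfIntegers.ext (hg (y : L))

theorem below_smul {g : GQ} (hg : g ∈ GK j) (P : Id) : below j (g • P) = below j P := by
  ext y
  rw [below, below, Ideal.mem_comap, Ideal.mem_comap, mem_smul, fix_int j ((GK j).inv_mem hg)]

theorem fri {l : ℕ} {P : Id} {w : HeightOneSpectrum (𝓞 L)} (hP : Ov l P)
    (hw : below j P = w.asIdeal) {g : GK j} (hg : FrI j w P g) : Gn (GK j) P g := by
  classical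
  have hl : (l : 𝓞 L) ∈ w.asIdeal := hw ▸ H20.l_mem_below j hP.2.2
  obtain ⟨f, -, hf⟩ := (Nat.dvd_prime_pow hP.1).1
    (show Ideal.absNorm w.asIdeal ∣ l ^ finrank ℤ (𝓞 L) by
      rw [← Ideal.absNorm_span_natCast]
      exact Ideal.absNorm_dvd_absNorm_of_le ((Ideal.span_singleton_le_iff_mem _).2 hl))
  refine gn_of (f := f) (H916.isOpen_GK j) hP g.2 (hf ▸ hg.2.2) fun k a ha h => ?_
  have := w.isMaximal
  let _ : Field (𝓞 L ⧸ w.asIdeal) := Ideal.Quotient.field _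
  have hc : Nat.card (𝓞 L ⧸ w.asIdeal) = l ^ f := hf
  have : Finite (𝓞 L ⧸ w.asIdeal) :=
    Nat.finite_of_card_ne_zero (hc ▸ pow_ne_zero f hP.1.ne_zero)
  let _ := Fintype.ofFinite (𝓞 L ⧸ w.asIdeal)
  have h1 := (FiniteField.forall_pow_eq_one_iff (𝓞 L ⧸ w.asIdeal) (l ^ k - 1)).1 fun x => by
    obtain ⟨y, hy⟩ := Ideal.Quotient.mk_surjective (x : 𝓞 L ⧸ w.asIdeal)
    have a1 := h (RingOfIntegers.mapRingHom j y)
    rw [fix_int j ha, ← map_pow, ← map_sub, ← Ideal.mem_comap] at a1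
    have a2 := Ideal.Quotient.eq.2 (show y - y ^ l ^ k ∈ w.asIdeal from hw ▸ a1)
    rw [map_pow, hy] at a2
    have a3 : x ^ (l ^ k - 1) * x = 1 * x := by
      rw [← pow_succ, Nat.sub_add_cancel (Nat.one_le_pow _ _ hP.1.pos), one_mul]
      exact Units.ext a2.symm
    exact mul_right_cancel a3
  rw [← Nat.card_eq_fintype_card, hc] at h1
  have h2 := Nat.pow_sub_one_gcd_pow_sub_one l f k
  rw [Nat.gcd_eq_left h1] at h2
  have h3 : l ^ f = l ^ Nat.gcd f k := by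
    have := Nat.one_le_pow f l hP.1.pos
    have := Nat.one_le_pow (Nat.gcd f k) l hP.1.pos
    omega
  rw [Nat.pow_right_injective hP.1.two_le h3]
  exact Nat.gcd_dvd_right f k

theorem ex_fri {l : ℕ} {P : Id} {w : HeightOneSpectrum (𝓞 L)} (hP : Ov l P)
    (hw : below j P = w.asIdeal) : ∃ g, FrI j w P g := by
  obtain ⟨g, hg⟩ := H916.exists_frob j hP.2.1 hP.1 hP.2.2
  exact ⟨g, hP.2.1, hw, hw ▸ hg⟩

end

theorem emb_trans (Φ Φ' : Qb →+* ℂ) : ∃ g : GQ, ∀ x, Φ (g⁻¹ x) = Φ' x := by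
  have := H443.galQb
  obtain ⟨g, hg⟩ := ComplexEmbedding.exists_comp_symm_eq_of_comp_eq (k := ℚ) Φ Φ'
    (Subsingleton.elim _ _)
  exact ⟨g, fun x => RingHom.congr_fun hg x⟩

variable {G : Type} [Group G] (ι : G →* GQ)

theorem pE_apply (g : G) (Φ : Qb →+* ℂ) (x : Qb) : pE ι g Φ x = Φ ((ι g)⁻¹ x) := by
  rw [← map_inv]; rfl

theorem pI_apply (g : G) (v : InfinitePlace Qb) : pI ι g v = ι g • v := rfl

theorem pI_mk (g : G) (Φ : Qb →+* ℂ) :
    pI ι g (InfinitePlace.mk Φ) = InfinitePlace.mk (pE ι g Φ) := by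
  rw [pI_apply, InfinitePlace.smul_mk]
  exact congrArg _ (RingHom.ext fun x => (pE_apply ι g Φ x).symm)

theorem pE_conj (g : G) (Φ : Qb →+* ℂ) : pE ι g (ComplexEmbedding.conjugate Φ) =
    ComplexEmbedding.conjugate (pE ι g Φ) := rfl

theorem fo_of {Y J : Type} [Finite J] {π : G →* Equiv.Perm Y} (v : J → Y)
    (h : ∀ x, ∃ j g, π g (v j) = x) : Fo π :=
  ⟨(Set.finite_range v).toFinset, fun x => by
    obtain ⟨j, g, e⟩ := h x
    exact ⟨v j, (Set.Finite.mem_toFinset _).2 ⟨j, rfl⟩, g, e⟩⟩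

/-- finitely many orbits under a subgroup of finite index -/
theorem fo_comp {G' Y : Type} [Group G'] {π : G →* Equiv.Perm Y} (h : Fo π) (f : G' →* G)
    (hf : f.range.index ≠ 0) {π' : G' →* Equiv.Perm Y} (e : ∀ g y, π' g y = π (f g) y) :
    Fo π' := by
  obtain ⟨s, hs⟩ := h
  haveI : Finite (G ⧸ f.range) := Nat.finite_of_card_ne_zero hf
  refine fo_of (fun z : s × (G ⧸ f.range) => π z.2.out⁻¹ z.1) fun x => ?_
  obtain ⟨y, hy, g, rfl⟩ := hs x
  obtain ⟨⟨_, u, rfl⟩, hu⟩ := QuotientGroup.mk_out_eq_mul f.range g⁻¹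
  refine ⟨(⟨y, hy⟩, (g⁻¹ : G)), u, ?_⟩
  rw [e, hu, ← Equiv.Perm.mul_apply, ← map_mul]
  simp

variable [TopologicalSpace G]

theorem map_open (h : Topology.IsOpenEmbedding ι) {U : Subgroup G} (hU : IsOpen (U : Set G)) :
    IsOpen (U.map ι : Set GQ) := h.isOpenMap _ hU

theorem idx (h : Topology.IsOpenEmbedding ι) : ι.range.index ≠ 0 := by
  have := cpt
  haveI : Finite (GQ ⧸ ι.range) := ι.range.quotient_finite_of_isOpen h.isOpen_range
  exact Subgroup.index_ne_zero_of_finite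

theorem fo_T (h : Topology.IsOpenEmbedding ι) (T : Finset ℕ) : Fo (pT ι T) := by
  have key : Fo (pT (MonoidHom.id GQ) T) := by
    choose c hc using fun l : {l // l ∈ T ∧ l.Prime} => ex_ov l.2.2
    haveI : Finite {l // l ∈ T ∧ l.Prime} := (T.finite_toSet.subset fun _ h => h.1).to_subtype
    refine fo_of (fun l => ⟨c l, l.1, l.2.1, hc l⟩) fun ⟨P, l, hl, hP⟩ => ?_
    obtain ⟨g, hg⟩ := ov_trans (hc ⟨l, hl, hP.1⟩) hP
    exact ⟨⟨l, hl, hP.1⟩, g, Subtype.ext ((pm_coe _ _ _ _).trans hg)⟩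
  exact fo_comp key ι (idx ι h) fun g y =>
    Subtype.ext (by rw [pm_coe, pm_coe]; rfl)

theorem fo_E (h : Topology.IsOpenEmbedding ι) : Fo (pE ι) := by
  have key : Fo (pE (MonoidHom.id GQ)) := by
    have := H443.algQb
    obtain ⟨Φ⟩ : Nonempty (Qb →+* ℂ) := ⟨(IsAlgClosed.lift : Qb →ₐ[ℚ] ℂ).toRingHom⟩
    refine fo_of (fun _ : Unit => Φ) fun Φ' => ?_
    obtain ⟨g, hg⟩ := emb_trans Φ Φ'
    exact ⟨(), g, RingHom.ext hg⟩
  exact fo_comp key ι (idx ι h) fun g y => RingHom.ext fun z => pE_apply ι g y z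

theorem fo_I (h : Topology.IsOpenEmbedding ι) : Fo (pI ι) := by
  classical
  obtain ⟨s, hs⟩ := fo_E ι h
  refine ⟨s.image InfinitePlace.mk, fun v => ?_⟩
  obtain ⟨y, hy, g, e⟩ := hs v.embedding
  exact ⟨_, Finset.mem_image_of_mem _ hy, g, by rw [pI_mk, e, InfinitePlace.mk_embedding]⟩

theorem in_cj {A : Set Id} (hA : Stb ι A) (g : G) : ∀ i ∈ In ι A, g * i * g⁻¹ ∈ In ι A := by
  rintro i ⟨l, P, h1, h2, h3⟩
  refine ⟨l, ι g • P, ov_smul h1 _, fun k => h2 ?_, ?_⟩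
  · have := hA g⁻¹ _ k
    rwa [map_inv, inv_smul_smul] at this
  · rw [map_mul, map_mul, map_inv]
    exact inert_conj h3 _

end Pl

open Pl

theorem frb : FRB := by
  refine ⟨dec_iff, fun l P φ h hφ => gn_of (f := 1) isOpen_univ h trivial
    (fun x => by rw [pow_one]; exact hφ x) fun k _ _ _ => one_dvd k,
    fun L _ _ j l P w h hw => ⟨ex_fri j h hw, fun g hg => fri j h hw hg⟩, fun H l P hH h => ?_⟩
  obtain ⟨L, _, _, j, rfl⟩ := P022E.GW.Hy.ex_fld hH
  obtain ⟨g, hg⟩ := ex_fri j (w := dn j l P h) h rfl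
  exact ⟨g, fri j h rfl hg⟩

theorem fld : FLD := by
  intro G _ _ ι p _ ω T Q hQ U H
  have hp : p.Prime := Fact.out
  obtain ⟨L, _, _, j, hj, hB⟩ := H.big
  have hU : ∀ u ∈ U, ι u ∈ GK j := fun u hu => hj ▸ ⟨u, hu, rfl⟩
  have hU' : ∀ γ ∈ GK j, ∃ u ∈ U, ι u = γ := fun γ h => by rw [hj] at h; exact h
  have hr : ∀ g x, ∃ y, j y = ι g (j x) := fun g x => H916.fixed j fun γ => by
    obtain ⟨u, hu, e⟩ := hU' γ γ.2
    have h1 := hU _ (H.nor.conj_mem u hu g⁻¹) x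
    rw [← e, ← AlgEquiv.mul_apply, show ι u * ι g = ι g * ι (g⁻¹ * u * g⁻¹⁻¹) by
      simp only [← map_mul]; congr 1; group, AlgEquiv.mul_apply, h1]
  choose r₀ hr using hr
  let r : G →* (L ≃ₐ[ℚ] L) :=
    { toFun := fun g => AlgEquiv.ofRingEquiv (f :=
        { toFun := r₀ g
          invFun := r₀ g⁻¹
          left_inv := fun x => j.injective (by rw [hr, hr]; simp)
          right_inv := fun x => j.injective (by rw [hr, hr]; simp)
          map_mul' := fun x y => j.injective (by simp only [hr, map_mul])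
          map_add' := fun x y => j.injective (by simp only [hr, map_add]) })
          fun q => j.injective (by
            show j (r₀ g _) = _
            rw [hr]; simp)
      map_one' := AlgEquiv.ext fun x => j.injective (by
        show j (r₀ 1 x) = j x
        rw [hr, map_one]; rfl)
      map_mul' := fun g h => AlgEquiv.ext fun x => j.injective (by
        show j (r₀ (g * h) x) = j (r₀ g (r₀ h x))
        rw [hr, hr, hr, map_mul]; rfl) }
  have hr' : ∀ g x, j (r g x) = ι g (j x) := hr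
  haveI : NeZero p := ⟨hp.ne_zero⟩
  obtain ⟨ζ, hζ⟩ := HasEnoughRootsOfUnity.exists_primitiveRoot Qb p
  obtain ⟨z, rfl⟩ : ∃ z, j z = ζ := H916.fixed j fun γ => by
    obtain ⟨u, hu, e⟩ := hU' γ γ.2
    rw [← e, H.cy u ζ hζ.pow_eq_one, H.om u hu, Units.val_one, ZMod.val_one, pow_one]
  have hE : ∀ Φ Φ' : Qb →+* ℂ, Φ.comp j = Φ'.comp j ↔ ∃ u ∈ U, pE ι u Φ = Φ' := fun Φ Φ' => by
    constructor
    · intro e
      obtain ⟨g, hg⟩ := emb_trans Φ Φ'
      obtain ⟨u, hu, rfl⟩ := hU' g ((GK j).inv_mem_iff.1 fun x =>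
        Φ.injective ((hg _).trans (RingHom.congr_fun e x).symm))
      exact ⟨u, hu, RingHom.ext fun x => (pE_apply ι u Φ x).trans (hg x)⟩
    · rintro ⟨u, hu, rfl⟩
      exact RingHom.ext fun x => congrArg Φ (hU _ (U.inv_mem hu) x).symm
  refine ⟨L, inferInstance, inferInstance, ⟨z, hζ.of_map_of_injective j.injective, hp, H.odd⟩, j,
    r, dn j, hj, hB, hr', fun g => j.injective ?_, fun _ _ _ => rfl, dn_onto j,
    fun l P h l' P' h' => ⟨fun e => ?_, ?_⟩, fun l P h g => ?_, fun l P h => ⟨?_, fun k => ?_⟩,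
    fun φ => ?_, hE, fun v v' => ⟨fun e => ?_, ?_⟩⟩
  · rw [hr', map_pow]
    exact H.cy g _ hζ.pow_eq_one
  · obtain ⟨γ, hγ⟩ := H916.exists_smul j h.2.1 h'.2.1 (congrArg HeightOneSpectrum.asIdeal e)
    obtain ⟨u, hu, e'⟩ := hU' γ γ.2
    exact ⟨u, hu, by rw [e', hγ]⟩
  · rintro ⟨u, hu, rfl⟩
    exact HeightOneSpectrum.ext (below_smul j (hU u hu) P).symm
  · apply HeightOneSpectrum.ext
    ext y
    have e : (ι g)⁻¹ • RingOfIntegers.mapRingHom j y = RingOfIntegers.mapRingHom j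
        (RingOfIntegers.mapRingEquiv (r g).toRingEquiv.symm y) := by
      rw [inv_smul_eq_iff]
      apply RingOfIntegers.ext
      have h1 := hr' g ((r g).symm (y : L))
      rw [AlgEquiv.apply_symm_apply] at h1
      exact h1
    show RingOfIntegers.mapRingHom j y ∈ ι g • P ↔ _
    rw [mem_smul, e]
    rfl
  · rintro ⟨l', h1, -, h2⟩
    have h3 : RingOfIntegers.mapRingHom j l' ∈ P := h2
    rw [map_natCast] at h3
    rwa [ov_uniq h ⟨H.pr l' h1, h.2.1, h3⟩]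
  · exact ⟨l, k, h.1.ne_zero, H20.l_mem_below j h.2.2⟩
  · obtain ⟨Φ, h⟩ := H916.exists_extend j φ
    exact ⟨Φ, RingHom.ext h⟩
  · rw [← v.mk_embedding, ← v'.mk_embedding, InfinitePlace.comap_mk, InfinitePlace.comap_mk,
      InfinitePlace.mk_eq_iff] at e
    rcases e with e | e
    · obtain ⟨u, hu, k⟩ := (hE _ _).1 e
      exact ⟨u, hu, by rw [← v.mk_embedding, pI_mk, k, v'.mk_embedding]⟩
    · obtain ⟨u, hu, k⟩ := (hE (ComplexEmbedding.conjugate v.embedding) _).1 e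
      exact ⟨u, hu, by
        rw [← v.mk_embedding, ← InfinitePlace.mk_conjugate_eq, pI_mk, k, v'.mk_embedding]⟩
  · rintro ⟨u, hu, rfl⟩
    rw [← v.mk_embedding, pI_mk, InfinitePlace.comap_mk, InfinitePlace.comap_mk,
      (hE _ _).2 ⟨u, hu, rfl⟩]

theorem okl : OKL := by
  intro G _ _ _ _ ι p _ ω T Q hQ U H
  obtain ⟨P, hP⟩ := ex_ov (H.pr p H.pT)
  have ne : Nonempty (ov T) := ⟨⟨P, p, H.pT, hP⟩⟩
  refine ⟨⟨ne, in_cj ι fun g R hR => hR.imp (ov_stb ι T g R) (hQ g R), fo_T ι H.emb T⟩,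
    ⟨ne, in_cj ι (ov_stb ι T), fo_T ι H.emb T⟩, ⟨H.nor, H.opn, ?_⟩, ?_⟩
  · rintro i ⟨l, R, h1, h2, h3⟩
    obtain ⟨u, hu, e⟩ := H.unr l (fun k => h2 ⟨l, k, h1⟩) R h1 _ h3
    rwa [← H.emb.injective e]
  · rintro i ⟨l, R, h1, h2, h3⟩
    exact ⟨l, R, h1, fun k => h2 (Or.inl k), h3⟩

theorem lev : LEV := by
  intro G _ _ _ _ ι p _ ω U H B h2 he hc hn ho l1 l2 hn' l3
  classical
  have oH := Subgroup.isOpen_mono l1 ho
  have oB := Subgroup.isOpen_mono l2 oH
  obtain ⟨R, pR, hR⟩ := P022E.GW.Hy.ex_ram (map_open ι he ho)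
  obtain ⟨A, pA, hA⟩ := P022E.GW.Hy.ex_bg (map_open ι he ho)
  obtain ⟨A', pA', hA'⟩ := P022E.GW.Hy.ex_bg (map_open ι he oH)
  refine ⟨insert p (R ∪ (A ∪ A')), fun l hl => ?_, fun T hT pT Q hQ qp qf => ?_⟩
  · simp only [Finset.mem_insert, Finset.mem_union] at hl
    rcases hl with rfl | h | h | h
    exacts [Fact.out, pR l h, pA l h, pA' l h]
  have hp : p ∈ T := hT (by simp)
  have hu : ∀ l ∉ T, ∀ P : Id, Ov l P → ∀ g, Inert P g → g ∈ U.map ι :=
    fun l hl => hR l fun k => hl (hT (by simp [k]))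
  have e : (H.subgroupOf B).map (ι.comp B.subtype) = H.map ι := by
    rw [← Subgroup.map_map, Subgroup.map_subgroupOf_eq_of_le l2]
  haveI : Finite (G ⧸ B) := B.quotient_finite_of_isOpen oB
  refine ⟨⟨h2, he, hc, hp, pT, hn, ho, fun u h => l3 (l1 h), hu,
      hA T fun l k => hT (by simp [k]), qp, qf⟩,
    isCompact_iff_compactSpace.1 (B.isClosed_of_isOpen oB).isCompact,
    h2, he.comp oB.isOpenEmbedding_subtypeVal, fun g => hc g.1, hp, pT, hn',
    oH.preimage continuous_subtype_val, fun u h => l3 h, fun l hl P hP g hg => ?_, ?_, qp, ?_⟩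
  · rw [e]
    exact Subgroup.map_mono l1 (hu l hl P hP g hg)
  · rw [e]
    exact hA' T fun l k => hT (by simp [k])
  · exact fo_comp qf B.subtype (by
      rw [Subgroup.range_subtype]; exact Subgroup.index_ne_zero_of_finite) fun g y =>
      Subtype.ext (pm_coe (ι.comp B.subtype) (fun g => hQ g.1) g y)

theorem sti : STI := by
  intro G _ ι hι v
  have h := Subgroup.card_dvd_of_injective
    (((ι.comp (stb (pI ι) v).subtype)).codRestrict (MulAction.stabilizer GQ v) fun g => g.2)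
    fun a b e => Subtype.ext (hι (congrArg Subtype.val e))
  rcases InfinitePlace.nat_card_stabilizer_eq_one_or_two ℚ v with e | e
  · exact (h.trans e.dvd).trans (one_dvd 2)
  · exact h.trans e.dvd

end Vale.Agent.P022K.GW
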