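import Vale.Agent.P022K.GW.Abs
import Vale.Agent.P022E.GW.Defs
import Vale.Agent.P011.ArP.Defs

/-!
# P022K, block GW: the arithmetic statements and the outputs (odd `p`, any number field)

`ι : G →* GQ` is an open embedding (the identity, or the inclusion of an open subgroup).
-/

set_option linter.all false

noncomputable section

namespace Vale.Agent.P022K.GW

open NumberField IsDedekindDomain Module
open scoped Pointwise
open Vale.Agent.P022 Vale.Agent.P022.C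
open Vale.Agent.P027M.S (Inert)
open Vale.Agent.P022D.W (dec)
open Vale.Agent.P022E.GW (Ov Fb Bg Ch Cb)
open Vale.Agent.P011.ArP (Mu Pw LS)

/-- ideals of the ring of all algebraic integers -/
abbrev Id : Type := Ideal (𝓞 Qb)

/-- the primes above `T` -/
def ov (T : Finset ℕ) : Set Id := {P | ∃ l ∈ T, Ov l P}

theorem ov_smul {l : ℕ} {P : Id} (h : Ov l P) (g : GQ) : Ov l (g • P) := by
  refine ⟨h.1, ?_, ?_⟩
  · have := h.2.1
    exact Ideal.IsPrime.smul g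
  · rw [Ideal.mem_pointwise_smul_iff_inv_smul_mem]
    have e : g⁻¹ • (l : 𝓞 Qb) = l := map_natCast (MulSemiringAction.toRingHom GQ (𝓞 Qb) g⁻¹) l
    rw [e]; exact h.2.2

section

variable {G : Type} [Group G] (ι : G →* GQ)

/-- stable sets of ideals -/
def Stb (A : Set Id) : Prop := ∀ g, ∀ P ∈ A, ι g • P ∈ A

theorem ov_stb (T : Finset ℕ) : Stb ι (ov T) := fun g _ ⟨l, hl, h⟩ => ⟨l, hl, ov_smul h (ι g)⟩

theorem em_stb : Stb ι ∅ := fun _ _ h => h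

/-- the action on a stable set -/
def pm {A : Set Id} (h : Stb ι A) : G →* Equiv.Perm A where
  toFun g :=
    { toFun := fun P => ⟨ι g • P.1, h g _ P.2⟩
      invFun := fun P => ⟨ι g⁻¹ • P.1, h _ _ P.2⟩
      left_inv := fun P => Subtype.ext (by simp)
      right_inv := fun P => Subtype.ext (by simp) }
  map_one' := Equiv.ext fun P => Subtype.ext (by simp)
  map_mul' g g' := Equiv.ext fun P => Subtype.ext (by simp [mul_smul])

theorem pm_coe {A : Set Id} (h : Stb ι A) (g : G) (P : A) : (pm ι h g P).1 = ι g • P.1 := rfl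

/-- the action on the primes above `T` -/
abbrev pT (T : Finset ℕ) : G →* Equiv.Perm (ov T) := pm ι (ov_stb ι T)

/-- the action on the infinite places -/
def pI : G →* Equiv.Perm (InfinitePlace Qb) := (MulAction.toPermHom GQ (InfinitePlace Qb)).comp ι

/-- the action on the complex embeddings -/
def pE : G →* Equiv.Perm (Qb →+* ℂ) where
  toFun g :=
    { toFun := fun φ => φ.comp ((ι g⁻¹ : GQ) : Qb →+* Qb)
      invFun := fun φ => φ.comp ((ι g : GQ) : Qb →+* Qb)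
      left_inv := fun φ => RingHom.ext fun x => by simp
      right_inv := fun φ => RingHom.ext fun x => by simp }
  map_one' := Equiv.ext fun φ => RingHom.ext fun x => by simp
  map_mul' g g' := Equiv.ext fun φ => RingHom.ext fun x => by simp

/-- the inertia elements at the primes outside `A` -/
def In (A : Set Id) : Set G := {g | ∃ (l : ℕ) (P : Id), Ov l P ∧ P ∉ A ∧ Inert P (ι g)}

/-- `ω` is the cyclotomic character -/
def Cy (p : ℕ) (ω : G →* (ZMod p)ˣ) : Prop :=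
  ∀ g (x : Qb), x ^ p = 1 → ι g x = x ^ (ω g : ZMod p).val

variable [TopologicalSpace G]

/-- a level: the field of `U` contains the roots of unity of order `p`, is not ramified outside
`T`, and `T` is big for it; `Q` is a finite union of orbits of primes outside `T` -/
structure Lv (p : ℕ) (ω : G →* (ZMod p)ˣ) (T : Finset ℕ) {Q : Set Id} (hQ : Stb ι Q)
    (U : Subgroup G) : Prop where
  odd : p ≠ 2
  emb : Topology.IsOpenEmbedding ι
  cy : Cy ι p ω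
  pT : p ∈ T
  pr : ∀ l ∈ T, l.Prime
  nor : U.Normal
  opn : IsOpen (U : Set G)
  om : ∀ u ∈ U, ω u = 1
  unr : ∀ l ∉ T, ∀ P : Id, Ov l P → ∀ g, Inert P g → g ∈ U.map ι
  big : Bg (U.map ι) T
  qp : ∀ P ∈ Q, ∃ l ∉ T, Ov l P
  qf : Fo (pm ι hQ)

end

/-! ### rows: the Kummer dictionary over a number field which contains the roots of unity -/

/-- `f` is the Kummer character of `b` -/
def Km {p : ℕ} {L : Type} [Field L] (M : Mu p L) (j : L →+* Qb) (b : Lˣ) (f : GQ → ZMod p) :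
    Prop := ∃ β : Qb, β ^ p = j b ∧ ∀ h ∈ GK j, h β = j M.ζ ^ (f h).val * β

/-- Kummer theory -/
def KUM1 : Prop := ∀ (p : ℕ) [Fact p.Prime] (L : Type) [Field L] [NumberField L] (M : Mu p L)
  (j : L →+* Qb), (∀ b, ∃ f, Km M j b f) ∧ (∀ b f, Km M j b f → Ch (GK j) f) ∧
    (∀ b f f', Km M j b f → Km M j b f' → ∀ h ∈ GK j, f h = f' h) ∧
    (∀ b b' f f', Km M j b f → Km M j b' f' → Km M j (b * b') (f + f')) ∧
    (∀ b f, Km M j b f → ((∀ h ∈ GK j, f h = 0) ↔ b ∈ Pw p L)) ∧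
    (∀ f, Ch (GK j) f → ∃ b, Km M j b f) ∧
    ∀ (g : GQ) (τ : L ≃+* L) (n : ZMod p) (b : Lˣ) (f : GQ → ZMod p), (∀ x, j (τ x) = g (j x)) →
      τ M.ζ = M.ζ ^ n.val → Km M j b f →
      Km M j (Units.map (τ : L →* L) b) fun h => n * f (g⁻¹ * h * g)

/-- ramification at the primes prime to `p` -/
def KUM2 : Prop := ∀ (p : ℕ) [Fact p.Prime] (L : Type) [Field L] [NumberField L] (M : Mu p L)
  (j : L →+* Qb) (l : ℕ) (P : Id) (w : HeightOneSpectrum (𝓞 L)), Ov l P → l ≠ p →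
  below j P = w.asIdeal → ∃ τ ∈ GK j, Inert P τ ∧ ∀ b f, Km M j b f →
    f τ = (ordv w (b : L) : ZMod p) ∧ (f τ = 0 → ∀ i ∈ GK j, Inert P i → f i = 0)

/-- local powers -/
def KUM3 : Prop := ∀ (p : ℕ) [Fact p.Prime] (L : Type) [Field L] [NumberField L] (M : Mu p L)
  (j : L →+* Qb) (l : ℕ) (P : Id) (w : HeightOneSpectrum (𝓞 L)), Ov l P →
  below j P = w.asIdeal → ∀ b f, Km M j b f →
    ((∀ g ∈ GK j ⊓ dec P, f g = 0) ↔ b ∈ LS M (w.valuation L))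

/-- local characters are global -/
def KUM4 : Prop := ∀ (p : ℕ) [Fact p.Prime] (L : Type) [Field L] [NumberField L] (M : Mu p L)
  (j : L →+* Qb) (l : ℕ) (P : Id) (f : GQ → ZMod p), Ov l P → Ch (GK j ⊓ dec P) f →
    ∃ b f', Km M j b f' ∧ ∀ g ∈ GK j ⊓ dec P, f' g = f g

/-- the reciprocity law for two Kummer classes; `S` is the set of the other places where `b` is
ramified -/
def REC0 : Prop := ∀ (p : ℕ) [Fact p.Prime] (L : Type) [Field L] [NumberField L] (M : Mu p L)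
  (j : L →+* Qb) (T : Finset ℕ) (b u : Lˣ) (y : GQ → ZMod p)
  (a : HeightOneSpectrum (𝓞 L) → ZMod p), p ∈ T → Km M j u y →
  (∀ l ∉ T, ∀ P : Id, Ov l P → ∀ i ∈ GK j, Inert P i → y i = 0) →
  (∀ w ∈ P022D.Sel.ov L T, a w = 0 ∧ b ∈ LS M (w.valuation L)) →
  (∀ w ∉ P022D.Sel.ov L T, ∀ (P : Id) (g : GK j), FrI j w P g → y g = a w) →
  ∑ᶠ w : HeightOneSpectrum (𝓞 L), (ordv w (b : L) : ZMod p) * a w = 0

/-- `φ` generates the decomposition group in `H` modulo the inertia group -/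
def Gn (H : Subgroup GQ) (P : Id) (φ : GQ) : Prop :=
  φ ∈ H ⊓ dec P ∧ ∀ W : Subgroup GQ, IsOpen (W : Set GQ) → (∀ i ∈ H, Inert P i → i ∈ W) →
    ∀ g ∈ H ⊓ dec P, ∃ n : ℕ, (φ ^ n)⁻¹ * g ∈ W

/-- Frobenius elements -/
def FRB : Prop := (∀ (g : GQ) (P : Id), g ∈ dec P ↔ g • P = P) ∧
  (∀ (l : ℕ) (P : Id) (φ : GQ), Ov l P → Fb l P φ → Gn ⊤ P φ) ∧
  (∀ (L : Type) [Field L] [NumberField L] (j : L →+* Qb) (l : ℕ) (P : Id)
    (w : HeightOneSpectrum (𝓞 L)), Ov l P → below j P = w.asIdeal →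
    (∃ g, FrI j w P g) ∧ ∀ g, FrI j w P g → Gn (GK j) P g) ∧
  ∀ (H : Subgroup GQ) (l : ℕ) (P : Id), IsOpen (H : Set GQ) → Ov l P → ∃ φ, Gn H P φ

/-- the field of a level -/
def FLD : Prop := ∀ (G : Type) [Group G] [TopologicalSpace G] (ι : G →* GQ) (p : ℕ)
  [Fact p.Prime] (ω : G →* (ZMod p)ˣ) (T : Finset ℕ) (Q : Set Id) (hQ : Stb ι Q) (U : Subgroup G),
  Lv ι p ω T hQ U → ∃ (L : Type) (_ : Field L) (_ : NumberField L) (M : Mu p L) (j : L →+* Qb)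
    (r : G →* (L ≃ₐ[ℚ] L)) (dn : ∀ (l : ℕ) (P : Id), Ov l P → HeightOneSpectrum (𝓞 L)),
    GK j = U.map ι ∧ P022D.Sel.Big L T ∧ (∀ g x, j (r g x) = ι g (j x)) ∧
    (∀ g, r g M.ζ = M.ζ ^ (ω g : ZMod p).val) ∧ (∀ l P h, below j P = (dn l P h).asIdeal) ∧
    (∀ w, ∃ l P h, dn l P h = w) ∧
    (∀ l P h l' P' h', dn l P h = dn l' P' h' ↔ ∃ u ∈ U, ι u • P = P') ∧
    (∀ l P h g, dn l (ι g • P) (ov_smul h (ι g)) = P022D.Sel.mv (r g).toRingEquiv (dn l P h)) ∧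
    (∀ l P h, dn l P h ∈ P022D.Sel.ov L T ↔ l ∈ T) ∧
    (∀ φ : L →+* ℂ, ∃ Φ : Qb →+* ℂ, Φ.comp j = φ) ∧
    (∀ Φ Φ' : Qb →+* ℂ, Φ.comp j = Φ'.comp j ↔ ∃ u ∈ U, pE ι u Φ = Φ') ∧
    ∀ v v' : InfinitePlace Qb, v.comap j = v'.comap j ↔ ∃ u ∈ U, pI ι u v = v'

/-! ### rows: the classes of the Galois modules -/

/-- the global class (unit theorem) -/
def GCL : Prop := ∀ (G : Type) [Group G] [TopologicalSpace G] [IsTopologicalGroup G]
  [CompactSpace G] (ι : G →* GQ) (p : ℕ) [Fact p.Prime] (ω : G →* (ZMod p)ˣ) (T : Finset ℕ)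
  (Q : Set Id) (hQ : Stb ι Q) (U : Subgroup G), Lv ι p ω T hQ U →
  Finite (Gl p (In ι (ov T ∪ Q)) U) ∧ ∀ Ψ : AF G, Ψ.Add p U → ∀ χ : G →* (ZMod p)ˣ,
    (∀ u ∈ U, χ u = 1) →
    Ψ.sq (fa (cj G) (ω * χ)) (Gl p (In ι (ov T ∪ Q)) U) ⊥ + Ψ.ch χ =
      Ψ.fu (pT ι T) U χ + Ψ.fu (pm ι hQ) U χ + Ψ.fu (pI ι) U χ + Ψ.ch (ω * χ)

/-- the local class -/
def LCL : Prop := ∀ (G : Type) [Group G] [TopologicalSpace G] [IsTopologicalGroup G]
  [CompactSpace G] (ι : G →* GQ) (p : ℕ) [Fact p.Prime] (ω : G →* (ZMod p)ˣ) (T : Finset ℕ)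
  (Q : Set Id) (hQ : Stb ι Q) (U : Subgroup G), Lv ι p ω T hQ U →
  Finite (Lo p (pT ι T) U) ∧ ∀ Ψ : AF G, Ψ.Add p U → ∀ χ : G →* (ZMod p)ˣ, (∀ u ∈ U, χ u = 1) →
    Ψ.sq (fa (pj (pT ι T)) (ω * χ)) (Lo p (pT ι T) U) ⊥ =
      Ψ.fu (pT ι T) U χ + Ψ.fu (pT ι T) U (ω * χ) + Ψ.fu (pE ι) U χ

/-- even and odd functions on the embeddings -/
def INF : Prop := ∀ (G : Type) [Group G] [TopologicalSpace G] [IsTopologicalGroup G]
  [CompactSpace G] (ι : G →* GQ) (p : ℕ) [Fact p.Prime] (ω : G →* (ZMod p)ˣ) (U : Subgroup G),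
  p ≠ 2 → Topology.IsOpenEmbedding ι → Cy ι p ω → U.Normal → IsOpen (U : Set G) →
  (∀ u ∈ U, ω u = 1) → Fo (pI ι) ∧ Fo (pE ι) ∧ ∀ Ψ : AF G, Ψ.Add p U → ∀ χ : G →* (ZMod p)ˣ,
    (∀ u ∈ U, χ u = 1) → Ψ.fu (pE ι) U χ = Ψ.fu (pI ι) U χ + Ψ.fu (pI ι) U (ω * χ)

/-- orders and Frobenius elements at `Q`, and the reciprocity law -/
def TAM : Prop := ∀ (G : Type) [Group G] [TopologicalSpace G] [IsTopologicalGroup G]
  [CompactSpace G] (ι : G →* GQ) (p : ℕ) [Fact p.Prime] (ω : G →* (ZMod p)ˣ) (T : Finset ℕ)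
  (Q : Set Id) (hQ : Stb ι Q) (U : Subgroup G), Lv ι p ω T hQ U →
  ∃ τ φ : Q → G,
    (∀ f ∈ Gl p (In ι (ov T ∪ Q)) U,
      (∀ g x, f (g * τ x * g⁻¹) = (ω g : ZMod p) * f (τ (pm ι hQ g x))) ∧
      ((∀ x, f (τ x) = 0) → f ∈ Gl p (In ι (ov T)) U)) ∧
    (∀ y ∈ Gl p (In ι (ov T)) U, (∀ g x, y (g * φ x * g⁻¹) = y (φ (pm ι hQ g x))) ∧
      ((∀ x, y (φ x) = 0) ↔ y ∈ Kr p (pm ι hQ) (In ι (ov T)) U)) ∧
    ∀ f ∈ Kr p (pT ι T) (In ι (ov T ∪ Q)) U, ∀ y ∈ Gl p (In ι (ov T)) U, ∀ R : Finset Q,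
      (∀ x, ∃ r ∈ R, ∃ u ∈ U, pm ι hQ u r = x) →
      (∀ r ∈ R, ∀ r' ∈ R, ∀ u ∈ U, pm ι hQ u r = r' → r = r') → ∑ x ∈ R, f (τ x) * y (φ x) = 0

/-- no character is trivial at all places above `T` -/
def SHA1 : Prop := ∀ (G : Type) [Group G] [TopologicalSpace G] [IsTopologicalGroup G]
  [CompactSpace G] (ι : G →* GQ) (p : ℕ) [Fact p.Prime] (ω : G →* (ZMod p)ˣ) (T : Finset ℕ)
  (Q : Set Id) (hQ : Stb ι Q) (U : Subgroup G), Lv ι p ω T hQ U →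
  Kr p (pT ι T) (In ι (ov T)) U = ⊥

/-- the places of a level -/
def OKL : Prop := ∀ (G : Type) [Group G] [TopologicalSpace G] [IsTopologicalGroup G]
  [CompactSpace G] (ι : G →* GQ) (p : ℕ) [Fact p.Prime] (ω : G →* (ZMod p)ˣ) (T : Finset ℕ)
  (Q : Set Id) (hQ : Stb ι Q) (U : Subgroup G), Lv ι p ω T hQ U →
  Ok (pT ι T) (In ι (ov T ∪ Q)) ∧ Ok (pT ι T) (In ι (ov T)) ∧ Ad (In ι (ov T)) U ∧
    In ι (ov T ∪ Q) ⊆ In ι (ov T)

/-- **the count** -/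
def EUL : Prop := ∀ (G : Type) [Group G] [TopologicalSpace G] [IsTopologicalGroup G]
  [CompactSpace G] (ι : G →* GQ) (p : ℕ) [Fact p.Prime] (ω : G →* (ZMod p)ˣ) (T : Finset ℕ)
  (Q : Set Id) (hQ : Stb ι Q) (U : Subgroup G), Lv ι p ω T hQ U →
  Eul p (pT ι T) (pm ι hQ) (pI ι) (In ι (ov T ∪ Q)) ω U ∧
    Eul p (pT ι T) (1 : G →* Equiv.Perm Empty) (pI ι) (In ι (ov T)) ω U

/-- **the bound given by reciprocity** -/
def RECI : Prop := ∀ (G : Type) [Group G] [TopologicalSpace G] [IsTopologicalGroup G]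
  [CompactSpace G] (ι : G →* GQ) (p : ℕ) [Fact p.Prime] (ω : G →* (ZMod p)ˣ) (T : Finset ℕ)
  (Q : Set Id) (hQ : Stb ι Q) (U : Subgroup G), Lv ι p ω T hQ U →
  Rec p (pT ι T) (pm ι hQ) (pI ι) (In ι (ov T ∪ Q)) (In ι (ov T)) ω U

/-! ### rows: classes of degree two -/

/-- the local global principle -/
def HASP : Prop := ∀ (p : ℕ) [Fact p.Prime] (H : Subgroup GQ) (z : GQ → GQ → ZMod p), p ≠ 2 →
  IsOpen (H : Set GQ) → (∀ h ∈ H, ∀ x : Qb, x ^ p = 1 → h x = x) → P022E.GW.Z2 H z →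
  (∀ (l : ℕ) (P : Id), Ov l P → Cb (H ⊓ dec P) z) → Cb H z

/-- unramified cocycles -/
def UNRP : Prop := ∀ (p : ℕ) [Fact p.Prime] (H : Subgroup GQ) (l : ℕ) (P : Id)
  (z : GQ → GQ → ZMod p), IsOpen (H : Set GQ) → Ov l P → P022E.GW.Z2 (H ⊓ dec P) z →
  (∀ g ∈ H ⊓ dec P, ∀ h ∈ H ⊓ dec P, ∀ i ∈ H, Inert P i →
    z (g * i) h = z g h ∧ z g (h * i) = z g h) → Cb (H ⊓ dec P) z

/-- removal of the ramification outside a big set -/
def FIXP : Prop := ∀ (p : ℕ) [Fact p.Prime] (H : Subgroup GQ) (T : Finset ℕ) (w : GQ → ZMod p),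
  p ≠ 2 → (∀ h ∈ H, ∀ x : Qb, x ^ p = 1 → h x = x) → Bg H T → p ∈ T →
  (∃ U : Subgroup GQ, IsOpen (U : Set GQ) ∧ ∀ σ ∈ H ⊓ U, w σ = 0) →
  (∀ l ∉ T, ∀ P : Id, Ov l P → ∀ i ∈ H, Inert P i →
    (∀ i' ∈ H, Inert P i' → w (i * i') = w i + w i') ∧ ∀ g ∈ H, w (g * i * g⁻¹) = w i) →
  ∃ b : GQ → ZMod p, Ch H b ∧ ∀ l ∉ T, ∀ P : Id, Ov l P → ∀ i ∈ H, Inert P i → b i = w i

/-- **no class of degree two is trivial at all places above `T`** -/
def SHA2 : Prop := ∀ (G : Type) [Group G] [TopologicalSpace G] [IsTopologicalGroup G]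
  [CompactSpace G] (ι : G →* GQ) (p : ℕ) [Fact p.Prime] (ω : G →* (ZMod p)ˣ) (T : Finset ℕ)
  (Q : Set Id) (hQ : Stb ι Q) (U : Subgroup G), Lv ι p ω T hQ U →
  Sha2 p (pT ι T) (In ι (ov T)) U

/-! ### the representation -/

section

variable {G k : Type} [Group G] [Field k]

/-- matrices of trace zero -/
abbrev sl (k : Type) [Field k] : Submodule k (Matrix (Fin 2) (Fin 2) k) :=
  LinearMap.ker (Matrix.traceLinearMap (Fin 2) k k)

/-- the adjoint representation on the matrices of trace zero -/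
def ad0 (ρ : G →* GL (Fin 2) k) : Representation k G (sl k) where
  toFun g :=
    { toFun := fun m => ⟨(ρ g).1 * m.1 * (ρ g⁻¹).1, by
        have := m.2
        rw [LinearMap.mem_ker, Matrix.traceLinearMap_apply] at this ⊢
        rw [Matrix.trace_mul_cycle, ← Units.val_mul, ← map_mul, inv_mul_cancel, map_one,
          Units.val_one, one_mul, this]⟩
      map_add' := fun a b => Subtype.ext (by simp [mul_add, add_mul])
      map_smul' := fun c a => Subtype.ext (by simp) }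
  map_one' := by ext1 m; exact Subtype.ext (by simp)
  map_mul' g h := by ext1 m; exact Subtype.ext (by simp [mul_assoc])

theorem ad0_coe (ρ : G →* GL (Fin 2) k) (g : G) (m : sl k) :
    (ad0 ρ g m).1 = (ρ g).1 * m.1 * (ρ g⁻¹).1 := rfl

/-- distinct eigenvalues -/
def Rg (m : GL (Fin 2) k) : Prop := m.1.trace ^ 2 ≠ 4 * m.1.det

/-- a good piece: projective, the twisted dual has no invariants and no classes of finite level,
and `Z` acts trivially -/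
structure Pc (ω : G →* kˣ) (U H Z : Subgroup G) (N : Type) [AddCommGroup N] [Module k N]
    (ν : Representation k G N) : Prop where
  fin : Module.Finite k N
  hig : Hig H ν
  h0 : Fx (1 : G →* Equiv.Perm Unit) (tw ω ν.dual) = ⊥
  h0' : Fx (1 : G →* Equiv.Perm Unit) (tw ω⁻¹ ν) = ⊥
  h1 : ∀ y : G → Module.Dual k N, (∀ g ∈ H, ∀ h ∈ H, y (g * h) = y g + y h) →
    (∀ u ∈ U, y u = 0) → (∀ g, ∀ h ∈ H, y (g * h * g⁻¹) = tw ω ν.dual g (y h)) → ∀ h ∈ H, y h = 0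
  cen : ∀ z ∈ Z, ν z = 1

/-- **the group theoretic hypothesis** -/
def Adq (ρ : G →* GL (Fin 2) k) (ω : G →* kˣ) : Prop :=
  (∃ H' H B : Subgroup G, TI k (ρ.ker ⊓ ω.ker) H' B ∧ ρ.ker ⊓ ω.ker ≤ H ∧ H ≤ B ∧
    (H.subgroupOf B).Normal ∧ H ≤ ω.ker ∧
    Fl (Pc (ω.comp B.subtype) ((ρ.ker ⊓ ω.ker).subgroupOf B) (H.subgroupOf B)
      (((Subgroup.center _).comap ρ).subgroupOf B)) (sl k) ((ad0 ρ).comp B.subtype) ∧
    (Subgroup.center _).comap ρ ≤ B) ∧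
  ∀ (W : Type) [AddCommGroup W] [Module k W] [Nontrivial W] (σ : Representation k G W),
    (∀ z, ρ z ∈ Subgroup.center _ → ω z = 1 → σ z = 1) →
    ∃ (s : G) (w : W), ω s = 1 ∧ Rg (ρ s) ∧ w ≠ 0 ∧ σ s w = w

end

/-! ### the outputs -/

section

variable {G k : Type} [Group G] [Field k] (ι : G →* GQ) (ρ : G →* GL (Fin 2) k)

/-- an auxiliary prime of degree one -/
structure Tw (m : ℕ) (S : Finset ℕ) (l : ℕ) (P : Id) (φ : G) : Prop where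
  out : l ∉ S
  ov : Ov l P
  fb : Fb l P (ι φ)
  deg : dec P ≤ ι.range
  cg : m ∣ l - 1
  rg : Rg (ρ φ)

/-- the union of the orbits -/
def orb {J : Type} (P : J → Id) : Set Id := {R | ∃ i g, ι g • P i = R}

theorem orb_stb {J : Type} (P : J → Id) : Stb ι (orb ι P) := by
  rintro g _ ⟨i, h, rfl⟩
  exact ⟨i, g * h, by rw [map_mul, mul_smul]⟩

end

/-- **Taylor Wiles primes**; `A` is the set of the framed primes -/
def TWO : Prop := ∀ (G k : Type) [Group G] [TopologicalSpace G] [IsTopologicalGroup G]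
  [CompactSpace G] [Field k] [Finite k] (ι : G →* GQ) (p : ℕ) [Fact p.Prime] [CharP k p]
  (ω : G →* (ZMod p)ˣ) (ρ : G →* GL (Fin 2) k) (A : Set Id) (hA : Stb ι A), p ≠ 2 →
  Topology.IsOpenEmbedding ι → Cy ι p ω → IsOpen {g | ρ g = 1} → Adq ρ (up ω) → A.Nonempty →
  Fo (pm ι hA) → (∀ P ∈ A, ∃ l, Ov l P) → (∀ g ∈ In ι A, ρ g = 1) →
  ∃ r₀ : ℕ, ∀ r ≥ r₀, ∀ (n : ℕ) (S : Finset ℕ), ∃ (l : Fin r → ℕ) (P : Fin r → Id) (φ : Fin r → G),
    Function.Injective l ∧ (∀ i, Tw ι ρ (p ^ n) S (l i) (P i) (φ i)) ∧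
    Module.Finite k (Zc (pm ι hA) (In ι (A ∪ orb ι P)) (ad0 ρ)) ∧
    finrank k (Zc (pm ι hA) (In ι (A ∪ orb ι P)) (ad0 ρ)) + finrank k (Fx (pI ι) (ad0 ρ)) ≤ 3 + r

/-- **the obstruction space** -/
def OBO : Prop := ∀ (G k : Type) [Group G] [TopologicalSpace G] [IsTopologicalGroup G]
  [CompactSpace G] [Field k] [Finite k] (ι : G →* GQ) (p : ℕ) [Fact p.Prime] [CharP k p]
  (ω : G →* (ZMod p)ˣ) (ρ : G →* GL (Fin 2) k), p ≠ 2 → Topology.IsOpenEmbedding ι → Cy ι p ω →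
  IsOpen {g | ρ g = 1} → Adq ρ (up ω) → ∃ T₀ : Finset ℕ, (∀ l ∈ T₀, l.Prime) ∧
    ∀ T : Finset ℕ, T₀ ⊆ T → (∀ l ∈ T, l.Prime) → Up2 (pT ι T) (pI ι) (In ι (ov T)) (ad0 ρ) 0

/-- the infinite places of a totally real field, for a totally odd representation -/
def ODD : Prop := ∀ (G k : Type) [Group G] [TopologicalSpace G] [Field k] (ι : G →* GQ)
  (ρ : G →* GL (Fin 2) k), (2 : k) ≠ 0 → Topology.IsOpenEmbedding ι →
  (∀ c, IsConj c → ∃ g, ι g = c ∧ (ρ g).1.det = -1) →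
  finrank k (Fx (pI ι) (ad0 ρ)) = ι.range.index

/-- the stabilisers of the infinite places -/
def STI : Prop := ∀ (G : Type) [Group G] (ι : G →* GQ), Function.Injective ι →
  ∀ v, Nat.card (stb (pI ι) v) ∣ 2

/-- regular elements -/
def RGO : Prop := ∀ (G k : Type) [Group G] [Field k] [Finite k] (ρ : G →* GL (Fin 2) k) (g : G),
  (2 : k) ≠ 0 → Rg (ρ g) → (∃ n : ℕ, (n : k) ≠ 0 ∧ ρ g ^ n = 1) ∧
    finrank k (LinearMap.ker (ad0 ρ g - LinearMap.id)) ≤ 1 ∧ finrank k (sl k) = 3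

/-- existence of levels -/
def LEV : Prop := ∀ (G : Type) [Group G] [TopologicalSpace G] [IsTopologicalGroup G]
  [CompactSpace G] (ι : G →* GQ) (p : ℕ) [Fact p.Prime] (ω : G →* (ZMod p)ˣ)
  (U H B : Subgroup G), p ≠ 2 → Topology.IsOpenEmbedding ι → Cy ι p ω → U.Normal →
  IsOpen (U : Set G) → U ≤ H → H ≤ B → (H.subgroupOf B).Normal → H ≤ ω.ker →
  ∃ T₀ : Finset ℕ, (∀ l ∈ T₀, l.Prime) ∧ ∀ T : Finset ℕ, T₀ ⊆ T → (∀ l ∈ T, l.Prime) →
    ∀ (Q : Set Id) (hQ : Stb ι Q), (∀ P ∈ Q, ∃ l ∉ T, Ov l P) → Fo (pm ι hQ) →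
      Lv ι p ω T hQ U ∧ CompactSpace B ∧
      Lv (ι.comp B.subtype) p (ω.comp B.subtype) T (fun g => hQ g.1) (H.subgroupOf B)

/-- one more auxiliary prime which sees a given class -/
def KILL : Prop := ∀ (G k N : Type) [Group G] [TopologicalSpace G] [IsTopologicalGroup G]
  [CompactSpace G] [Field k] [Finite k] [AddCommGroup N] [Module k N] (ι : G →* GQ) (p : ℕ)
  [Fact p.Prime] [CharP k p] (ω : G →* (ZMod p)ˣ) (ρ : G →* GL (Fin 2) k) (H B : Subgroup G)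
  (ν : Representation k B N), p ≠ 2 → Topology.IsOpenEmbedding ι → Cy ι p ω →
  IsOpen {g | ρ g = 1} → Adq ρ (up ω) → ρ.ker ⊓ (up ω : G →* kˣ).ker ≤ H → H ≤ B →
  (Subgroup.center _).comap ρ ≤ B →
  Pc ((up ω).comp B.subtype) ((ρ.ker ⊓ (up ω : G →* kˣ).ker).subgroupOf B) (H.subgroupOf B)
    (((Subgroup.center _).comap ρ).subgroupOf B) N ν →
  ∀ (n : ℕ) (S : Finset ℕ), (∃ l P φ, Tw ι ρ (p ^ n) S l P φ) ∧
    ∀ y : B → Module.Dual k N, (∀ g ∈ H.subgroupOf B, ∀ h ∈ H.subgroupOf B, y (g * h) = y g + y h) →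
      (∀ g ∉ H.subgroupOf B, y g = 0) → (∃ W, Ad (∅ : Set B) W ∧ ∀ w ∈ W, y w = 0) →
      (∀ g u, y (g * u * g⁻¹) = tw ((up ω).comp B.subtype) ν.dual g (y u)) → y ≠ 0 →
      ∃ l P φ, Tw ι ρ (p ^ n) S l P φ ∧ ∃ (g : G) (d : B), ι d • ι g • P = ι g • P ∧ y d ≠ 0

end Vale.Agent.P022K.GW
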