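import Vale.Agent.P022K.GW.Defs
import Vale.Agent.P022E.GW.Unr

/-!
# P022K, block GW: unramified two cocycles on a decomposition group (row `UNRP`)
-/

set_option linter.all false

open NumberField

noncomputable section

namespace Vale.Agent.P022K.GW

open Vale.Agent.P022 Vale.Agent.P022.H443 Vale.Agent.P022D.W
open Vale.Agent.P022D.L2c (IsZ2 Cob)
open Vale.Agent.P022E.GW.Unr (unif closed ex_pow deg dpow split lc_of)

namespace Unr

section grp

variable {X F : Type} [Group X] [TopologicalSpace X] [Field F]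

theorem z2_left {f : X → X → F} (hf : IsZ2 f) (g : X) : f 1 g = f 1 1 := by
  have h := hf.2 1 1 g
  rw [one_mul, one_mul] at h
  exact add_left_cancel h

theorem z2_right {f : X → X → F} (hf : IsZ2 f) (g : X) : f g 1 = f 1 1 := by
  have h := hf.2 g 1 1
  rw [mul_one, mul_one] at h
  exact (add_right_cancel h).symm

/-- a cocycle inflated from a cyclic group of order `n` dies on a cyclic group of order `p n` -/
theorem cyc {p : ℕ} (hp : p.Prime) [CharP F p] {f : X → X → F} (hf : IsZ2 f) {n : ℕ} (hn : n ≠ 0)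
    (c : X → ZMod (p * n)) (hc : ∀ g h, c (g * h) = c g + c h) (lc : IsLocallyConstant c)
    (inv : ∀ u (j : ℕ), c u = (n * j : ℕ) → ∀ g h, f (g * u) h = f g h ∧ f g (h * u) = f g h)
    (ex : ∃ u, c u = n) : f ∈ Cob F X := by
  classical
  haveI : NeZero (p * n) := ⟨mul_ne_zero hp.ne_zero hn⟩
  let c' : X →* Multiplicative (ZMod (p * n)) :=
    MonoidHom.mk' (fun g => Multiplicative.ofAdd (c g)) fun g h => by rw [hc, ofAdd_add]
  obtain ⟨⟨_, ψ, rfl⟩, hψ⟩ := IsCyclic.exists_monoid_generator (α := c'.range)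
  have gen : ∀ g, ∃ k : ℕ, c g = k • c ψ := fun g => by
    obtain ⟨k, hk⟩ := hψ ⟨c' g, g, rfl⟩
    exact ⟨k, (congrArg (fun z : c'.range => Multiplicative.toAdd z.1) hk).symm⟩
  have cpow : ∀ k : ℕ, c (ψ ^ k) = k • c ψ := fun k =>
    congrArg Multiplicative.toAdd (map_pow c' ψ k)
  have cinv : ∀ g, c g⁻¹ = - c g := fun g => congrArg Multiplicative.toAdd (map_inv c' g)
  have n0 : (n : ZMod (p * n)) ≠ 0 := fun h => by
    have := Nat.le_of_dvd (Nat.pos_of_ne_zero hn) ((ZMod.natCast_eq_zero_iff _ _).1 h)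
    have := hp.two_le
    have := Nat.pos_of_ne_zero hn
    nlinarith
  have ev : p ∣ addOrderOf (c ψ) := by
    obtain ⟨u, hu⟩ := ex
    obtain ⟨k, hk⟩ := gen u
    have h2 : addOrderOf (n : ZMod (p * n)) = p := by
      haveI : Fact p.Prime := ⟨hp⟩
      refine addOrderOf_eq_prime ?_ n0
      rw [nsmul_eq_mul, ← Nat.cast_mul, ZMod.natCast_self]
    have h3 : addOrderOf (k • c ψ) ∣ addOrderOf (c ψ) := addOrderOf_smul_dvd k
    rwa [← hk, hu, h2] at h3
  obtain ⟨o, ho⟩ := ev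
  obtain ⟨i, co⟩ : ∃ i : ℕ, c (ψ ^ o) = (n * i : ℕ) := by
    have h1 : p • c (ψ ^ o) = 0 := by
      rw [cpow, ← mul_nsmul', ← ho, addOrderOf_nsmul_eq_zero]
    rw [← ZMod.natCast_zmod_val (c (ψ ^ o)), nsmul_eq_mul, ← Nat.cast_mul,
      ZMod.natCast_eq_zero_iff, Nat.mul_dvd_mul_iff_left hp.pos] at h1
    obtain ⟨i, hi⟩ := h1
    exact ⟨i, by rw [← hi, ZMod.natCast_zmod_val]⟩
  let s : ℕ → F := fun k => ∑ j ∈ Finset.range k, f (ψ ^ j) ψ - f 1 1
  have sadd : ∀ k l, s (k + l) = s k + s l + f (ψ ^ k) (ψ ^ l) := by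
    intro k l
    induction l with
    | zero =>
      simp only [s, add_zero, pow_zero, Finset.range_zero, Finset.sum_empty, z2_right hf]
      ring
    | succ l ih =>
      have h := hf.2 (ψ ^ k) (ψ ^ l) ψ
      rw [← pow_succ, ← pow_add] at h
      simp only [s, ← add_assoc k l 1, Finset.sum_range_succ] at ih ⊢
      linear_combination ih - h
  have so : ∀ j k : ℕ, s (k + o * j) = s k + j * (s o + f 1 1) := fun j k => by
    induction j with
    | zero => simp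
    | succ j ih =>
      have h := (inv _ _ co (ψ ^ (k + o * j)) 1).2
      rw [one_mul] at h
      rw [mul_add, mul_one, ← add_assoc, sadd, h, z2_right hf, ih]
      push_cast
      ring
  have per : ∀ j k, s (k + addOrderOf (c ψ) * j) = s k := fun j k => by
    rw [ho, mul_comm p, mul_assoc, so, Nat.cast_mul, CharP.cast_eq_zero F p]
    ring
  have cg : ∀ k l : ℕ, k • c ψ = l • c ψ → s k = s l := by
    intro k l h
    have h1 : k % addOrderOf (c ψ) = l % addOrderOf (c ψ) := nsmul_eq_nsmul_iff_modEq.1 h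
    rw [← Nat.mod_add_div k (addOrderOf (c ψ)), ← Nat.mod_add_div l (addOrderOf (c ψ)), per, per,
      h1]
  let κ : ZMod (p * n) → ℕ := fun x => if h : ∃ k : ℕ, x = k • c ψ then h.choose else 0
  have hκ : ∀ g, c g = κ (c g) • c ψ := fun g => by
    simp only [κ, dif_pos (gen g)]
    exact (gen g).choose_spec
  refine ⟨fun g => s (κ (c g)), lc.comp fun x => s (κ x), fun g h => ?_⟩
  have e : ∀ g, c ((ψ ^ κ (c g))⁻¹ * g) = (n * 0 : ℕ) := fun g => by
    rw [hc, cinv, cpow, ← hκ, neg_add_cancel, mul_zero, Nat.cast_zero]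
  have e1 := (inv _ _ (e g) (ψ ^ κ (c g)) h).1
  have e2 := (inv _ _ (e h) (ψ ^ κ (c g)) (ψ ^ κ (c h))).2
  rw [mul_inv_cancel_left] at e1 e2
  show s _ = s _ + s _ + f g h
  rw [e1, e2, ← sadd]
  refine cg _ _ ?_
  rw [← hκ, hc, add_nsmul, ← hκ, ← hκ]

end grp

/-- any field of characteristic `p` -/
theorem unr {p : ℕ} (hp : p.Prime) {F : Type} [Field F] [CharP F p] {l : ℕ} {P : Ideal (𝓞 Qb)}
    (hl : l.Prime) (hP : P.IsPrime) (hPl : (l : 𝓞 Qb) ∈ P) {U : Subgroup GQ}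
    (hU : IsOpen (U : Set GQ))
    {f : (U ⊓ dec P : Subgroup GQ) → (U ⊓ dec P : Subgroup GQ) → F} (hf : IsZ2 f)
    (hI : ∀ s : (U ⊓ dec P : Subgroup GQ), s.1 ∈ inP P → ∀ g h,
      f (g * s) h = f g h ∧ f g (h * s) = f g h) : f ∈ Cob F (U ⊓ dec P : Subgroup GQ) := by
  obtain ⟨φ, hφ⟩ := exists_phi hl hP hPl
  obtain ⟨W, hW, -, hWf⟩ := unif _ (closed hU P) f hf.1
  obtain ⟨n, hn, hφn⟩ := ex_pow (W := W ⊓ U) (hW.inter hU) φ
  obtain ⟨δ, V, hV, h1, h2, h3, h4⟩ := deg hl hP hPl hφ (N := p * n) (mul_ne_zero hp.ne_zero hn)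
  have hφd := phi_mem hl hP hφ
  refine cyc hp hf hn (fun g => δ g.1) (fun g h => h1 _ g.2.2 _ h.2.2)
    (lc_of _ V hV _ (fun g h => h1 _ g.2.2 _ h.2.2) fun v hv => h4 _ hv v.2.2)
    (fun u j hj g h => ?_) ⟨⟨φ ^ n, hφn.2, (dec P).pow_mem hφd n⟩, ?_⟩
  · obtain ⟨v, hv, s, hs, e⟩ := split hl hP hPl hφ (dvd_mul_left n p) hV (hW.inter hU) h1 h2 h3 h4
      hφn u.2.2 hj
    have hvd : v ∈ dec P := ((dec P).mul_mem_cancel_right (inP_le_dec hs)).1 (e ▸ u.2.2)
    have hsU : s ∈ U := (U.mul_mem_cancel_left hv.2).1 (e ▸ u.2.1)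
    have e' : u = (⟨v, hv.2, hvd⟩ : (U ⊓ dec P : Subgroup GQ)) * ⟨s, hsU, inP_le_dec hs⟩ :=
      Subtype.ext e
    rw [e', ← mul_assoc, ← mul_assoc, (hI _ hs _ _).1, (hI _ hs _ _).2]
    exact hWf _ hv.1 g h
  · exact dpow hl hP hφ h1 h2 h3 n

end Unr

theorem unrp : UNRP := fun p _ _ _ _ _ hH hP hz hI =>
  Unr.unr (p := p) Fact.out hP.1 hP.2.1 hP.2.2 hH hz fun s hs g h =>
    hI g.1 g.2 h.1 h.2 s.1 s.2.1 hs

end Vale.Agent.P022K.GW
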