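import Vale.Agent.P022K.GW.Defs
import Vale.Agent.P022E.GW.Kc

/-!
# P022K, block GW: Kummer theory (row `KUM1`)
-/

set_option linter.all false

noncomputable section

namespace Vale.Agent.P022K.GW

open NumberField
open Vale.Agent.P022 Vale.Agent.P022.C Vale.Agent.P022.H916
open Vale.Agent.P022E.GW (Ch)
open Vale.Agent.P011.ArP (Mu Pw)

namespace Kum

variable {p : ℕ} [Fact p.Prime] {ζ : Qb}

theorem pw_add (hζ : ζ ^ p = 1) (a b : ZMod p) : ζ ^ (a + b).val = ζ ^ a.val * ζ ^ b.val := by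
  rw [ZMod.val_add, ← pow_add]
  exact (pow_eq_pow_mod _ hζ).symm

theorem pw_mul (hζ : ζ ^ p = 1) (a b : ZMod p) : ζ ^ (a * b).val = (ζ ^ a.val) ^ b.val := by
  rw [ZMod.val_mul, ← pow_mul]
  exact (pow_eq_pow_mod _ hζ).symm

theorem pw_nat (hζ : ζ ^ p = 1) (n : ℕ) : ζ ^ (n : ZMod p).val = ζ ^ n := by
  rw [ZMod.val_natCast]
  exact (pow_eq_pow_mod _ hζ).symm

theorem pw_inj (hζ : IsPrimitiveRoot ζ p) {a b : ZMod p} (h : ζ ^ a.val = ζ ^ b.val) : a = b :=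
  ZMod.val_injective p (hζ.pow_inj (ZMod.val_lt a) (ZMod.val_lt b) h)

theorem pw_ex (hζ : IsPrimitiveRoot ζ p) {x : Qb} (hx : x ^ p = 1) :
    ∃ a : ZMod p, x = ζ ^ a.val := by
  obtain ⟨i, -, e⟩ := hζ.eq_pow_of_pow_eq_one hx
  exact ⟨i, by rw [pw_nat hζ.pow_eq_one, e]⟩

theorem ex_log (hζ : IsPrimitiveRoot ζ p) {β γ : Qb} (h0 : β ≠ 0) (h : γ ^ p = β ^ p) :
    ∃ a : ZMod p, γ = ζ ^ a.val * β := by
  obtain ⟨a, ha⟩ := pw_ex hζ (x := γ / β) (by rw [div_pow, h, div_self (pow_ne_zero _ h0)])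
  exact ⟨a, by rw [← ha, div_mul_cancel₀ _ h0]⟩

section

variable {Δ : Subgroup GQ} {φ : GQ → ZMod p}

theorem ch_one (ha : ∀ g ∈ Δ, ∀ h ∈ Δ, φ (g * h) = φ g + φ h) : φ 1 = 0 := by
  have := ha 1 Δ.one_mem 1 Δ.one_mem
  rw [one_mul] at this
  exact left_eq_add.1 this

theorem ch_inv (ha : ∀ g ∈ Δ, ∀ h ∈ Δ, φ (g * h) = φ g + φ h) {g : GQ} (hg : g ∈ Δ) :
    φ g⁻¹ = -φ g := by
  have := ha g hg g⁻¹ (Δ.inv_mem hg)
  rw [mul_inv_cancel, ch_one ha] at this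
  exact (neg_eq_of_add_eq_zero_right this.symm).symm

theorem ch_pow (ha : ∀ g ∈ Δ, ∀ h ∈ Δ, φ (g * h) = φ g + φ h) {g : GQ} (hg : g ∈ Δ) (n : ℕ) :
    φ (g ^ n) = n * φ g := by
  induction n with
  | zero => simp [ch_one ha]
  | succ n ih => rw [pow_succ, ha _ (Δ.pow_mem hg n) _ hg, ih]; push_cast; ring

/-- **Kummer theory** for any subgroup: a character with closed kernel has a generator -/
theorem surj (hζ : IsPrimitiveRoot ζ p) (hf : ∀ g ∈ Δ, g ζ = ζ)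
    (ha : ∀ g ∈ Δ, ∀ h ∈ Δ, φ (g * h) = φ g + φ h) (hc : IsClosed {g : GQ | g ∈ Δ ∧ φ g = 0}) :
    ∃ β : Qb, β ≠ 0 ∧ ∀ g ∈ Δ, g β = ζ ^ (φ g).val * β := by
  by_cases h : ∀ s ∈ Δ, φ s = 0
  · exact ⟨1, one_ne_zero, fun g hg => by rw [h g hg]; simp⟩
  push Not at h
  obtain ⟨s, hs, s1⟩ : ∃ s ∈ Δ, φ s = 1 := by
    obtain ⟨s, hs, e⟩ := h
    exact ⟨s ^ (φ s)⁻¹.val, Δ.pow_mem hs _, by
      rw [ch_pow ha hs, ZMod.natCast_zmod_val, inv_mul_cancel₀ e]⟩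
  let H : Subgroup GQ :=
    { carrier := {g : GQ | g ∈ Δ ∧ φ g = 0}
      mul_mem' := fun {a b} x y => ⟨Δ.mul_mem x.1 y.1, by rw [ha a x.1 b y.1, x.2, y.2, add_zero]⟩
      one_mem' := ⟨Δ.one_mem, ch_one ha⟩
      inv_mem' := fun {a} x => ⟨Δ.inv_mem x.1, by rw [ch_inv ha x.1, x.2, neg_zero]⟩ }
  let K := IntermediateField.fixedField H
  have hK : ∀ x : K, ∀ g ∈ Δ, ∀ g' ∈ Δ, φ g = φ g' → g x = g' x := fun x g hg g' hg' e => by
    have h1 : g'⁻¹ * g ∈ H := ⟨Δ.mul_mem (Δ.inv_mem hg') hg, by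
      rw [ha _ (Δ.inv_mem hg') _ hg, ch_inv ha hg', e, neg_add_cancel]⟩
    have h2 := (IntermediateField.mem_fixedField_iff _ _).1 x.2 _ h1
    have h3 := congrArg g' h2
    rwa [← AlgEquiv.mul_apply, mul_inv_cancel_left] at h3
  have sv : ∀ a : ZMod p, φ (s ^ a.val) = a := fun a => by
    rw [ch_pow ha hs, s1, mul_one, ZMod.natCast_zmod_val]
  let t : ZMod p → (K →* Qb) := fun a =>
    ((s ^ a.val : GQ) : Qb →* Qb).comp (algebraMap K Qb : K →* Qb)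
  have ht : ∀ a (x : K), t a x = (s ^ a.val) x := fun _ _ => rfl
  have ti : Function.Injective t := fun a b e => by
    by_contra ne
    obtain ⟨θ, t1, t2⟩ := P022E.GW.Kc.sep H hc (s := (s ^ b.val)⁻¹ * s ^ a.val) fun k => by
      have := k.2
      rw [ha _ (Δ.inv_mem (Δ.pow_mem hs _)) _ (Δ.pow_mem hs _), ch_inv ha (Δ.pow_mem hs _), sv, sv,
        neg_add_eq_zero] at this
      exact ne this.symm
    have := DFunLike.congr_fun e ⟨θ, (IntermediateField.mem_fixedField_iff _ _).2 t1⟩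
    rw [ht, ht] at this
    apply t2
    rw [AlgEquiv.mul_apply]
    show (s ^ b.val)⁻¹ ((s ^ a.val) θ) = θ
    rw [show (s ^ a.val) θ = (s ^ b.val) θ from this, ← AlgEquiv.mul_apply, inv_mul_cancel]
    rfl
  have li := Fintype.linearIndependent_iff.1 ((linearIndependent_monoidHom K Qb).comp t ti)
    fun a => ζ ^ (-a).val
  have z0 : ζ ≠ 0 := hζ.ne_zero (Fact.out : p.Prime).ne_zero
  obtain ⟨θ, hθ⟩ : ∃ θ : K, ∑ a : ZMod p, ζ ^ (-a).val * (s ^ a.val) θ ≠ 0 := by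
    by_contra c
    push Not at c
    refine pow_ne_zero _ z0 (li (funext fun θ => ?_) 0)
    rw [Finset.sum_apply]
    exact c θ
  refine ⟨_, hθ, fun g hg => ?_⟩
  rw [map_sum, Finset.mul_sum]
  refine Fintype.sum_equiv (Equiv.addLeft (φ g)) _ _ fun a => ?_
  show _ = ζ ^ (φ g).val * (ζ ^ (-(φ g + a)).val * (s ^ (φ g + a).val) θ)
  rw [map_mul, map_pow, hf g hg, ← AlgEquiv.mul_apply, ← mul_assoc,
    ← pw_add hζ.pow_eq_one, neg_add, add_neg_cancel_left,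
    hK θ _ (Δ.mul_mem hg (Δ.pow_mem hs _)) _ (Δ.pow_mem hs (φ g + a).val)
      (by rw [ha _ hg _ (Δ.pow_mem hs _), sv, sv])]

/-- the same for a closed subgroup and a locally constant character -/
theorem surj' (hζ : IsPrimitiveRoot ζ p) (hf : ∀ g ∈ Δ, g ζ = ζ) (hΔ : IsClosed (Δ : Set GQ))
    (h : Ch Δ φ) : ∃ β : Qb, β ≠ 0 ∧ ∀ g ∈ Δ, g β = ζ ^ (φ g).val * β := by
  refine surj hζ hf (fun g hg g' hg' => h.2 ⟨g, hg⟩ ⟨g', hg'⟩) ?_
  have := hΔ.isClosedEmbedding_subtypeVal.isClosedMap _ (h.1.isClopen_fiber 0).1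
  refine Eq.mp (congrArg IsClosed (Set.ext fun g => ⟨?_, ?_⟩)) this
  · rintro ⟨⟨g, a⟩, b, rfl⟩
    exact ⟨a, b⟩
  · rintro ⟨a, b⟩
    exact ⟨⟨g, a⟩, b, rfl⟩

/-- the law of a root is a character -/
theorem ch_of (hζ : IsPrimitiveRoot ζ p) (hf : ∀ g ∈ Δ, g ζ = ζ) {β : Qb} (h0 : β ≠ 0)
    (h : ∀ g ∈ Δ, g β = ζ ^ (φ g).val * β) : Ch Δ φ := by
  have ha : ∀ g ∈ Δ, ∀ g' ∈ Δ, φ (g * g') = φ g + φ g' := fun g hg g' hg' => by
    refine pw_inj hζ (mul_right_cancel₀ h0 ?_)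
    rw [← h _ (Δ.mul_mem hg hg'), AlgEquiv.mul_apply, h g' hg', map_mul, map_pow, hf g hg, h g hg,
      pw_add hζ.pow_eq_one]
    ring
  refine ⟨(IsLocallyConstant.iff_exists_open _).2 fun g => ⟨(fun u : Δ => (g : GQ)⁻¹ * u) ⁻¹'
    (MulAction.stabilizer GQ β), (P022E.GW.Kc.stab_open _).preimage (by fun_prop), by simp,
    fun y hy => ?_⟩, fun g g' => ha g g.2 g' g'.2⟩
  refine pw_inj hζ (mul_right_cancel₀ h0 ?_)
  have e : ((g : GQ)⁻¹ * y) β = β := hy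
  have e' := congrArg (g : GQ) e
  rw [← AlgEquiv.mul_apply, mul_inv_cancel_left] at e'
  rw [← h _ y.2, ← h _ g.2, e']

end

variable {L : Type} [Field L] [NumberField L] (M : Mu p L) (j : L →+* Qb)

theorem prim : IsPrimitiveRoot (j M.ζ) p := M.prim.map_of_injective j.injective

variable {M j}

theorem root_ne {b : Lˣ} {β : Qb} (h : β ^ p = j b) : β ≠ 0 := by
  rintro rfl
  rw [zero_pow (Fact.out : p.Prime).ne_zero] at h
  exact (map_ne_zero j).2 b.ne_zero h.symm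

/-- the law holds for every root -/
theorem law {b : Lˣ} {f : GQ → ZMod p} (h : Km M j b f) {β : Qb} (hβ : β ^ p = j b) {g : GQ}
    (hg : g ∈ GK j) : g β = j M.ζ ^ (f g).val * β := by
  obtain ⟨γ, h1, h2⟩ := h
  obtain ⟨a, rfl⟩ := ex_log (prim M j) (root_ne h1) (hβ.trans h1.symm)
  rw [map_mul, map_pow, hg M.ζ, h2 g hg]
  ring

variable (M j) in
theorem ex (b : Lˣ) : ∃ f, Km M j b f := by
  obtain ⟨β, hβ⟩ := IsAlgClosed.exists_pow_nat_eq (j b) (Fact.out : p.Prime).pos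
  have : ∀ g : GQ, ∃ a : ZMod p, g ∈ GK j → g β = j M.ζ ^ a.val * β := fun g => by
    by_cases hg : g ∈ GK j
    · obtain ⟨a, ha⟩ := ex_log (prim M j) (root_ne hβ) (γ := g β) (by rw [← map_pow, hβ, hg b])
      exact ⟨a, fun _ => ha⟩
    · exact ⟨0, fun h => absurd h hg⟩
  choose f hf using this
  exact ⟨f, β, hβ, hf⟩

theorem ch {b : Lˣ} {f : GQ → ZMod p} (h : Km M j b f) : Ch (GK j) f := by
  obtain ⟨β, h1, h2⟩ := h
  exact ch_of (prim M j) (fun g hg => hg M.ζ) (root_ne h1) h2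

theorem uniq {b : Lˣ} {f f' : GQ → ZMod p} (h : Km M j b f) (h' : Km M j b f') {g : GQ}
    (hg : g ∈ GK j) : f g = f' g := by
  obtain ⟨β, h1, h2⟩ := h
  exact pw_inj (prim M j) (mul_right_cancel₀ (root_ne h1) ((h2 g hg).symm.trans (law h' h1 hg)))

theorem congr {b : Lˣ} {f f' : GQ → ZMod p} (h : Km M j b f) (e : ∀ g ∈ GK j, f g = f' g) :
    Km M j b f' := h.imp fun β hβ => ⟨hβ.1, fun g hg => by rw [← e g hg, hβ.2 g hg]⟩

theorem mul {b b' : Lˣ} {f f' : GQ → ZMod p} (h : Km M j b f) (h' : Km M j b' f') :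
    Km M j (b * b') (f + f') := by
  obtain ⟨β, h1, h2⟩ := h
  obtain ⟨β', h1', h2'⟩ := h'
  refine ⟨β * β', by rw [mul_pow, h1, h1', Units.val_mul, map_mul], fun g hg => ?_⟩
  rw [map_mul, h2 g hg, h2' g hg, Pi.add_apply, pw_add (prim M j).pow_eq_one]
  ring

theorem triv {b : Lˣ} {f : GQ → ZMod p} (h : Km M j b f) : (∀ g ∈ GK j, f g = 0) ↔ b ∈ Pw p L := by
  constructor
  · intro h0
    obtain ⟨β, h1, h2⟩ := h
    obtain ⟨y, rfl⟩ := fixed j (x := β) fun g => by rw [h2 g g.2, h0 g g.2]; simp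
    refine ⟨Units.mk0 y ((map_ne_zero j).1 (root_ne h1)), Units.ext (j.injective ?_)⟩
    rw [← h1, ← map_pow]
    rfl
  · rintro ⟨y, rfl⟩ g hg
    have e : j y ^ p = j (powMonoidHom p y : Lˣ) := by rw [← map_pow]; rfl
    have := law h e hg
    rw [hg] at this
    refine pw_inj (prim M j) (mul_right_cancel₀ (root_ne e) ?_)
    rw [← this]
    simp

variable (M j) in
theorem onto {f : GQ → ZMod p} (h : Ch (GK j) f) : ∃ b, Km M j b f := by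
  obtain ⟨β, h0, hβ⟩ := surj' (Δ := GK j) (prim M j) (fun g hg => hg M.ζ) (isClosed_GK j) h
  obtain ⟨y, hy⟩ := fixed j (x := β ^ p) fun g => by
    rw [map_pow, hβ g g.2, mul_pow, ← pow_mul, mul_comm _ p, pow_mul, (prim M j).pow_eq_one,
      one_pow, one_mul]
  exact ⟨Units.mk0 y ((map_ne_zero j).1 (hy ▸ pow_ne_zero _ h0)), β, hy.symm, hβ⟩

omit [NumberField L] in
theorem cj_mem {g : GQ} {τ : L → L} (hτ : ∀ x, j (τ x) = g (j x)) {h : GQ} (hh : h ∈ GK j) :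
    g⁻¹ * h * g ∈ GK j := fun x => by
  rw [AlgEquiv.mul_apply, AlgEquiv.mul_apply, ← hτ, hh, hτ, ← AlgEquiv.mul_apply, inv_mul_cancel]
  rfl

theorem conj {g : GQ} {τ : L ≃+* L} {n : ZMod p} {b : Lˣ} {f : GQ → ZMod p}
    (hτ : ∀ x, j (τ x) = g (j x)) (hn : τ M.ζ = M.ζ ^ n.val) (h : Km M j b f) :
    Km M j (Units.map (τ : L →* L) b) fun h => n * f (g⁻¹ * h * g) := by
  obtain ⟨β, h1, h2⟩ := h
  refine ⟨g β, by rw [← map_pow, h1, ← hτ]; rfl, fun u hu => ?_⟩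
  have := congrArg g (h2 _ (cj_mem hτ hu))
  rw [← AlgEquiv.mul_apply, ← mul_assoc, mul_inv_cancel_left, AlgEquiv.mul_apply, map_mul, map_pow,
    ← hτ, hn, map_pow] at this
  rw [this, pw_mul (prim M j).pow_eq_one]

end Kum

theorem kum1 : KUM1 := fun _ _ _ _ _ M j =>
  ⟨Kum.ex M j, fun _ _ => Kum.ch, fun _ _ _ h h' _ => Kum.uniq h h', fun _ _ _ _ => Kum.mul,
    fun _ _ => Kum.triv, fun _ => Kum.onto M j, fun _ _ _ _ _ => Kum.conj⟩

end Vale.Agent.P022K.GW
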