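import Vale.Agent.P022K.GW.Sha2
import Vale.Agent.P022K.GW.Kum
import Vale.Agent.P022E.GW.Gys
import Vale.Agent.P022E.GW.Unr

/-!
# P022K, block GW: crossed product groups, Hilbert 90, cyclic steps, towers, transfer
-/

set_option linter.all false

noncomputable section

namespace Vale.Agent.P022K.GW.Has

open Vale.Agent.P022
open Vale.Agent.P022D.L2c (IsZ2 Cob)
open Vale.Agent.P022E.GW (Cb Z2 rs)
open Subgroup (normalizer)

/-- **Hilbert 90** for a closed subgroup -/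
theorem h90 {Δ : Subgroup GQ} (hΔ : IsClosed (Δ : Set GQ)) {c : GQ → Qbˣ}
    (hc : ∀ g ∈ Δ, ∀ h ∈ Δ, c (g * h) = c g * g • c h) {W : Subgroup GQ}
    (hW : IsOpen (W : Set GQ)) (h1 : ∀ w ∈ Δ, w ∈ W → c w = 1) :
    ∃ b : Qbˣ, ∀ g ∈ Δ, c g * g • b = b := by
  have := Pl.cpt
  haveI : CompactSpace Δ := isCompact_iff_compactSpace.1 hΔ.isCompact
  haveI : Finite (Δ ⧸ W.subgroupOf Δ) :=
    (W.subgroupOf Δ).quotient_finite_of_isOpen (hW.preimage continuous_subtype_val)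
  let _ := Fintype.ofFinite (Δ ⧸ W.subgroupOf Δ)
  let K := IntermediateField.fixedField (Δ ⊓ W)
  have hK : ∀ x : K, ∀ g : Δ, g.1 ∈ W → g.1 x = x := fun x g hg =>
    (IntermediateField.mem_fixedField_iff _ _).1 x.2 _ ⟨g.2, hg⟩
  let t : Δ ⧸ W.subgroupOf Δ → (K →* Qb) := fun a =>
    ((a.out.1 : GQ) : Qb →* Qb).comp (algebraMap K Qb : K →* Qb)
  have ti : Function.Injective t := fun a b e => by
    by_contra ne
    obtain ⟨θ, t1, t2⟩ := P022E.GW.Kc.sep (Δ ⊓ W) (hΔ.inter (W.isClosed_of_isOpen hW))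
      (s := (a.out⁻¹ * b.out).1) fun k => ne (by
        rw [← a.out_eq, ← b.out_eq]; exact QuotientGroup.eq.2 k.2)
    have e1 : a.out.1 θ = b.out.1 θ :=
      DFunLike.congr_fun e ⟨θ, (IntermediateField.mem_fixedField_iff _ _).2 t1⟩
    apply t2
    show (a.out.1)⁻¹ (b.out.1 θ) = θ
    rw [← e1, ← AlgEquiv.mul_apply, inv_mul_cancel]
    rfl
  have li := Fintype.linearIndependent_iff.1 ((linearIndependent_monoidHom K Qb).comp t ti)
    fun a => c a.out.1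
  obtain ⟨θ, hθ⟩ : ∃ θ : K, ∑ a : Δ ⧸ W.subgroupOf Δ, (c a.out.1 : Qb) * a.out.1 θ ≠ 0 := by
    by_contra k
    push Not at k
    refine Units.ne_zero _ (li (funext fun θ => ?_) (1 : Δ))
    rw [Finset.sum_apply]
    exact k θ
  refine ⟨Units.mk0 _ hθ, fun g hg => Units.ext ?_⟩
  show (c g : Qb) * g (∑ a : Δ ⧸ W.subgroupOf Δ, _) = ∑ a : Δ ⧸ W.subgroupOf Δ, _
  rw [map_sum, Finset.mul_sum]
  refine Fintype.sum_equiv (MulAction.toPerm (⟨g, hg⟩ : Δ)) _ _ fun a => ?_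
  obtain ⟨n, hn⟩ := QuotientGroup.mk_out_eq_mul (W.subgroupOf Δ) (⟨g, hg⟩ * a.out)
  rw [← smul_eq_mul, MulAction.Quotient.coe_smul_out, smul_eq_mul] at hn
  rw [MulAction.toPerm_apply, hn, Subgroup.coe_mul, Subgroup.coe_mul,
    hc _ (mul_mem hg a.out.2) _ n.1.2, h1 _ n.1.2 n.2, smul_one, mul_one, hc _ hg _ a.out.2,
    AlgEquiv.mul_apply, AlgEquiv.mul_apply, hK θ _ n.2, map_mul, Units.val_mul, mul_assoc]
  rfl

section abs

variable {E : Type} [Group E] (H : Subgroup GQ) (i : Qbˣ →* E) (π : E →* GQ) (s : GQ → E)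

/-- an extension of `H` by the multiplicative group, with a germ of a section -/
structure Xt : Prop where
  pi : ∀ x, π (i x) = 1
  ker : ∀ a, π a = 1 → ∃ x, i x = a
  cj : ∀ a x, a * i x * a⁻¹ = i (π a • x)
  sec : ∀ g ∈ H, π (s g) = g
  loc : ∀ a, ∃ W : Subgroup GQ, IsOpen (W : Set GQ) ∧ ∀ w ∈ H, w ∈ W →
    a⁻¹ * s w * a = s ((π a)⁻¹ * w * π a)

/-- a splitting over `V` -/
structure Sp (V : Subgroup GQ) (K : Subgroup E) : Prop where
  le : ∀ a ∈ K, π a ∈ V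
  ex : ∀ g ∈ V, ∃ a ∈ K, π a = g
  un : ∀ x, i x ∈ K → x = 1
  op : ∃ W : Subgroup GQ, IsOpen (W : Set GQ) ∧ ∀ w ∈ V, w ∈ W → s w ∈ K

/-- the conjugate subgroup -/
def cg (t : E) (K : Subgroup E) : Subgroup E where
  carrier := {a | t⁻¹ * a * t ∈ K}
  mul_mem' {a b} ha hb := by
    have := K.mul_mem ha hb
    rwa [show t⁻¹ * a * t * (t⁻¹ * b * t) = t⁻¹ * (a * b) * t by group] at this
  one_mem' := by simp
  inv_mem' {a} ha := by
    have := K.inv_mem ha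
    rwa [show (t⁻¹ * a * t)⁻¹ = t⁻¹ * a⁻¹ * t by group] at this

variable {H i π s} {V V' : Subgroup GQ} {K K' : Subgroup E}

theorem Sp.uniq (X : Xt H i π s) (h : Sp i π s V K) {a b : E} (ha : a ∈ K) (hb : b ∈ K)
    (e : π a = π b) : a = b := by
  obtain ⟨x, hx⟩ := X.ker (a * b⁻¹) (by rw [map_mul, map_inv, e, mul_inv_cancel])
  rw [h.un x (hx ▸ mul_mem ha (inv_mem hb)), map_one] at hx
  exact mul_inv_eq_one.1 hx.symm

theorem Sp.res (h : Sp i π s V K) (X : Xt H i π s) (le : V ≤ H) (D : Subgroup GQ) :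
    Sp i π s (V ⊓ D) (K ⊓ D.comap π) :=
  ⟨fun a ha => ⟨h.le a ha.1, ha.2⟩, fun g hg => by
    obtain ⟨a, ha, rfl⟩ := h.ex g hg.1
    exact ⟨a, ⟨ha, hg.2⟩, rfl⟩, fun x hx => h.un x hx.1, by
    obtain ⟨W, hW, k⟩ := h.op
    exact ⟨W, hW, fun w hw e => ⟨k w hw.1 e, by
      show π _ ∈ D
      rw [X.sec w (le hw.1)]; exact hw.2⟩⟩⟩

theorem Sp.cg (h : Sp i π s V K) (X : Xt H i π s) (le : V ≤ H) {t : E}
    (ht : π t ∈ normalizer (V : Set GQ)) : Sp i π s V (cg t K) := by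
  have ht' := Subgroup.mem_normalizer_iff''.1 ht
  refine ⟨fun a ha => (ht' _).2 ?_, fun g hg => ?_, fun x hx => ?_, ?_⟩
  · simpa only [map_mul, map_inv] using h.le _ ha
  · obtain ⟨a, ha, e⟩ := h.ex _ ((ht' g).1 hg)
    refine ⟨t * a * t⁻¹, show _ ∈ K by simpa [mul_assoc] using ha, ?_⟩
    rw [map_mul, map_mul, map_inv, e]; group
  · have e := X.cj t⁻¹ x
    rw [inv_inv] at e
    have := h.un _ (e ▸ show t⁻¹ * i x * t ∈ K from hx)
    rwa [smul_eq_iff_eq_inv_smul, smul_one] at this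
  · obtain ⟨W, hW, k⟩ := h.op
    obtain ⟨W', hW', k'⟩ := X.loc t
    refine ⟨W' ⊓ W.normalCore, hW'.inter (Pl.core_open hW), fun w hw e => ?_⟩
    show _ ∈ K
    rw [k' w (le hw) e.1]
    refine k _ ((ht' w).1 hw) (W.normalCore_le ?_)
    simpa using (W.normalCore_normal).conj_mem w e.2 (π t)⁻¹

theorem Sp.eq (X : Xt H i π s) (h : Sp i π s V K) (h' : Sp i π s V K') (le : K ≤ K') : K = K' :=
  le_antisymm le fun a ha => by
    obtain ⟨b, hb, e⟩ := h.ex _ (h'.le a ha)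
    rwa [← h'.uniq X (le hb) ha e]

/-- two splittings over a closed subgroup are conjugate -/
theorem Sp.conj (X : Xt H i π s) (le : V ≤ H) (hV : IsClosed (V : Set GQ)) (h : Sp i π s V K)
    (h' : Sp i π s V K') : ∃ b, K = Has.cg (i b) K' := by
  choose! k k1 k2 using h.ex
  choose! k' k1' k2' using h'.ex
  have ex : ∀ g ∈ V, ∃ x, i x = k g * (k' g)⁻¹ := fun g hg =>
    X.ker _ (by rw [map_mul, map_inv, k2 g hg, k2' g hg, mul_inv_cancel])
  choose! c hc using ex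
  have inj : Function.Injective i := (injective_iff_map_eq_one i).2 fun x e =>
    h.un x (e ▸ one_mem K)
  obtain ⟨W, hW, w1⟩ := h.op
  obtain ⟨W', hW', w2⟩ := h'.op
  obtain ⟨b, hb⟩ := h90 hV (c := c) (fun g hg j hj => inj (by
    have m := mul_mem hg hj
    have e := X.cj (k' g) (c j)
    rw [k2' g hg] at e
    rw [map_mul, ← e, hc _ m, hc _ hg, hc _ hj,
      h.uniq X (k1 _ m) (mul_mem (k1 _ hg) (k1 _ hj)) (by rw [map_mul, k2 _ m, k2 _ hg, k2 _ hj]),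
      h'.uniq X (k1' _ m) (mul_mem (k1' _ hg) (k1' _ hj))
        (by rw [map_mul, k2' _ m, k2' _ hg, k2' _ hj])]
    group)) (W := W ⊓ W') (hW.inter hW') fun w hw e => inj (by
    rw [hc w hw, h.uniq X (k1 w hw) (w1 w hw e.1) (by rw [k2 w hw, X.sec w (le hw)]),
      h'.uniq X (k1' w hw) (w2 w hw e.2) (by rw [k2' w hw, X.sec w (le hw)]), mul_inv_cancel,
      map_one])
  refine ⟨b, h.eq X (h'.cg X le (by rw [X.pi]; exact one_mem _)) fun a ha => ?_⟩
  have hg := h.le a ha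
  have e := X.cj (k' (π a)) b
  have e1 := congrArg i (hb _ hg)
  rw [k2' _ hg] at e
  rw [map_mul, hc _ hg, ← e, h.uniq X (k1 _ hg) ha (k2 _ hg)] at e1
  show _ ∈ K'
  rw [show (i b)⁻¹ * a * i b = k' (π a) by
    rw [mul_assoc, inv_mul_eq_iff_eq_mul]
    conv_rhs => rw [← e1]
    group]
  exact k1' _ hg

theorem Xt.pw (X : Xt H i π s) (y : Qbˣ) (t : E) (n : ℕ) :
    (i y * t) ^ n = i (∏ k ∈ Finset.range n, π t ^ k • y) * t ^ n := by
  induction n with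
  | zero => simp
  | succ n ih =>
    rw [pow_succ, ih, Finset.prod_range_succ, map_mul, ← map_pow, ← X.cj, pow_succ]
    group

theorem Sp.fix (X : Xt H i π s) (h : Sp i π s V K) {x : Qbˣ} {a : E} (ha : a ∈ K)
    (e : (i x)⁻¹ * a * i x ∈ K) : π a • x = x := by
  have := h.un (x⁻¹ * π a • x) (by
    rw [map_mul, map_inv, ← X.cj, ← mul_assoc, ← mul_assoc]
    exact mul_mem e (inv_mem ha))
  exact (inv_mul_eq_one.1 this).symm

theorem Sp.nrm (X : Xt H i π s) (h : Sp i π s V K) (x : Qbˣ) :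
    i x ∈ normalizer (K : Set E) ↔ ∀ g ∈ V, g • x = x := by
  rw [Subgroup.mem_normalizer_iff'']
  constructor
  · intro k g hg
    obtain ⟨a, ha, rfl⟩ := h.ex g hg
    exact h.fix X ha ((k a).1 ha)
  · intro k a
    have e : π a ∈ V → (i x)⁻¹ * a * i x = a := fun ha => by
      have := X.cj a x
      rw [k _ ha, mul_inv_eq_iff_eq_mul] at this
      rw [mul_assoc, this, inv_mul_cancel_left]
    exact ⟨fun ha => by rwa [e (h.le a ha)], fun ha => by
      rwa [e (by simpa [X.pi] using h.le _ ha)] at ha⟩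

/-- the invariant of a cyclic step -/
theorem Sp.inv (X : Xt H i π s) (le : V ≤ H) (hV : IsClosed (V : Set GQ)) (h : Sp i π s V K)
    {σ : GQ} (hσ : σ ∈ H) (hn : σ ∈ normalizer (V : Set GQ)) {p : ℕ} (hp : σ ^ p ∈ V) :
    ∃ (t : E) (a : Qbˣ), π t = σ ∧ t ∈ normalizer (K : Set E) ∧ (i a)⁻¹ * t ^ p ∈ K ∧
      (∀ g ∈ V, g • a = a) ∧ σ • a = a := by
  obtain ⟨b, hb⟩ := h.conj X le hV (h.cg X le (t := s σ) (by rwa [X.sec σ hσ]))
  have ht : i b * s σ ∈ normalizer (K : Set E) := Subgroup.mem_normalizer_iff''.2 fun a => by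
    conv_lhs => rw [hb]
    show (s σ)⁻¹ * ((i b)⁻¹ * a * i b) * s σ ∈ K ↔ _
    rw [mul_inv_rev]
    simp only [mul_assoc]
  have hπ : π (i b * s σ) = σ := by rw [map_mul, X.pi, X.sec σ hσ, one_mul]
  generalize i b * s σ = t at ht hπ
  obtain ⟨k, hk, e⟩ := h.ex _ hp
  obtain ⟨a, ha⟩ := X.ker (t ^ p * k⁻¹) (by rw [map_mul, map_inv, map_pow, hπ, e, mul_inv_cancel])
  have h1 : (i a)⁻¹ * t ^ p ∈ K := by rw [ha]; simpa using hk
  refine ⟨t, a, hπ, ht, h1, (h.nrm X a).1 ?_, ?_⟩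
  · rw [ha]
    exact mul_mem (pow_mem ht p) (inv_mem (K.le_normalizer hk))
  · have h2 := mul_mem h1 (inv_mem ((Subgroup.mem_normalizer_iff.1 ht _).1 h1))
    have := h.un (a⁻¹ * σ • a) (by
      rw [map_mul, map_inv, ← hπ, ← X.cj]
      convert h2 using 1
      group)
    exact (inv_mul_eq_one.1 this).symm

/-- extension of a splitting along a cyclic step -/
theorem Sp.ext (X : Xt H i π s) (h : Sp i π s V' K) (hV' : IsOpen (V' : Set GQ)) (le : V' ≤ V)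
    {t : E} (ht : t ∈ normalizer (K : Set E)) (hσ : π t ∈ V) {p : ℕ} (hp : t ^ p ∈ K)
    (gen : ∀ g ∈ V, ∃ n : ℕ, g * (π t ^ n)⁻¹ ∈ V') (ord : ∀ n : ℤ, π t ^ n ∈ V' → (p : ℤ) ∣ n) :
    ∃ K', Sp i π s V K' := by
  have cj : ∀ (n : ℤ), ∀ a ∈ K, t ^ n * a * (t ^ n)⁻¹ ∈ K := fun n a =>
    (Subgroup.mem_normalizer_iff.1 (zpow_mem ht n) a).1
  refine ⟨{ carrier := {a | ∃ n : ℤ, a * (t ^ n)⁻¹ ∈ K}
            mul_mem' := ?_
            one_mem' := ⟨0, by simp⟩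
            inv_mem' := ?_ }, ?_, fun g hg => ?_, ?_, ?_⟩
  · rintro a b ⟨n, hn⟩ ⟨m, hm⟩
    refine ⟨n + m, ?_⟩
    convert mul_mem hn (cj n _ hm) using 1
    group
  · rintro a ⟨n, hn⟩
    refine ⟨-n, ?_⟩
    convert cj (-n) _ (inv_mem hn) using 1
    group
  · rintro a ⟨n, hn⟩
    have := le (h.le _ hn)
    rw [map_mul, map_inv, map_zpow] at this
    exact (V.mul_mem_cancel_right (inv_mem (zpow_mem hσ n))).1 this
  · obtain ⟨n, hn⟩ := gen g hg
    obtain ⟨k, hk, e⟩ := h.ex _ hn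
    exact ⟨k * t ^ n, ⟨n, by simpa using hk⟩, by rw [map_mul, e, map_pow]; simp⟩
  · rintro x ⟨n, hn⟩
    have := h.le _ hn
    rw [map_mul, X.pi, one_mul, map_inv, map_zpow, inv_mem_iff] at this
    obtain ⟨m, rfl⟩ := ord n this
    refine h.un x ((K.mul_mem_cancel_right (inv_mem ?_)).1 hn)
    rw [zpow_mul, zpow_natCast]
    exact zpow_mem hp m
  · obtain ⟨W, hW, k⟩ := h.op
    exact ⟨W ⊓ V', hW.inter hV', fun w _ e => ⟨0, by simpa using k w e.2 e.1⟩⟩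

/-- a local splitting makes the invariant a local norm -/
theorem Sp.loc (X : Xt H i π s) (h : Sp i π s V' K) (le : V' ≤ V) (le' : V ≤ H) {D : Subgroup GQ}
    (hc : IsClosed ((V' ⊓ D : Subgroup GQ) : Set GQ)) (h' : Sp i π s (V ⊓ D) K') {t : E}
    (ht : t ∈ normalizer (K : Set E)) {p : ℕ} {a : Qbˣ} (ha : (i a)⁻¹ * t ^ p ∈ K) {τ : GQ}
    (hτ : τ ∈ V ⊓ D) (e : τ * (π t)⁻¹ ∈ V') (hp : τ ^ p ∈ V') :
    ∃ y : Qbˣ, (∀ g ∈ V' ⊓ D, g • y = y) ∧ (∏ k ∈ Finset.range p, τ ^ k • y) * a = 1 := by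
  have e0 : V ⊓ D ⊓ V' = V' ⊓ D := by rw [inf_comm, ← inf_assoc, inf_eq_left.2 le]
  have h2 := h'.res X (inf_le_left.trans le') V'
  rw [e0] at h2
  obtain ⟨b, hb⟩ := (h.res X (le.trans le') D).conj X (inf_le_left.trans (le.trans le')) hc h2
  have h3 := h'.cg X (inf_le_left.trans le') (t := i b) (by rw [X.pi]; exact one_mem _)
  have hK : ∀ m, π m ∈ V' ⊓ D → (m ∈ K ↔ m ∈ Has.cg (i b) K') := fun m hm =>
    ⟨fun k => (show m ∈ Has.cg (i b) (K' ⊓ V'.comap π) from hb ▸ ⟨k, hm.2⟩).1, fun k =>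
      (show m ∈ K ⊓ D.comap π from hb ▸ ⟨k, by simpa [X.pi] using hm.1⟩).1⟩
  generalize Has.cg (i b) K' = K'' at h3 hK
  obtain ⟨k, hk, ek⟩ := h.ex _ e
  have hu : k * t ∈ normalizer (K : Set E) := mul_mem (K.le_normalizer hk) ht
  have hπ : π (k * t) = τ := by rw [map_mul, ek, inv_mul_cancel_right]
  have pw : ∀ n : ℕ, (t ^ n)⁻¹ * (k * t) ^ n ∈ K := fun n => by
    induction n with
    | zero => simp
    | succ n ih =>
      convert (Subgroup.mem_normalizer_iff''.1 ht _).1 (mul_mem ih hk) using 1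
      rw [pow_succ, pow_succ]
      group
  have ha' : (i a)⁻¹ * (k * t) ^ p ∈ K := by simpa [mul_assoc] using mul_mem ha (pw p)
  generalize k * t = u at hu hπ ha'
  obtain ⟨d, hd, ed⟩ := h3.ex τ hτ
  obtain ⟨y, hy⟩ := X.ker (d * u⁻¹) (by rw [map_mul, map_inv, hπ, ed, mul_inv_cancel])
  have hy' : d = i y * u := by rw [hy, inv_mul_cancel_right]
  refine ⟨y, fun g hg => ?_, h.un _ ?_⟩
  · obtain ⟨m, hm, rfl⟩ := h.ex g hg.1
    have m1 := (Subgroup.mem_normalizer_iff''.1 hu _).1 hm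
    have m2 : u⁻¹ * m * u ∈ K'' := (hK _ ⟨h.le _ m1, by
      rw [map_mul, map_mul, map_inv, hπ]
      exact D.mul_mem (D.mul_mem (D.inv_mem hτ.2) hg.2) hτ.2⟩).1 m1
    have m3 := mul_mem (mul_mem hd m2) (inv_mem hd)
    rw [hy', show i y * u * (u⁻¹ * m * u) * (i y * u)⁻¹ = (i y⁻¹)⁻¹ * m * i y⁻¹ by
      rw [map_inv]; group] at m3
    have := h.fix X hm ((hK _ (by simpa [X.pi] using hg)).2 m3)
    rwa [smul_inv', inv_inj] at this
  · have m1 : d ^ p ∈ K := (hK _ (by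
      rw [map_pow, ed]; exact ⟨hp, pow_mem hτ.2 p⟩)).2 (pow_mem hd p)
    rw [hy', X.pw, hπ] at m1
    simpa [mul_assoc] using mul_mem m1 (inv_mem ha')

end abs

/-! ### the crossed product group -/

/-- normalised factor sets -/
structure Fs (H : Subgroup GQ) where
  Z : H → H → Qbˣ
  coc : ∀ g h l : H, (g : GQ) • Z h l * Z g (h * l) = Z (g * h) l * Z g h
  one : ∀ g, Z 1 g = 1

/-- the crossed product group -/
@[ext]
structure Cx {H : Subgroup GQ} (f : Fs H) where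
  x : Qbˣ
  g : H

namespace Cx

variable {H : Subgroup GQ} {f : Fs H}

instance : Mul (Cx f) := ⟨fun a b => ⟨a.x * (a.g : GQ) • b.x * f.Z a.g b.g, a.g * b.g⟩⟩
instance : One (Cx f) := ⟨⟨1, 1⟩⟩
instance : Inv (Cx f) := ⟨fun a => ⟨((a.g⁻¹ : H) : GQ) • a.x⁻¹ * (f.Z a.g⁻¹ a.g)⁻¹, a.g⁻¹⟩⟩

theorem mul_x (a b : Cx f) : (a * b).x = a.x * (a.g : GQ) • b.x * f.Z a.g b.g := rfl
theorem mul_g (a b : Cx f) : (a * b).g = a.g * b.g := rfl

instance : Group (Cx f) := Group.ofLeftAxioms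
  (fun a b c => Cx.ext (by
    simp only [mul_x, mul_g, smul_mul', Subgroup.coe_mul, mul_smul, mul_assoc, f.coc]
    simp only [mul_comm, mul_left_comm]) (mul_assoc _ _ _))
  (fun a => Cx.ext (by
    show 1 * (1 : GQ) • a.x * f.Z 1 a.g = a.x
    rw [f.one, one_smul, one_mul, mul_one]) (one_mul _))
  fun a => Cx.ext (by
    show _ • a.x⁻¹ * (f.Z a.g⁻¹ a.g)⁻¹ * ((a.g⁻¹ : H) : GQ) • a.x * f.Z a.g⁻¹ a.g = 1
    rw [smul_inv', mul_right_comm _ _ (f.Z _ _), inv_mul_cancel_right, inv_mul_cancel])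
    (inv_mul_cancel _)

theorem one' (f : Fs H) (g : H) : f.Z g 1 = 1 := by
  have := f.coc g 1 1
  rw [f.one, smul_one, one_mul, mul_one, mul_one] at this
  exact left_eq_mul.1 this

variable (f)

/-- the inclusion -/
def inc : Qbˣ →* Cx f := MonoidHom.mk' (fun x => ⟨x, 1⟩) fun x y => Cx.ext (by
  show x * y = x * (1 : GQ) • y * f.Z 1 1
  rw [f.one, one_smul, mul_one]) (one_mul _).symm

/-- the projection -/
def prj : Cx f →* GQ := MonoidHom.mk' (fun a => a.g) fun _ _ => rfl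

open Classical in
/-- the section -/
def sec (g : GQ) : Cx f := if h : g ∈ H then ⟨1, ⟨g, h⟩⟩ else 1

theorem sec_eq (g : H) : sec f g = ⟨1, g⟩ := dif_pos g.2

theorem xt {W : Subgroup GQ} (hW : IsOpen (W : Set GQ)) (hn : W.Normal)
    (h : ∀ g w : H, w.1 ∈ W → f.Z g w = 1 ∧ f.Z w g = 1) : Xt H (inc f) (prj f) (sec f) := by
  refine ⟨fun _ => rfl, fun a e => ⟨a.x, Cx.ext rfl (Subtype.ext e.symm)⟩, fun a x => ?_,
    fun g hg => congrArg (prj f) (sec_eq f ⟨g, hg⟩), fun a => ⟨W ⊓ MulAction.stabilizer GQ (a.x : Qb),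
      hW.inter (P022E.GW.Kc.stab_open _), fun w hw e => ?_⟩⟩
  · rw [mul_inv_eq_iff_eq_mul]
    refine Cx.ext ?_ ((mul_one _).trans (one_mul _).symm)
    show a.x * _ • x * f.Z a.g 1 = _ • x * (1 : GQ) • a.x * f.Z 1 a.g
    rw [f.one, one', one_smul, mul_comm a.x]
    rfl
  · rw [mul_assoc, inv_mul_eq_iff_eq_mul, sec_eq f ⟨w, hw⟩]
    have e1 := sec_eq f (a.g⁻¹ * ⟨w, hw⟩ * a.g)
    have e2 : w • a.x = a.x := Units.ext e.2
    refine Eq.trans ?_ (congrArg (a * ·) e1.symm)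
    refine Cx.ext ?_ (by simp only [mul_g]; group)
    simp only [mul_x]
    rw [(h _ ⟨w, hw⟩ e.1).2, (h _ _ (by simpa using hn.conj_mem w e.1 (a.g : GQ)⁻¹)).1, e2,
      smul_one, one_mul, mul_one, mul_one]

end Cx

/-! ### the dictionary -/

section dic

variable {p : ℕ} [Fact p.Prime] {ζ : Qbˣ} (hζ : IsPrimitiveRoot (ζ : Qb) p) {H : Subgroup GQ}
  {f : Fs H} {z : GQ → GQ → ZMod p} (hf : ∀ g h : H, f.Z g h = ζ ^ (z g h).val)
  (fx : ∀ g ∈ H, g • ζ = ζ) {V : Subgroup GQ} (le : V ≤ H)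

include hζ in
theorem padd (a b : ZMod p) : ζ ^ (a + b).val = ζ ^ a.val * ζ ^ b.val :=
  Units.ext (by simpa using Kum.pw_add hζ.pow_eq_one a b)

include hζ in
theorem pinj {a b : ZMod p} (h : ζ ^ a.val = ζ ^ b.val) : a = b :=
  Kum.pw_inj hζ (by simpa using congrArg Units.val h)

include hζ hf fx le in
theorem sp_of (h : Cb V z) : ∃ K, Sp (Cx.inc f) (Cx.prj f) (Cx.sec f) V K := by
  obtain ⟨e, lc, he⟩ := h
  let S : V →* Cx f := MonoidHom.mk' (fun g => ⟨ζ ^ (e g).val, ⟨g, le g.2⟩⟩) fun g h => Cx.ext (by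
    simp only [Cx.mul_x]
    rw [he, padd hζ, padd hζ, hf, smul_pow', fx _ (le g.2)]
    rfl) rfl
  have e1 : ζ ^ (e 1).val = 1 := congrArg Cx.x (map_one S)
  refine ⟨S.range, ?_, fun g hg => ⟨_, ⟨⟨g, hg⟩, rfl⟩, rfl⟩, ?_, ?_⟩
  · rintro _ ⟨g, rfl⟩
    exact g.2
  · rintro x ⟨g, k⟩
    obtain rfl : g = 1 := Subtype.ext (congrArg (Cx.prj f) k)
    exact (congrArg Cx.x k).symm.trans e1
  · obtain ⟨W, hW, -, k⟩ := Sh2.ex_open V lc
    refine ⟨W, hW, fun w hw e => ⟨⟨w, hw⟩, ?_⟩⟩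
    rw [Cx.sec_eq f ⟨w, le hw⟩]
    exact Cx.ext ((congrArg (fun t => ζ ^ t.val) (k ⟨w, hw⟩ e)).trans e1) rfl

include hζ hf le in
theorem cb_of (X : Xt H (Cx.inc f) (Cx.prj f) (Cx.sec f)) (hV : IsClosed (V : Set GQ))
    (fx : ∀ g ∈ H, g • ζ = ζ) {W : Subgroup GQ} (hW : IsOpen (W : Set GQ))
    (h0 : ∀ g ∈ H, ∀ w ∈ H, w ∈ W → z g w = 0) {K : Subgroup (Cx f)}
    (h : Sp (Cx.inc f) (Cx.prj f) (Cx.sec f) V K) : Cb V z := by
  have hp : p.Prime := Fact.out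
  have ζp : ζ ^ p = 1 := Units.ext (by simpa using hζ.pow_eq_one)
  choose! k k1 k2 using h.ex
  have kg : ∀ g (hg : g ∈ V), (k g).g = ⟨g, le hg⟩ := fun g hg => Subtype.ext (k2 g hg)
  have km : ∀ g ∈ V, ∀ j ∈ V, (k (g * j)).x = (k g).x * g • (k j).x * ζ ^ (z g j).val :=
    fun g hg j hj => by
      have m := mul_mem hg hj
      rw [h.uniq X (k1 _ m) (mul_mem (k1 _ hg) (k1 _ hj))
        (by rw [map_mul, k2 _ m, k2 _ hg, k2 _ hj]), Cx.mul_x, hf, kg g hg, kg j hj]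
  obtain ⟨W', hW', w1⟩ := h.op
  have kw : ∀ w ∈ V, w ∈ W' → (k w).x = 1 := fun w hw e => by
    rw [h.uniq X (k1 w hw) (w1 w hw e) (by rw [k2 w hw, X.sec w (le hw)]),
      Cx.sec_eq f ⟨w, le hw⟩]
  obtain ⟨b, hb⟩ := h90 hV (c := fun g => (k g).x ^ p) (fun g hg j hj => by
    rw [km g hg j hj, mul_pow, mul_pow, ← pow_mul, mul_comm _ p, pow_mul, ζp, one_pow, mul_one,
      smul_pow']) hW' fun w hw e => by rw [kw w hw e, one_pow]
  obtain ⟨β₀, hβ⟩ := IsAlgClosed.exists_pow_nat_eq (b : Qb) hp.pos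
  let β : Qbˣ := Units.mk0 β₀ fun e => b.ne_zero (by rw [← hβ, e, zero_pow hp.ne_zero])
  have hβ' : β ^ p = b := Units.ext ((Units.val_pow_eq_pow_val _ _).trans hβ)
  have ex : ∀ g ∈ V, ∃ a : ZMod p, (k g).x * g • β = ζ ^ a.val * β := fun g hg => by
    obtain ⟨a, ha⟩ := Kum.ex_log hζ β.ne_zero (γ := ((k g).x * g • β : Qbˣ)) (by
      rw [← Units.val_pow_eq_pow_val, ← Units.val_pow_eq_pow_val, mul_pow, ← smul_pow', hβ',
        hb g hg])
    exact ⟨a, Units.ext (by simpa using ha)⟩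
  choose! e he using ex
  have em : ∀ g ∈ V, ∀ j ∈ V, e (g * j) = e g + e j + z g j := fun g hg j hj => by
    refine pinj hζ (mul_right_cancel (b := β) ?_)
    have a1 := congrArg (g • ·) (he j hj)
    simp only [smul_mul', smul_pow', fx g (le hg)] at a1
    rw [← he _ (mul_mem hg hj), km g hg j hj, padd hζ, padd hζ, mul_smul,
      mul_right_comm _ (ζ ^ _), mul_assoc (k g).x, a1, mul_left_comm, he g hg]
    ac_rfl
  refine ⟨fun g => e g, (IsLocallyConstant.iff_exists_open _).2 fun g => ⟨(fun u : V =>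
    (g : GQ)⁻¹ * u) ⁻¹' (W ⊓ (W' ⊓ MulAction.stabilizer GQ β₀) : Subgroup GQ),
    (hW.inter (hW'.inter (P022E.GW.Kc.stab_open _))).preimage (by fun_prop), by simp,
    fun u hu => ?_⟩, fun g j => em _ g.2 _ j.2⟩
  have m : (g : GQ)⁻¹ * u ∈ V := mul_mem (inv_mem g.2) u.2
  have a1 := he _ m
  have a2 := em _ g.2 _ m
  rw [kw _ m hu.2.1, show ((g : GQ)⁻¹ * u) • β = β from Units.ext hu.2.2] at a1
  rw [mul_inv_cancel_left, h0 _ (le g.2) _ (le m) hu.1, ← pinj hζ (a := 0)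
    (b := e ((g : GQ)⁻¹ * u)) (by rw [ZMod.val_zero, pow_zero]; exact mul_right_cancel a1)] at a2
  simpa using a2

end dic

/-! ### towers and transfer -/

/-- a chain of normal steps of index `p` -/
theorem chain {X : Type} [Group X] (p : ℕ) [hp : Fact p.Prime] (N H : Subgroup X) [N.Normal]
    [N.FiniteIndex] (le : N ≤ H) (Q : Subgroup X → Prop) (h0 : Q N)
    (hs : ∀ V W : Subgroup X, N ≤ W → W ≤ V → V ≤ H → W.relIndex V = p →
      (W.subgroupOf V).Normal → Q W → Q V) :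
    ∃ P, N ≤ P ∧ P ≤ H ∧ ¬ p ∣ P.relIndex H ∧ Q P := by
  let π := QuotientGroup.mk' (N.subgroupOf H)
  have sur : Function.Surjective π := QuotientGroup.mk'_surjective _
  let T : Subgroup (H ⧸ N.subgroupOf H) → Subgroup X := fun K => (K.comap π).map H.subtype
  have Tm : Monotone T := fun a b h => Subgroup.map_mono (Subgroup.comap_mono h)
  have T0 : T ⊥ = N := by
    simp only [T, π]
    rw [MonoidHom.comap_bot, QuotientGroup.ker_mk', Subgroup.map_subgroupOf_eq_of_le le]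
  have T1 : T ⊤ = H := by
    simp only [T]
    rw [Subgroup.comap_top, ← MonoidHom.range_eq_map, Subgroup.range_subtype]
  have Ti : ∀ a b, (T a).relIndex (T b) = a.relIndex b := fun a b => by
    rw [Subgroup.relIndex_map_map_of_injective _ _ H.subtype_injective, Subgroup.relIndex_comap,
      Subgroup.map_comap_eq_self_of_surjective sur]
  have key : ∀ n, p ^ n ∣ Nat.card (H ⧸ N.subgroupOf H) →
      ∃ K : Subgroup (H ⧸ N.subgroupOf H), Nat.card K = p ^ n ∧ Q (T K) := by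
    intro n
    induction n with
    | zero => exact fun _ => ⟨⊥, by simp, by rwa [T0]⟩
    | succ n ih =>
      intro hd
      obtain ⟨K, c, q⟩ := ih (dvd_trans (pow_dvd_pow p n.le_succ) hd)
      obtain ⟨K', c', l⟩ := Sylow.exists_subgroup_card_pow_succ hd c
      have hi : K.relIndex K' = p := by
        have := (K.subgroupOf K').card_mul_index
        rw [Nat.card_congr (Subgroup.subgroupOfEquivOfLe l).toEquiv, c, c', pow_succ] at this
        exact Nat.eq_of_mul_eq_mul_left (pow_pos hp.out.pos n) this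
      have hn := (Subgroup.normal_subgroupOf_iff l).1 (Subgroup.normal_of_index_eq_minFac_card
        (by rw [c', hp.out.pow_minFac n.succ_ne_zero]; exact hi))
      refine ⟨K', c', hs _ _ (T0 ▸ Tm bot_le) (Tm l) (T1 ▸ Tm le_top) (by rw [Ti, hi])
        ((Subgroup.normal_subgroupOf_iff (Tm l)).2 ?_) q⟩
      rintro _ _ ⟨a, ha, rfl⟩ ⟨b, hb, rfl⟩
      exact ⟨b * a * b⁻¹, by simpa using hn _ _ ha hb, rfl⟩
  obtain ⟨n, m, hm, e⟩ := Nat.exists_eq_pow_mul_and_not_dvd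
    (Nat.card_pos (α := H ⧸ N.subgroupOf H)).ne' p hp.out.ne_one
  obtain ⟨K, c, q⟩ := key n ⟨m, e⟩
  refine ⟨_, T0 ▸ Tm bot_le, T1 ▸ Tm le_top, ?_, q⟩
  have := K.card_mul_index
  rw [c, e] at this
  rwa [← T1, Ti, Subgroup.relIndex_top_right,
    Nat.eq_of_mul_eq_mul_left (pow_pos hp.out.pos n) this]

open P022D.L2c.Odd in
/-- transfer from a subgroup of invertible index -/
theorem trf {X F : Type} [Group X] [TopologicalSpace X] [IsTopologicalGroup X] [Field F]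
    (H : Subgroup X) (ho : IsOpen (H : Set X)) (hi : (H.index : F) ≠ 0) {y : X → X → F}
    (hy : IsZ2 y) (h : (fun a b : H => y a b) ∈ Cob F H) : y ∈ Cob F X := by
  obtain ⟨z, zl, hz⟩ := h
  haveI : Fintype (X ⧸ H) := Subgroup.fintypeOfIndexNeZero fun e => hi (by rw [e, Nat.cast_zero])
  let w : X → F := fun g =>
    ∑ q : X ⧸ H, (z (tau H q g) + y q.out (tau H q g) - y g (g⁻¹ • q).out)
  have lw : IsLocallyConstant w := by
    letI : TopologicalSpace F := ⊥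
    haveI : DiscreteTopology F := ⟨rfl⟩
    rw [IsLocallyConstant.iff_continuous]
    refine continuous_finset_sum _ fun q _ => (Continuous.add ?_ ?_).sub ?_
    · exact zl.continuous.comp (cont_tau H ho q)
    · exact hy.1.continuous.comp
        (continuous_const.prodMk (continuous_subtype_val.comp (cont_tau H ho q)))
    · exact hy.1.continuous.comp (continuous_id.prodMk (cont_out H ho q))
  have wm : ∀ g h, w (g * h) = w g + w h + H.index * y g h := fun g h => by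
    simp only [w]
    rw [← Equiv.sum_comp (MulAction.toPerm g⁻¹ : (X ⧸ H) ≃ (X ⧸ H))
      (fun q => z (tau H q h) + y q.out (tau H q h) - y h (h⁻¹ • q).out), Subgroup.index,
      Nat.card_eq_fintype_card, ← nsmul_eq_mul, ← Finset.card_univ, ← Finset.sum_const,
      ← Finset.sum_add_distrib, ← Finset.sum_add_distrib]
    refine Finset.sum_congr rfl fun q _ => ?_
    simp only [MulAction.toPerm_apply, tau_mul, mul_inv_rev, mul_smul]
    have e1 := hy.2 q.out (tau H q g) (tau H (g⁻¹ • q) h)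
    have e2 := hy.2 g (g⁻¹ • q).out (tau H (g⁻¹ • q) h)
    have e3 := hy.2 g h (h⁻¹ • g⁻¹ • q).out
    have e4 := hz (tau H q g) (tau H (g⁻¹ • q) h)
    rw [tau_val] at e1 e2
    rw [Subgroup.coe_mul]
    linear_combination e4 + e1 - e2 + e3
  refine ⟨fun g => (H.index : F)⁻¹ * w g, lw.comp _, fun g h => ?_⟩
  simp only [wm]
  field_simp

end Vale.Agent.P022K.GW.Has
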