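import Vale.Agent.P022K.GW.Kum
import Vale.Agent.P022K.GW.Pl
import Vale.Agent.P022E.GW.Brg
import Vale.Agent.P011.ArP.LocD

/-!
# P022K, block GW: local Kummer theory (rows `KUM3`, `KUM4`)
-/

set_option linter.all false

noncomputable section

namespace Vale.Agent.P022K.GW

open NumberField IsDedekindDomain
open scoped Pointwise
open Vale.Agent.P022 Vale.Agent.P022.C Vale.Agent.P022.H916 Vale.Agent.P022D.Sel
open Vale.Agent.P022E.GW (Ov Ch)
open Vale.Agent.P022D.W (dec)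
open Vale.Agent.P011.ArP (Mu Pw LS)
open Vale.Agent.P011.Arith (Z0)
open Vale.Agent.P027M.S.Gen (cm val_cm mem_cm)

namespace Lc

/-! ### roots of unity and valuations -/

section

variable {p : ℕ} [Fact p.Prime] {F Γ : Type} [Field F] [LinearOrderedCommGroupWithZero Γ]
  (M : Mu p F) (v : Valuation F Γ)

theorem v_pow_le {x : F} (hx : v x ≤ 1) (k : ℕ) : v (1 - x ^ k) ≤ v (1 - x) := by
  rw [← mul_neg_geom_sum, map_mul]
  exact mul_le_of_le_one_right' (v.map_sum_le fun i _ => by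
    rw [map_pow]; exact pow_le_one' hx i)

theorem v_zeta (k : ℕ) : v (M.ζ ^ k) = 1 := by
  have h2 : v M.ζ ^ p = 1 := by rw [← map_pow, M.zeta_pow, map_one]
  rw [map_pow, (pow_eq_one_iff_left M.prime.ne_zero).mp h2, one_pow]

theorem v_one_sub {k : ℕ} (hk : ¬ p ∣ k) : v (1 - M.ζ ^ k) = v M.l := by
  refine le_antisymm (v_pow_le v (by simpa using (v_zeta M v 1).le) k) ?_
  have hcop : Nat.Coprime k p := (Nat.coprime_comm.mp ((M.prime.coprime_iff_not_dvd).mpr hk))
  obtain ⟨j, hj⟩ := Nat.exists_mul_mod_eq_one_of_coprime hcop M.prime.one_lt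
  have h1 : (M.ζ ^ k) ^ j = M.ζ := by
    rw [← pow_mul, pow_eq_pow_mod _ M.zeta_pow, hj.2, pow_one]
  calc v M.l = v (1 - (M.ζ ^ k) ^ j) := by rw [h1]; rfl
    _ ≤ v (1 - M.ζ ^ k) := v_pow_le v (v_zeta M v k).le j

theorem v_l_ne : v M.l ≠ 0 := (Valuation.ne_zero_iff v).2 M.l_ne_zero

theorem v_l_le : v M.l ≤ 1 := v.map_sub_le v.map_one.le (by simpa using (v_zeta M v 1).le)

theorem pw_add (a b : ZMod p) : M.ζ ^ (a + b).val = M.ζ ^ a.val * M.ζ ^ b.val := by
  rw [ZMod.val_add, ← pow_add]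
  exact (pow_eq_pow_mod _ M.zeta_pow).symm

theorem v_diff {a b : ZMod p} (h : a ≠ b) : v (M.ζ ^ a.val - M.ζ ^ b.val) = v M.l := by
  have e : M.ζ ^ a.val - M.ζ ^ b.val = M.ζ ^ a.val * (1 - M.ζ ^ (b - a).val) := by
    rw [mul_sub, ← pw_add, add_sub_cancel, mul_one]
  rw [e, map_mul, v_zeta, one_mul, v_one_sub]
  intro d
  exact h (sub_eq_zero.1 ((ZMod.val_eq_zero _).1 (Nat.eq_zero_of_dvd_of_lt d (ZMod.val_lt _)))).symm

theorem near_uniq {x : F} {a b : ZMod p} (h : v (x - M.ζ ^ a.val) < v M.l)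
    (h' : v (x - M.ζ ^ b.val) < v M.l) : a = b := by
  by_contra e
  have := v.map_sub_lt h' h
  rw [sub_sub_sub_cancel_left, v_diff M v e] at this
  exact lt_irrefl _ this

theorem prod_eq (x : F) : x ^ p - 1 = ∏ i ∈ Finset.range p, (x - M.ζ ^ i) := by
  have := congrArg (Polynomial.eval x) M.prod_X_sub
  simpa [Polynomial.eval_prod] using this.symm

theorem near_ex {x : F} (h : v (x ^ p - 1) < v (M.l ^ p)) :
    ∃ a : ZMod p, v (x - M.ζ ^ a.val) < v M.l := by
  by_contra c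
  push Not at c
  refine absurd h (not_lt.2 ?_)
  rw [prod_eq M, map_prod, map_pow]
  refine le_trans (le_of_eq ?_) (Finset.prod_le_prod' (f := fun _ => v M.l) fun i hi => ?_)
  · rw [Finset.prod_const, Finset.card_range]
  have := c i
  rwa [ZMod.val_natCast_of_lt (Finset.mem_range.1 hi)] at this

theorem v_pow_sub {x : F} (h : v (x - 1) < v M.l) :
    v (x ^ p - 1) = v (x - 1) * v M.l ^ (p - 1) := by
  obtain ⟨q, hq⟩ : ∃ q, p = q + 1 := ⟨p - 1, (Nat.succ_pred_eq_of_pos M.prime.pos).symm⟩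
  rw [prod_eq M, map_prod, show Finset.range p = Finset.range (q + 1) by rw [← hq],
    Finset.prod_range_succ', pow_zero, mul_comm, Finset.prod_congr rfl (g := fun _ => v M.l), Finset.prod_const,
    Finset.card_range, show p - 1 = q by omega]
  intro i hi
  have h1 := v_one_sub M v (k := i + 1) fun d => by
    have := Nat.le_of_dvd i.succ_pos d
    have := Finset.mem_range.1 hi
    omega
  rw [← sub_add_sub_cancel x 1, v.map_add_eq_of_lt_right (h1 ▸ h), h1]

theorem v_mul_lt {x y : F} (h : v x < v y) {c : F} (hc : c ≠ 0) : v (c * x) < v (c * y) := by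
  rw [map_mul, map_mul]
  exact mul_lt_mul_of_pos_left h (zero_lt_iff.2 ((Valuation.ne_zero_iff v).2 hc))

theorem v_one_of {x : F} (h : v (x - 1) < 1) : v x = 1 := by
  have := v.map_one_add_of_lt h
  rwa [add_sub_cancel] at this

end

/-! ### the valuation of a prime -/

variable {P : Id}

theorem dich {l : ℕ} (hP : Ov l P) (x : Qb) :
    ∃ s t : 𝓞 Qb, s ∉ P ∧ ((s : Qb) * x = t ∨ x * t = s) := by
  let K : IntermediateField ℚ Qb := IntermediateField.adjoin ℚ {x}
  have hK : FiniteDimensional ℚ K := IntermediateField.adjoin.finiteDimensional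
    ((AlgebraicClosure.isAlgebraic ℚ).isAlgebraic x).isIntegral
  have hN : NumberField K := NumberField.of_module_finite ℚ K
  let φ : 𝓞 K →+* 𝓞 Qb := RingOfIntegers.mapRingHom (algebraMap K Qb)
  obtain ⟨t, s, h1⟩ := (Pl.dn (algebraMap K Qb) l P hP).exists_primeCompl_mul_eq_or_mul_eq (K := K)
    (IntermediateField.AdjoinSimple.gen ℚ x)
  refine ⟨φ s.1, φ t, s.2, h1.imp (fun h2 => ?_) fun h2 => ?_⟩
  · have h3 := congrArg (algebraMap K Qb) h2
    rw [map_mul, mul_comm] at h3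
    exact h3
  · have h3 := congrArg (algebraMap K Qb) h2
    rw [map_mul] at h3
    exact h3

/-- the localisation at `P` -/
def loc (hP : P.IsPrime) : Subring Qb where
  carrier := {x | ∃ s t : 𝓞 Qb, s ∉ P ∧ (s : Qb) * x = t}
  mul_mem' := by
    rintro x y ⟨s, t, h1, h2⟩ ⟨s', t', h3, h4⟩
    refine ⟨s * s', t * t', fun h => (hP.mem_or_mem h).elim h1 h3, ?_⟩
    change (s : Qb) * s' * (x * y) = t * t'
    rw [← h2, ← h4]
    ring
  one_mem' := ⟨1, 1, hP.one_notMem, mul_one _⟩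
  add_mem' := by
    rintro x y ⟨s, t, h1, h2⟩ ⟨s', t', h3, h4⟩
    refine ⟨s * s', t * s' + s * t', fun h => (hP.mem_or_mem h).elim h1 h3, ?_⟩
    change (s : Qb) * s' * (x + y) = t * s' + s * t'
    rw [← h2, ← h4]
    ring
  zero_mem' := ⟨1, 0, hP.one_notMem, mul_zero _⟩
  neg_mem' := by
    rintro x ⟨s, t, h1, h2⟩
    refine ⟨s, -t, h1, ?_⟩
    change (s : Qb) * (-x) = -t
    rw [← h2]
    ring

/-- the valuation ring of `P` -/
def vr {l : ℕ} (hP : Ov l P) : ValuationSubring Qb :=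
  ValuationSubring.ofSubring (loc hP.2.1) fun x => by
    obtain ⟨s, t, h2, h3 | h3⟩ := dich hP x
    · exact Or.inl ⟨s, t, h2, h3⟩
    · by_cases hx : x = 0
      · exact Or.inl (hx ▸ (loc hP.2.1).zero_mem)
      · refine Or.inr ⟨s, t, h2, ?_⟩
        rw [← h3, mul_comm x, mul_inv_cancel_right₀ hx]

variable {l : ℕ} (hP : Ov l P)

theorem le_one (x : Qb) : (vr hP).valuation x ≤ 1 ↔ ∃ s t : 𝓞 Qb, s ∉ P ∧ (s : Qb) * x = t :=
  (vr hP).valuation_le_one_iff x

theorem lt_of_le {F Γ Γ' : Type} [Field F] [LinearOrderedCommGroupWithZero Γ]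
    [LinearOrderedCommGroupWithZero Γ'] {v : Valuation F Γ} {w : Valuation F Γ'}
    (h : ∀ x, v x ≤ 1 ↔ w x ≤ 1) (x y : F) : v x < v y ↔ w x < w y :=
  ((Valuation.isEquiv_iff_val_le_one).2 fun {x} => h x).lt_iff_lt

theorem v_dec {g : GQ} (hg : g ∈ dec P) (x y : Qb) :
    (vr hP).valuation (g x) < (vr hP).valuation (g y) ↔
      (vr hP).valuation x < (vr hP).valuation y := by
  have k : ∀ g ∈ dec P, ∀ x, (vr hP).valuation x ≤ 1 → (vr hP).valuation (g x) ≤ 1 := by
    intro g hg x hx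
    obtain ⟨s, t, h1, h2⟩ := (le_one hP x).1 hx
    refine (le_one hP _).2 ⟨g • s, g • t, fun h => h1 ((hg s).1 h), ?_⟩
    show g s * g x = g t
    rw [← map_mul, h2]
  refine lt_of_le (v := (vr hP).valuation.comap (g : Qb →+* Qb)) (fun x => ⟨fun h => ?_,
    k g hg x⟩) x y
  have := k _ (inv_mem hg) _ h
  rwa [show g⁻¹ ((g : Qb →+* Qb) x) = x from g.symm_apply_apply x] at this

variable {L : Type} [Field L] [NumberField L] {j : L →+* Qb} {w : HeightOneSpectrum (𝓞 L)}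

theorem v_res (hw : below j P = w.asIdeal) (x y : L) :
    (vr hP).valuation (j x) < (vr hP).valuation (j y) ↔ w.valuation L x < w.valuation L y := by
  have k : ∀ x, w.valuation L x ≤ 1 → ∃ s t : 𝓞 L, s ∉ w.asIdeal ∧ (s : L) * x = t := fun x hx => by
    obtain ⟨n, d, e⟩ := w.exists_primeCompl_mul_eq_of_integer x hx
    exact ⟨d.1, n, d.2, (mul_comm _ _).trans e⟩
  refine lt_of_le (v := (vr hP).valuation.comap j) (fun x => ⟨fun h => ?_, fun h => ?_⟩) x y
  · by_contra c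
    have x0 : x ≠ 0 := by
      rintro rfl
      simp at c
    have c1 : w.valuation L x⁻¹ < 1 := by
      rw [map_inv₀]
      exact inv_lt_one_of_one_lt₀ (not_le.1 c)
    obtain ⟨s, t, h1, h2⟩ := k _ c1.le
    obtain ⟨s', t', h3, h4⟩ := (le_one hP _).1 h
    have h5 : t ∈ w.asIdeal := by
      rw [← w.valuation_lt_one_iff_mem (K := L)]
      show w.valuation L (t : L) < 1
      rw [← h2, map_mul]
      exact (mul_le_of_le_one_left' (w.valuation_le_one s)).trans_lt c1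
    rw [← hw] at h1 h5
    have e : RingOfIntegers.mapRingHom j s * s' = RingOfIntegers.mapRingHom j t * t' := by
      apply RingOfIntegers.ext
      change j s * (s' : Qb) = j t * t'
      rw [← h2, ← h4, map_mul, map_inv₀]
      have := (map_ne_zero j).2 x0
      field_simp
    exact (hP.2.1.mem_or_mem (e ▸ P.mul_mem_right t' h5)).elim h1 h3
  · obtain ⟨s, t, h1, h2⟩ := k x h
    rw [← hw] at h1
    exact (le_one hP _).2 ⟨RingOfIntegers.mapRingHom j s, RingOfIntegers.mapRingHom j t, h1, by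
      change j s * j x = j t
      rw [← map_mul, h2]⟩

/-- elements fixed by the decomposition group are limits of global elements -/
theorem apx {x y : Qb} (hx : ∀ g ∈ GK j ⊓ dec P, g x = x) (hy : y ≠ 0) :
    ∃ a : L, (vr hP).valuation (x - j a) < (vr hP).valuation y := by
  haveI := H916.isAlg_Qb
  let U : Subgroup GQ := GK j ⊓ (MulAction.stabilizer GQ x ⊓ MulAction.stabilizer GQ y)
  have hU : IsOpen (U : Set GQ) := (H916.isOpen_GK j).inter
    ((stabilizer_isOpen_of_isIntegral x).inter (stabilizer_isOpen_of_isIntegral y))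
  have hle := Subgroup.normalCore_le U
  obtain ⟨E, _, _, _, _, jE, ρ, D, hG, -⟩ := H916.exists_fld j U.normalCore (Pl.core_open hU)
    (hle.trans inf_le_left) (fun g _ v hv => (Subgroup.normalCore_normal U).conj_mem v hv g)
  obtain ⟨X, rfl⟩ := H916.fixed jE (x := x) fun g => (hle (hG ▸ g.2)).2.1
  obtain ⟨Y, rfl⟩ := H916.fixed jE (x := y) fun g => (hle (hG ▸ g.2)).2.2
  let u := Pl.dn jE l P hP
  obtain ⟨a, ha⟩ := P022E.GW.Brg.apxF (L := L) u X (fun σ h => by
    have e : σ • below jE P = below jE P := by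
      ext z
      rw [Ideal.mem_pointwise_smul_iff_inv_smul_mem]
      have : σ⁻¹ • z ∈ (cm (σ : E ≃+* E) u).asIdeal ↔ σ • σ⁻¹ • z ∈ below jE P := Iff.rfl
      rw [h, smul_inv_smul] at this
      exact this
    obtain ⟨g₀, h0⟩ := D.surj σ
    have hb' : below jE ((g₀ : GQ) • P) = below jE P := by rw [D.below_smul, h0, e]
    obtain ⟨k, hk⟩ := H916.exists_smul jE (ov_smul hP (g₀ : GQ)).2.1 hP.2.1 hb'
    let k' : GK j := ⟨(k : GQ), D.mem_GK k.2⟩
    have hρk : ρ k' = 1 := (D.ker k').2 k.2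
    apply jE.injective
    rw [← h0, ← one_mul (ρ g₀), ← hρk, ← map_mul, ← D.act]
    refine hx _ ⟨(k' * g₀).2, (Pl.dec_iff _ _).2 ?_⟩
    show ((k : GQ) * (g₀ : GQ)) • P = P
    rw [mul_smul]
    exact hk.symm) (u.valuation E Y) ((Valuation.ne_zero_iff _).2 fun e => hy (by simp [e]))
  refine ⟨a, ?_⟩
  rw [← D.comp, ← map_sub, v_res hP (w := u) rfl]
  exact ha

variable {p : ℕ} [Fact p.Prime] (M : Mu p L)

/-- the root of unity in the algebraic closure -/
def mq (j : L →+* Qb) : Mu p Qb := ⟨j M.ζ, Kum.prim M j, M.prime, M.odd⟩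

theorem mq_l : (mq M j).l = j M.l := by simp [Mu.l, mq]

/-- roots of elements which are close to one -/
theorem fix_of {t : Qb} (ht : (vr hP).valuation (t ^ p - 1) < (vr hP).valuation (j M.l ^ p))
    {g : GQ} (hg : g ∈ GK j ⊓ dec P) {a : ZMod p} (ha : g t = j M.ζ ^ a.val * t) : a = 0 := by
  rw [← mq_l] at ht
  obtain ⟨i, hi⟩ := near_ex (mq M j) _ ht
  have h1 := (v_dec hP hg.2 _ _).2 hi
  rw [map_sub, map_pow, mq_l, hg.1, show g (mq M j).ζ = (mq M j).ζ from hg.1 _, ← mq_l, ha] at h1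
  have h2 : (vr hP).valuation (t - (mq M j).ζ ^ (i - a).val) < (vr hP).valuation (mq M j).l := by
    rw [← one_mul ((vr hP).valuation (t - _)), ← v_zeta (mq M j) _ a.val, ← map_mul, mul_sub,
      ← pw_add, add_sub_cancel]
    exact h1
  exact sub_eq_self.1 (near_uniq _ _ h2 hi)

end Lc

open Lc

theorem kum3 : KUM3 := by
  intro p _ L _ _ M j l P w hP hw b f ⟨β, h1, h2⟩
  have β0 := Kum.root_ne h1
  refine ⟨fun h => ?_, fun ⟨y, hy⟩ g hg => ?_⟩
  · have l0 : j M.l ^ p ≠ 0 := pow_ne_zero _ ((map_ne_zero j).2 M.l_ne_zero)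
    obtain ⟨a, ha⟩ := apx hP (j := j) (x := β⁻¹) (y := β⁻¹ * j M.l ^ p) (fun g hg => by
      rw [map_inv₀, h2 g hg.1, h g hg]; simp) (mul_ne_zero (inv_ne_zero β0) l0)
    have e1 : (vr hP).valuation (1 - j a * β) < (vr hP).valuation (j M.l ^ p) := by
      have := v_mul_lt _ ha β0
      rwa [mul_sub, mul_inv_cancel₀ β0, mul_inv_cancel_left₀ β0,
        mul_comm β] at this
    have e2 : (vr hP).valuation (j M.l ^ p) ≤ 1 := by
      rw [map_pow, ← mq_l]; exact pow_le_one' (v_l_le _ _) p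
    have e3 := v_one_of _ (((vr hP).valuation.map_sub_swap _ _).trans_lt (e1.trans_le e2))
    have a0 : a ≠ 0 := by
      rintro rfl
      simp at e3
    refine ⟨(Units.mk0 a a0)⁻¹, ?_⟩
    rw [← v_res hP hw, map_pow, map_sub, Valuation.map_sub_swap, map_one, map_div₀, map_pow, ← h1,
      Units.val_inv_eq_inv_val, Units.val_mk0, map_inv₀, inv_pow, div_inv_eq_mul, ← mul_pow,
      mul_comm β]
    exact (v_pow_le _ e3.le p).trans_lt e1
  · rw [← v_res hP hw, map_pow, map_sub, map_one, map_div₀, map_pow, ← h1, ← div_pow] at hy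
    refine fix_of hP M hy hg ?_
    rw [map_div₀, hg.1, h2 g hg.1, mul_div_assoc]

theorem dec_cl (P : Id) : IsClosed (dec P : Set GQ) := by
  haveI := H916.isAlg_Qb
  have e : (dec P : Set GQ) = ⋂ x : 𝓞 Qb, (fun g : GQ => g (x : Qb)) ⁻¹'
      {y | ∃ z : 𝓞 Qb, (z : Qb) = y ∧ (z ∈ P ↔ x ∈ P)} := by
    ext g
    rw [Set.mem_iInter]
    refine forall_congr' fun x => ⟨fun h => ⟨g • x, rfl, h⟩, fun ⟨z, h1, h2⟩ => ?_⟩
    rwa [show g • x = z from RingOfIntegers.ext h1.symm]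
  rw [e]
  refine isClosed_iInter fun x => isOpen_compl_iff.1 ((?_ : IsLocallyConstant
    fun g : GQ => g (x : Qb)) _ᶜ)
  refine (IsLocallyConstant.iff_exists_open _).2 fun g => ⟨(fun u => g⁻¹ * u) ⁻¹'
    (MulAction.stabilizer GQ (x : Qb)), (P022E.GW.Kc.stab_open _).preimage (by fun_prop), by simp,
    fun y hy => ?_⟩
  have e' := congrArg g (show (g⁻¹ * y) (x : Qb) = x from hy)
  rwa [← AlgEquiv.mul_apply, mul_inv_cancel_left] at e'

theorem kum4 : KUM4 := by
  intro p _ L _ _ M j l P f hP hf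
  obtain ⟨β, β0, h2⟩ := Kum.surj' (Δ := GK j ⊓ dec P) (Kum.prim M j) (fun g hg => hg.1 M.ζ)
    ((isClosed_GK j).inter (dec_cl P)) hf
  have l0 : j M.l ^ p ≠ 0 := pow_ne_zero _ ((map_ne_zero j).2 M.l_ne_zero)
  have c0 := pow_ne_zero p β0
  obtain ⟨a, ha⟩ := apx hP (j := j) (x := β ^ p) (y := β ^ p * j M.l ^ p) (fun g hg => by
    rw [map_pow, h2 g hg, mul_pow, ← pow_mul, mul_comm _ p, pow_mul, (Kum.prim M j).pow_eq_one,
      one_pow, one_mul]) (mul_ne_zero c0 l0)
  have e1 : (vr hP).valuation (j a / β ^ p - 1) < (vr hP).valuation (j M.l ^ p) := by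
    have := v_mul_lt _ ha (inv_ne_zero c0)
    rwa [mul_sub, inv_mul_cancel₀ c0, inv_mul_cancel_left₀ c0,
      Valuation.map_sub_swap, ← div_eq_inv_mul] at this
  have e2 : (vr hP).valuation (j M.l ^ p) ≤ 1 := by
    rw [map_pow, ← mq_l]; exact pow_le_one' (v_l_le _ _) p
  have a0 : a ≠ 0 := by
    rintro rfl
    have := v_one_of _ (e1.trans_le e2)
    simp at this
  obtain ⟨f', γ, k1, k2⟩ := Kum.ex M j (Units.mk0 a a0)
  refine ⟨_, f', ⟨γ, k1, k2⟩, fun g hg => sub_eq_zero.1 (fix_of hP M (t := γ / β) ?_ hg ?_)⟩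
  · rwa [div_pow, k1]
  · have z0 : j M.ζ ^ (f g).val ≠ 0 := pow_ne_zero _ ((map_ne_zero j).2 M.zeta_ne)
    rw [map_div₀, k2 g hg.1, h2 g hg, ← sub_add_cancel (f' g) (f g),
      Kum.pw_add (Kum.prim M j).pow_eq_one, add_sub_cancel_right]
    field_simp

end Vale.Agent.P022K.GW
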