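import Vale.Agent.P022K.GW.Has1
import Vale.Agent.P022K.GW.Unr
import Vale.Agent.P022E.GW.Brg
import Vale.Agent.P022.H619.HnpCft
import Vale.Agent.P022.H967.POW
import Vale.Agent.P022.H917.LN

/-!
# P022K, block GW: the local global principle (row `HASP`)
-/

set_option linter.all false

noncomputable section

namespace Vale.Agent.P022K.GW

open NumberField IsDedekindDomain
open scoped Pointwise
open Vale.Agent.P022 Vale.Agent.P022.C Vale.Agent.P022.H916
open Vale.Agent.P022D.W (dec)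
open Vale.Agent.P022D.L2c (IsZ2 Cob)
open Vale.Agent.P022E.GW (Ov Cb)
open Vale.Agent.P027M.S.Gen (cm val_cm mem_cm)

namespace Has

theorem prod_close {E Γ : Type} [Field E] [LinearOrderedCommGroupWithZero Γ] (w : Valuation E Γ)
    {δ : Γ} (h0 : δ ≠ 0) (h1 : δ ≤ 1) {u : ℕ → E} (h : ∀ k, w (u k - 1) < δ) (n : ℕ) :
    w (∏ k ∈ Finset.range n, u k - 1) < δ := by
  induction n with
  | zero => simpa using zero_lt_iff.2 h0
  | succ n ih =>
    rw [Finset.prod_range_succ]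
    generalize ∏ k ∈ Finset.range n, u k = x at ih
    rw [show x * u n - 1 = (x - 1) + (u n - 1) + (x - 1) * (u n - 1) by ring]
    refine w.map_add_lt (w.map_add_lt ih (h n)) ?_
    rw [map_mul]
    exact (mul_le_of_le_one_right' ((h n).le.trans h1)).trans_lt ih

variable {K L : Type} [Field K] [NumberField K] [Field L] [NumberField L] [Algebra K L]
  {j : K →+* Qb} {jL : L →+* Qb} {ρ : GK j →* (L ≃ₐ[K] L)} {P : Id}

theorem lift (D : Dict j jL ρ) (hP : P.IsPrime) {g : GK j}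
    (h : ∀ z : 𝓞 L, ρ g • z ∈ below jL P ↔ z ∈ below jL P) :
    ∃ k ∈ GK jL, (g : GQ) * k ∈ dec P := by
  obtain ⟨k, hk⟩ := exists_smul jL hP (P022D.Sel.Pl.prime_smul (g : GQ)⁻¹ hP) (by
    ext z
    rw [← h, P022D.Sel.Pl.mem_below, P022D.Sel.Pl.mem_below, Pl.mem_smul, inv_inv, D.smul_map])
  exact ⟨k, k.2, (Pl.dec_iff _ _).2 (by rw [mul_smul, ← hk, smul_inv_smul])⟩

/-- norms from the decomposition field are local norms -/
theorem nm_fin (D : Dict j jL ρ) {p : ℕ} {τ : GK j} (cy : Cyc K p (ρ τ)) {l : ℕ} (hP : Ov l P)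
    {v : HeightOneSpectrum (𝓞 K)} (hv : below j P = v.asIdeal) (hτ : (τ : GQ) ∈ dec P) {y : Qb}
    (hy : ∀ g ∈ GK jL ⊓ dec P, g y = y) {a : K} (ha : a ≠ 0)
    (e : ∏ k ∈ Finset.range p, ((τ : GQ) ^ k) y = j a) : Nm (ρ τ) p (v.adicCompletion K) a := by
  let U : Subgroup GQ := GK jL ⊓ MulAction.stabilizer GQ y
  have hU : IsOpen (U : Set GQ) := (isOpen_GK jL).inter (P022E.GW.Kc.stab_open y)
  have hle := Subgroup.normalCore_le U
  obtain ⟨E, _, _, _, _, jE, r, DE, hG, -⟩ := exists_fld j U.normalCore (Pl.core_open hU)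
    (fun g hg => D.mem_GK (hle hg).1) fun g _ u hu => U.normalCore_normal.conj_mem u hu g
  obtain ⟨Y, rfl⟩ := fixed jE (x := y) fun g => (hle (hG ▸ g.2)).2
  choose m hm using fun x : L => fixed jE (x := jL x) fun g => (hle (hG ▸ g.2)).1 x
  let μ : L →+* E :=
    { toFun := m
      map_one' := jE.injective (by rw [hm, map_one, map_one])
      map_mul' := fun a b => jE.injective (by simp only [hm, map_mul])
      map_zero' := jE.injective (by rw [hm, map_zero, map_zero])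
      map_add' := fun a b => jE.injective (by simp only [hm, map_add]) }
  letI : Algebra L E := μ.toAlgebra
  have hμ : ∀ x, jE (algebraMap L E x) = jL x := hm
  haveI : IsScalarTower K L E := IsScalarTower.of_algebraMap_eq fun x =>
    jE.injective (by rw [hμ, D.comp, DE.comp])
  haveI : IsGalois L E := IsGalois.tower_top_of_isGalois K L E
  let w := Pl.dn jE l P hP
  have hw : w.asIdeal.comap (algebraMap (𝓞 K) (𝓞 E)) = v.asIdeal := (DE.below_comap P).trans hv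
  have p0 : ((p : K) ^ 2) ≠ 0 := pow_ne_zero 2 (Nat.cast_ne_zero.2 cy.pos.ne')
  have d0 : w.valuation E (algebraMap K E ((p : K) ^ 2)) ≠ 0 := by
    rwa [Valuation.ne_zero_iff, map_ne_zero]
  have d1 : w.valuation E (algebraMap K E ((p : K) ^ 2)) ≤ 1 := by
    rw [map_pow, map_natCast, ← map_natCast (algebraMap (𝓞 E) E), ← map_pow]
    exact w.valuation_le_one _
  have Y0 : Y ≠ 0 := by
    rintro rfl
    refine (map_ne_zero j).2 ha (e.symm.trans (Finset.prod_eq_zero (Finset.mem_range.2 cy.pos) ?_))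
    rw [map_zero, map_zero]
  have w0 : w.valuation E Y ≠ 0 := (Valuation.ne_zero_iff _).2 Y0
  obtain ⟨y', hy'⟩ := P022E.GW.Brg.apxF (L := L) w Y (fun s hs => by
    obtain ⟨g, hg⟩ := DE.surj (s.restrictScalars K)
    obtain ⟨k, hk, h⟩ := lift DE hP.2.1 (g := g) fun z => by
      rw [hg]
      exact (mem_cm (s : E ≃+* E) w z).symm.trans (by rw [hs]; rfl)
    have h1 : (g : GQ) ∈ GK jL := fun x => by
      rw [← hμ, DE.act, hg]
      exact congrArg jE (s.commutes x)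
    have h2 := hy _ ⟨mul_mem h1 (hle (hG ▸ hk)).1, h⟩
    rw [AlgEquiv.mul_apply, hk Y, DE.act, hg] at h2
    exact jE.injective h2) _ (mul_ne_zero d0 w0)
  have inv : ∀ (k : ℕ) x, w.valuation E (r (τ ^ k) x) = w.valuation E x := fun k x => by
    have h1 : cm (r (τ ^ k) : E ≃+* E) w = w := HeightOneSpectrum.ext (Ideal.ext fun z => by
      have := (dec P).pow_mem hτ k (RingOfIntegers.mapRingHom jE z)
      rw [← Subgroup.coe_pow, DE.smul_map] at this
      exact this)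
    exact (val_cm (r (τ ^ k) : E ≃+* E) w x).symm.trans (by rw [h1])
  have h1 := prod_close (w.valuation E) d0 d1 (u := fun k => r (τ ^ k) (algebraMap L E y' / Y))
    (fun k => by
      rw [← map_one (r (τ ^ k)), ← map_sub, inv, div_sub_one Y0, map_div₀,
        div_lt_iff₀ (zero_lt_iff.2 w0), Valuation.map_sub_swap]
      exact hy') p
  have h2 : ∏ k ∈ Finset.range p, r (τ ^ k) (algebraMap L E y' / Y) =
      algebraMap K E (Algebra.norm K y' / a) := jE.injective (by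
    rw [DE.comp, map_div₀, ← e, ← D.comp, ← H917.cyc_norm cy, map_prod, map_prod,
      ← Finset.prod_div_distrib]
    refine Finset.prod_congr rfl fun k _ => ?_
    rw [← DE.act, map_div₀, map_div₀, hμ, D.act, map_pow]
    rfl)
  have n0 : Algebra.norm K y' ≠ 0 := fun h => by
    rw [h2, h, zero_div, map_zero, zero_sub, Valuation.map_neg, map_one] at h1
    exact h1.not_ge d1
  rw [h2, ← map_one (algebraMap K E), ← map_sub, P011.Arith.val_lt_val_iff hw] at h1
  obtain ⟨c, hc⟩ := H967.POW K v p cy.pos _ h1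
  refine H917.nm_of cy _ c⁻¹ y' ?_
  rw [inv_pow, hc, ← map_inv₀, ← map_mul, inv_div, div_mul_cancel₀ _ n0]

/-- split places -/
theorem nm_split (D : Dict j jL ρ) {p : ℕ} {σ : L ≃ₐ[K] L} (cy : Cyc K p σ) (hP : P.IsPrime)
    {v : HeightOneSpectrum (𝓞 K)} (hv : below j P = v.asIdeal)
    (h : ∀ g ∈ GK j, g ∈ dec P → g ∈ GK jL) {a : K} (ha : a ≠ 0) :
    Nm σ p (v.adicCompletion K) a := by
  have key : ∀ s : L ≃ₐ[K] L, (∀ z : 𝓞 L, s • z ∈ below jL P ↔ z ∈ below jL P) → s = 1 := by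
    intro s hs
    obtain ⟨g, rfl⟩ := D.surj s
    obtain ⟨k, hk, e⟩ := lift D hP hs
    exact (D.ker g).2 (((GK jL).mul_mem_cancel_right hk).1
      (h _ (mul_mem g.2 (D.mem_GK hk)) e))
  refine H917.LN K L p σ cy v (below jL P) (H20.below_prime jL hP) ((D.below_comap P).trans hv)
    (fun n hn => key _ fun z => ⟨fun k => ?_, fun k => ?_⟩) a ha
    (Or.inr fun n hn => key _ fun z => ?_)
  · simpa using Ideal.sub_mem _ k (hn z)
  · simpa using Ideal.add_mem _ (hn z) k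
  · conv_rhs => rw [← hn]
    rfl

/-- **the cyclic step** -/
theorem step {E : Type} [Group E] {H : Subgroup GQ} {i : Qbˣ →* E} {π : E →* GQ} {s : GQ → E}
    (X : Xt H i π s) {p : ℕ} [hp : Fact p.Prime] (h2 : p ≠ 2) {ζ : Qb} (hζ : IsPrimitiveRoot ζ p)
    (fx : ∀ g ∈ H, g ζ = ζ) {V V' : Subgroup GQ} (oV : IsOpen (V' : Set GQ)) (le : V' ≤ V)
    (le' : V ≤ H) (hi : V'.relIndex V = p) (hn : (V'.subgroupOf V).Normal) {S : Subgroup E}
    (h : Sp i π s V' S) (hl : ∀ l P, Ov l P → ∃ S', Sp i π s (V ⊓ dec P) S') :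
    ∃ S', Sp i π s V S' := by
  obtain ⟨K, _, _, j, rfl⟩ := P022E.GW.Hy.ex_fld (Subgroup.isOpen_mono le oV)
  obtain ⟨L, _, _, _, _, jL, ρ, D, rfl, hρ⟩ := exists_fld j V' oV le
    fun g hg u hu => (Subgroup.normal_subgroupOf_iff le).1 hn u g hu hg
  haveI : FiniteDimensional K L := Module.Finite.of_restrictScalars_finite ℚ K L
  have hc : Nat.card (L ≃ₐ[K] L) = p := by
    rw [← hi, Subgroup.relIndex, show (GK jL).subgroupOf (GK j) = ρ.ker from
      Subgroup.ext fun g => (hρ g).symm, Subgroup.index_ker, MonoidHom.range_eq_top.2 D.surj,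
      Subgroup.card_top]
  haveI := (Finite.one_lt_card_iff_nontrivial).1 (hc ▸ hp.out.one_lt)
  obtain ⟨σ₀, h1⟩ := exists_ne (1 : L ≃ₐ[K] L)
  obtain ⟨σ, rfl⟩ := D.surj σ₀
  have pw : ∀ τ : GK j, (τ : GQ) ^ p ∈ GK jL := fun τ =>
    (hρ (τ ^ p)).1 (by rw [map_pow, ← hc, pow_card_eq_one'])
  have ho : orderOf (ρ σ) = p := orderOf_eq_prime (by rw [← hc, pow_card_eq_one']) h1
  have cy : Cyc K p (ρ σ) := ⟨hp.out.pos, ho, by rw [← IsGalois.card_aut_eq_finrank, hc]⟩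
  have gen : ∀ g ∈ GK j, ∃ n : ℕ, g * ((σ : GQ) ^ n)⁻¹ ∈ GK jL := fun g hg => by
    obtain ⟨n, e⟩ := mem_powers_of_prime_card (g' := ρ ⟨g, hg⟩) hc h1
    exact ⟨n, (hρ (⟨g, hg⟩ * (σ ^ n)⁻¹)).1 (by
      rw [map_mul, map_inv, map_pow, ← e, mul_inv_cancel])⟩
  obtain ⟨t, a, e1, ht, ha, f1, f2⟩ := h.inv X (le.trans le') (isClosed_GK jL) (le' σ.2)
    ((Subgroup.normal_subgroupOf_iff_le_normalizer le).1 hn σ.2) (pw σ)
  obtain ⟨a₀, e₀⟩ := fixed j (x := a) fun g => by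
    obtain ⟨n, k⟩ := gen g g.2
    have := mul_mem (show _ ∈ MulAction.stabilizer GQ a from f1 _ k)
      (pow_mem (show _ ∈ MulAction.stabilizer GQ a from f2) n)
    rw [inv_mul_cancel_right] at this
    exact congrArg Units.val this
  have a0 : a₀ ≠ 0 := fun e => a.ne_zero (by rw [← e₀, e, map_zero])
  obtain ⟨y, hy⟩ := H619.HNTP K L p hp.out _ cy a₀ a0 ⟨fun v => by
    obtain ⟨l, P, hP, rfl⟩ := Pl.dn_onto j v
    by_cases sp : ∀ g ∈ GK j, g ∈ dec P → g ∈ GK jL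
    · exact nm_split D cy hP.2.1 rfl sp a0
    push Not at sp
    obtain ⟨τ, t1, t2, t3⟩ := sp
    obtain ⟨n, e⟩ := mem_powers_of_prime_card (g := ρ ⟨τ, t1⟩) (g' := ρ σ) hc
      fun k => t3 ((hρ _).1 k)
    have e' : ρ (⟨τ, t1⟩ ^ n) = ρ σ := (map_pow _ _ _).trans e
    obtain ⟨S', hS⟩ := hl l P hP
    obtain ⟨y, y1, y2⟩ := h.loc X le le' ((isClosed_GK jL).inter (P022D.W.isClosed_dec P)) hS ht ha
      (τ := τ ^ n) ⟨pow_mem t1 n, pow_mem t2 n⟩ (by
        rw [e1]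
        exact (hρ (⟨τ, t1⟩ ^ n * σ⁻¹)).1 (by rw [map_mul, map_inv, e', mul_inv_cancel]))
      (pw (⟨τ, t1⟩ ^ n))
    rw [← e'] at cy ⊢
    refine nm_fin D cy hP rfl (pow_mem t2 n) (y := (y⁻¹ : Qbˣ)) (fun g hg => ?_) a0 ?_
    · exact congrArg Units.val ((smul_inv' g y).trans (congrArg _ (y1 g hg)))
    · rw [e₀, eq_inv_of_mul_eq_one_right y2, ← Finset.prod_inv_distrib, Units.coe_prod]
      exact Finset.prod_congr rfl fun k _ => congrArg Units.val (smul_inv' ((τ ^ n) ^ k) y),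
    fun φ => by
      obtain ⟨z, rfl⟩ := fixed j (x := ζ) fun g => fx g (le' g.2)
      have h3 := (hζ.of_map_of_injective j.injective).map_of_injective φ.injective
      rcases (pow_eq_one_iff_of_ne_zero hp.out.ne_zero).1 h3.pow_eq_one with k | k
      · exact absurd k (h3.ne_one hp.out.one_lt)
      · exact absurd (hp.out.even_iff.1 k.2) h2⟩
  have hy' : ∏ k ∈ Finset.range p, ((σ : GQ) ^ k) (jL y) = a := by
    rw [← e₀, ← D.comp, ← hy, map_prod]
    exact Finset.prod_congr rfl fun k _ => by rw [← map_pow, ← D.act]; rfl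
  have y0 : jL y ≠ 0 := fun e => a.ne_zero
    (hy'.symm.trans (Finset.prod_eq_zero (Finset.mem_range.2 hp.out.pos) (by rw [e, map_zero])))
  have e2 : π (i (Units.mk0 _ y0)⁻¹ * t) = σ := by rw [map_mul, X.pi, one_mul, e1]
  refine h.ext X oV le (t := i (Units.mk0 _ y0)⁻¹ * t) (p := p)
    (mul_mem ((h.nrm X _).2 fun g hg => ?_) ht) (e2 ▸ σ.2) ?_ (e2 ▸ gen) fun n k => ?_
  · rw [smul_inv']
    exact congrArg _ (Units.ext (hg y))
  · rw [X.pw, e1]
    simp only [smul_inv', Finset.prod_inv_distrib, map_inv]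
    rwa [show ∏ k ∈ Finset.range p, (σ : GQ) ^ k • Units.mk0 _ y0 = a from
      Units.ext ((Units.coe_prod _ _).trans hy')]
  · rw [e2] at k
    rw [← ho, orderOf_dvd_iff_zpow_eq_one, ← map_zpow]
    exact (hρ (σ ^ n)).2 k

end Has

open Has P022E.GW.Gy in
theorem hasp : HASP := by
  intro p hp H z₀ h2 ho fx hz₀ hl₀
  have := Pl.cpt
  have hc := H.isClosed_of_isOpen ho
  obtain ⟨ζ₀, hζ⟩ := HasEnoughRootsOfUnity.exists_primitiveRoot Qb p
  let ζ : Qbˣ := Units.mk0 ζ₀ (hζ.ne_zero hp.out.ne_zero)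
  have fx' : ∀ g ∈ H, g • ζ = ζ := fun g hg => Units.ext (fx g hg _ hζ.pow_eq_one)
  let z : GQ → GQ → ZMod p := fun g h => z₀ g h - z₀ 1 1
  have hz : IsZ2 (P022E.GW.rs H z) := z2_sub hz₀ (cob_z2 (cob_const (z₀ 1 1)))
  have hl : ∀ l P, Ov l P → Cb (H ⊓ dec P) z := fun l P h =>
    sub_mem (hl₀ l P h) (cob_const (z₀ 1 1))
  suffices h : Cb H z by
    have := add_mem h (cob_const (z₀ 1 1))
    exact Eq.mp (congrArg (· ∈ Cob (ZMod p) H) (funext₂ fun a b => sub_add_cancel _ _)) this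
  have z1 : ∀ g : H, z 1 g = 0 ∧ z g 1 = 0 := fun g =>
    ⟨(Unr.z2_left hz g).trans (sub_self _), (Unr.z2_right hz g).trans (sub_self _)⟩
  obtain ⟨W, oW, nW, hW⟩ := P022E.GW.Unr.unif H hc _ hz.1
  have zW : ∀ g w : H, w.1 ∈ W → z g w = 0 ∧ z w g = 0 := fun g w hw => by
    have a := (hW w hw g 1).2
    have b := (hW w hw 1 g).1
    rw [one_mul] at a b
    exact ⟨a.trans (z1 g).2, b.trans (z1 g).1⟩
  let f : Fs H := ⟨fun g h => ζ ^ (z g h).val, fun g h l => by
    rw [smul_pow', fx' g g.2, ← padd hζ, ← padd hζ]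
    exact congrArg (fun t : ZMod p => ζ ^ t.val) (hz.2 g h l), fun g => by
    rw [show z (1 : H) g = 0 from (z1 g).1, ZMod.val_zero, pow_zero]⟩
  have hf : ∀ g h : H, f.Z g h = ζ ^ (z g h).val := fun _ _ => rfl
  have X := Cx.xt f oW nW fun g w hw => by
    rw [hf, hf, (zW g w hw).1, (zW g w hw).2, ZMod.val_zero, pow_zero]
    exact ⟨rfl, rfl⟩
  have oN := Pl.core_open (W := W ⊓ H) (oW.inter ho)
  have lN := (W ⊓ H).normalCore_le
  haveI : Finite (GQ ⧸ (W ⊓ H).normalCore) := Subgroup.quotient_finite_of_isOpen _ oN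
  haveI : (W ⊓ H).normalCore.FiniteIndex := Subgroup.finiteIndex_of_finite_quotient
  obtain ⟨S, l1, l2, hi, K, hK⟩ := Has.chain p (W ⊓ H).normalCore H (lN.trans inf_le_right)
    (fun V => ∃ K, Sp (Cx.inc f) (Cx.prj f) (Cx.sec f) V K)
    (sp_of hζ hf fx' (lN.trans inf_le_right) ⟨0, IsLocallyConstant.const 0, fun a b => by
      change (0 : ZMod p) = 0 + 0 + z a b
      rw [(zW ⟨a, (lN a.2).2⟩ ⟨b, (lN b.2).2⟩ (lN b.2).1).1, add_zero, add_zero]⟩)
    fun V V' a b c d e ⟨K, hK⟩ => step X h2 hζ (fun g hg => fx g hg _ hζ.pow_eq_one)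
      (Subgroup.isOpen_mono a oN) b c d e hK fun l P hP => sp_of hζ hf fx' (inf_le_left.trans c)
        (cob_le (inf_le_inf_right _ c) (hl l P hP))
  have oS := Subgroup.isOpen_mono l1 oN
  have h3 := cb_of hζ hf l2 X (S.isClosed_of_isOpen oS) fx' oW
    (fun g hg w hw e => (zW ⟨g, hg⟩ ⟨w, hw⟩ e).1) hK
  let φ : S.subgroupOf H →* S :=
    { toFun := fun a => ⟨a.1.1, a.2⟩, map_one' := rfl, map_mul' := fun _ _ => rfl }
  exact trf (S.subgroupOf H) (oS.preimage continuous_subtype_val)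
    (fun e => hi ((ZMod.natCast_eq_zero_iff _ _).1 e)) hz
    (cob_comp φ ((continuous_subtype_val.comp continuous_subtype_val).subtype_mk _) h3)

end Vale.Agent.P022K.GW
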