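import Vale.Agent.P022K.GW.Tam
import Vale.Agent.P022K.Cheb.Main
import Vale.Agent.P022D.Sel.Law
import Vale.Agent.P022D.Sel.Art
import Vale.Agent.P011.ArP.SUn
import Vale.Agent.P011.Arith.Quad

/-!
# P022K, block GW: the reciprocity law (rows `REC0`, `SHA1`, `TAM`)
-/

set_option linter.all false

noncomputable section

namespace Vale.Agent.P022K.GW

open NumberField IsDedekindDomain
open scoped Pointwise
open Vale.Agent.P022 Vale.Agent.P022.C Vale.Agent.P022.H916 Vale.Agent.P022.H443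
open Vale.Agent.P022E.GW (Ov Ch)
open Vale.Agent.P011.ArP (Mu Pw LS)
open Vale.Agent.P022D.W (dec)
open Vale.Agent.P027M.S (Inert)
open Vale.Agent.P027M.S.Cls (ordv_mul ordv_zpow ordv_pow val_eq ordv_of)
open Vale.Agent.P022E.GW.Kc (nat_mem ex_above ex_below prime_mem not_ov fin_ord)
open Gcl

namespace Rcp

variable {p : ℕ} [Fact p.Prime] {L : Type} [Field L] [NumberField L] {j : L →+* Qb}

/-- the sum of the orders with weights -/
def sm (a : PL L → ZMod p) (x : L) : ZMod p := ∑ᶠ w : PL L, (ordv w x : ZMod p) * a w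

theorem sm_fin (a : PL L → ZMod p) {x : L} (hx : x ≠ 0) :
    (Function.support fun w : PL L => (ordv w x : ZMod p) * a w).Finite :=
  (fin_ord hx).subset fun w hw h0 => hw (by simp only [h0, Int.cast_zero, zero_mul])

theorem sm_mul (a : PL L → ZMod p) {x y : L} (hx : x ≠ 0) (hy : y ≠ 0) :
    sm a (x * y) = sm a x + sm a y := by
  rw [sm, sm, sm, ← finsum_add_distrib (sm_fin a hx) (sm_fin a hy)]
  exact finsum_congr fun w => by rw [ordv_mul w hx hy]; push_cast; ring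

theorem sm_pw (a : PL L → ZMod p) {x y : L} (hx : x ≠ 0) (hy : y ≠ 0) :
    sm a (x * y ^ p) = sm a x :=
  finsum_congr fun w => by
    rw [ordv_mul w hx (pow_ne_zero _ hy), ordv_pow w hy]; push_cast; simp

/-- the character as a homomorphism -/
def th {y : GQ → ZMod p} (hy : Ch (GK j) y) : GK j →* Multiplicative (ZMod p) :=
  MonoidHom.mk' (fun g => Multiplicative.ofAdd (y g)) fun g g' =>
    congrArg Multiplicative.ofAdd (hy.2 g g')

/-- the value at the Frobenius elements of an unramified prime -/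
theorem fr_eq {y : GQ → ZMod p} (hy : Ch (GK j) y) {w : PL L}
    (h : ∀ P : Id, P.IsPrime → below j P = w.asIdeal → ∀ g ∈ GK j, Inert P g → y g = 0)
    {P P' : Id} {g g' : GK j} (a : FrI j w P g) (b : FrI j w P' g') : y g = y g' :=
  congrArg Multiplicative.toAdd (H565.fre_unique j (th hy) w
    (fun R r1 r2 i hi => congrArg Multiplicative.ofAdd (h R r1 r2 i i.2 hi)) P P' g g' a b)

/-- denominators which are congruent to one -/
theorem den {m : 𝓞 L} (m0 : m ≠ 0) {x : L} (h : ∀ w : PL L, m ∈ w.asIdeal → w.valuation L x ≤ 1) :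
    ∃ d n : 𝓞 L, d ≠ 0 ∧ m ∣ d - 1 ∧ x * d = n := by
  let D : Ideal (𝓞 L) := (1 : Submodule (𝓞 L) L).comap (LinearMap.toSpanSingleton (𝓞 L) L x)
  have hD : ∀ d, d ∈ D ↔ ∃ n : 𝓞 L, x * algebraMap (𝓞 L) L d = algebraMap (𝓞 L) L n := by
    intro d
    simp only [D, Submodule.mem_comap, LinearMap.toSpanSingleton_apply, Submodule.mem_one,
      Algebra.smul_def, mul_comm x, eq_comm]
  have top : D ⊔ Ideal.span {m} = ⊤ := by
    by_contra c
    obtain ⟨J, hJ, le⟩ := Ideal.exists_le_maximal _ c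
    have mJ : m ∈ J := le (Ideal.mem_sup_right (Ideal.mem_span_singleton_self m))
    let w : PL L := ⟨J, hJ.isPrime, fun e => m0 (by rwa [e, Ideal.mem_bot] at mJ)⟩
    obtain ⟨n, d, hn⟩ := w.exists_primeCompl_mul_eq_of_integer x (h w mJ)
    exact d.2 (le (Ideal.mem_sup_left ((hD d).2 ⟨n, hn⟩)))
  obtain ⟨d, hd, c, hc, e⟩ := Submodule.mem_sup.1 ((Ideal.eq_top_iff_one _).1 top)
  have k : m ∣ d - 1 := by
    rw [← e, sub_add_cancel_left, dvd_neg]
    exact Ideal.mem_span_singleton.1 hc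
  by_cases d0 : d = 0
  · obtain ⟨n, d', hd', e'⟩ := IsFractionRing.div_surjective (A := 𝓞 L) x
    have d1 := nonZeroDivisors.ne_zero hd'
    rw [d0, zero_sub, dvd_neg] at k
    refine ⟨d', n, d1, k.trans (one_dvd _), ?_⟩
    rw [← e']
    exact div_mul_cancel₀ _ (by simpa using d1)
  · obtain ⟨n, hn⟩ := (hD d).1 hd
    exact ⟨d, n, d0, k, hn⟩

/-- **reciprocity** for a character of order `p` -/
theorem core (M : Mu p L) {y : GQ → ZMod p} (hy : Ch (GK j) y) {P : PL L → Id} {fr : PL L → GK j}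
    (hfr : ∀ w, FrI j w (P w) (fr w)) : ∃ m : ℕ, m ≠ 0 ∧
    (∀ l : ℕ, l.Prime → l ∣ m → ∃ R, Ov l R ∧ ∃ i ∈ GK j, Inert R i ∧ y i ≠ 0) ∧
    ∀ x : L, x ≠ 0 → (∀ w : PL L, (m : 𝓞 L) ∈ w.asIdeal →
      w.valuation L (x - 1) ≤ w.valuation L m) → sm (fun w => y (fr w)) x = 0 := by
  obtain ⟨m, m0, m1, m2, m3⟩ := H651.FCH REC L j p (Fact.out : p.Prime).pos (th hy)
    (hy.1.isOpen_fiber 0)
  refine ⟨m, m0, fun l a b => ?_, fun x x0 hx => ?_⟩
  · obtain ⟨R, r1, r2, i, r3, r4⟩ := m1 l a b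
    exact ⟨R, ⟨a, r1, r2⟩, i, i.2, r3, r4⟩
  haveI := P011.ArP.no_real M
  have key : ∀ α : 𝓞 L, α ≠ 0 → (m : 𝓞 L) ∣ α - 1 → sm (fun w => y (fr w)) (α : L) = 0 :=
    fun α a b => by
      have := m3 (fun w => y (fr w)) (fun w R g hm hg => fr_eq hy (fun R r1 r2 i i1 i2 =>
        congrArg Multiplicative.toAdd (m2 R r1 (by
          rintro rfl
          exact P022D.Sel.LawP.below_ne r2) (fun k => hm ((nat_mem j r2 m).2 k)) ⟨i, i1⟩ i2))
        hg (hfr w)) (fun _ => 0) (fun φ => isEmptyElim φ) α a b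
      simpa only [sm, finsum_zero, add_zero, zsmul_eq_mul] using this
  have m0' : (m : 𝓞 L) ≠ 0 := Nat.cast_ne_zero.2 m0
  have ml : ∀ w : PL L, w.valuation L m ≤ 1 := fun w => P011.ArP.val_nat_le _ m
  obtain ⟨d, n, d0, hd, e⟩ := den m0' (x := x) fun w hw => by
    rw [← sub_add_cancel x 1]
    exact Valuation.map_add_le _ ((hx w hw).trans (ml w)) (by rw [map_one])
  have d1 : (d : L) ≠ 0 := by simpa using d0
  have n0 : n ≠ 0 := fun k => mul_ne_zero x0 d1 (by rw [e, k]; rfl)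
  have hn : (m : 𝓞 L) ∣ n - 1 := by
    have mL : (m : L) ≠ 0 := Nat.cast_ne_zero.2 m0
    obtain ⟨c, hc⟩ := hd
    obtain ⟨t, ht⟩ := HeightOneSpectrum.mem_integers_of_valuation_le_one (R := 𝓞 L) L
      (((n : L) - 1) / m) fun w => by
        rw [map_div₀, div_le_one₀ (zero_lt_iff.2 ((Valuation.ne_zero_iff _).2 mL))]
        by_cases hw : (m : 𝓞 L) ∈ w.asIdeal
        · have e1 : (n : L) - 1 = (x - 1) * d + m * c := by
            have := congrArg (algebraMap (𝓞 L) L) hc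
            rw [map_sub, map_mul, map_one, map_natCast] at this
            rw [← e]
            exact (by ring : _ = _ + ((d : L) - 1)).trans (congrArg _ this)
          rw [e1]
          refine Valuation.map_add_le _ ?_ ?_
          · rw [map_mul]
            exact (mul_le_of_le_one_right' (w.valuation_le_one d)).trans (hx w hw)
          · rw [map_mul]
            exact mul_le_of_le_one_right' (w.valuation_le_one c)
        · have := (HeightOneSpectrum.valuation_eq_one_iff_notMem (K := L) w).2 hw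
          rw [map_natCast] at this
          rw [this]
          exact Valuation.map_sub_le _ (w.valuation_le_one n) (by rw [map_one])
    refine ⟨t, RingOfIntegers.ext ?_⟩
    show algebraMap (𝓞 L) L (n - 1) = algebraMap (𝓞 L) L (m * t)
    rw [map_mul, ht, map_natCast, mul_div_cancel₀ _ mL, map_sub, map_one]
  have := sm_mul (fun w => y (fr w)) x0 d1
  rwa [e, key n n0 hn, key d d0 hd, add_zero, eq_comm] at this

section

variable {v : Valuation L P011.Arith.Z0} {γ : P011.Arith.Z0}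

omit [NumberField L]

theorem cl_one (hγ : γ ≤ 1) {x : L} (h : v (x - 1) < γ) : v x = 1 := by
  have := v.map_one_add_of_lt (h.trans_le hγ)
  rwa [add_sub_cancel] at this

theorem cl_mul (hγ : γ ≤ 1) {x y : L} (h : v (x - 1) < γ) (h' : v (y - 1) < γ) :
    v (x * y - 1) < γ := by
  rw [show x * y - 1 = x * (y - 1) + (x - 1) by ring]
  exact v.map_add_lt (by rwa [map_mul, cl_one hγ h, one_mul]) h

theorem cl_pow (hγ : γ ≤ 1) (h0 : γ ≠ 0) {x : L} (h : v (x - 1) < γ) (n : ℕ) :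
    v (x ^ n - 1) < γ := by
  induction n with
  | zero => simpa using zero_lt_iff.2 h0
  | succ n ih => rw [pow_succ]; exact cl_mul hγ ih h

end

/-- local powers are global powers up to elements close to one -/
theorem approx (M : Mu p L) (S : Finset (PL L)) {b : Lˣ} (hb : ∀ w ∈ S, b ∈ LS M (w.valuation L))
    (γ : PL L → P011.Arith.Z0) (h0 : ∀ w, γ w ≠ 0) (h1 : ∀ w, γ w ≤ 1) :
    ∃ z : L, z ≠ 0 ∧ ∀ w ∈ S, w.valuation L (b * z ^ p - 1) < γ w := by
  rcases S.eq_empty_or_nonempty with rfl | ⟨w₀, hw₀⟩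
  · exact ⟨1, one_ne_zero, by simp⟩
  have k : ∀ w, ∃ y : Lˣ, w ∈ S → w.valuation L ((b : L) / (y : L) ^ p - 1) < γ w := fun w => by
    by_cases hw : w ∈ S
    · exact (P011.ArP.LS_newton' (hb w hw) (h0 w)).imp fun _ h _ => h
    · exact ⟨1, fun h => absurd h hw⟩
  choose y hy using k
  have y0 : ∀ w : PL L, w.valuation L (y w : L) ≠ 0 := fun w =>
    (Valuation.ne_zero_iff _).2 (y w).ne_zero
  obtain ⟨z, hz, -⟩ := P011.Arith.approxVal S (fun w => (y w : L)⁻¹)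
    (fun w => γ w / w.valuation L (y w : L)) (fun w _ => div_ne_zero (h0 w) (y0 w)) (fun _ => 0)
    one_pos
  have hz' : ∀ w ∈ S, w.valuation L (z * y w - 1) < γ w := fun w hw => by
    have := hz w hw
    rwa [lt_div_iff₀ (zero_lt_iff.2 (y0 w)), ← map_mul, sub_mul,
      inv_mul_cancel₀ (y w).ne_zero] at this
  refine ⟨z, fun e => ?_, fun w hw => ?_⟩
  · have := cl_one (h1 w₀) (hz' w₀ hw₀)
    rw [e, zero_mul, map_zero] at this
    exact zero_ne_one this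
  · have := cl_mul (h1 w) (hy w hw) (cl_pow (h1 w) (h0 w) (hz' w hw) p)
    rwa [mul_pow, mul_comm (z ^ p), ← mul_assoc,
      div_mul_cancel₀ _ (pow_ne_zero _ (y w).ne_zero)] at this

/-- a character which kills inertia and a Frobenius element kills the decomposition group -/
theorem dec_zero {y : GQ → ZMod p} (hy : Ch (GK j) y) {l : ℕ} {P : Id} {w : PL L} (hP : Ov l P)
    {φ : GK j} (hφ : FrI j w P φ) (h0 : y φ = 0) (hi : ∀ i ∈ GK j, Inert P i → y i = 0) {g : GQ}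
    (hg : g ∈ GK j ⊓ dec P) : y g = 0 := by
  have ha : ∀ g ∈ GK j, ∀ h ∈ GK j, y (g * h) = y g + y h := fun g a h b => hy.2 ⟨g, a⟩ ⟨h, b⟩
  obtain ⟨n, _, k, e⟩ := (Pl.fri j hP hφ.2.1 hφ).2 ((th hy).ker.map (GK j).subtype)
    ((isOpen_GK j).isOpenMap_subtype_val _ (hy.1.isOpen_fiber 0))
    (fun i a b => ⟨⟨i, a⟩, congrArg Multiplicative.ofAdd (hi i a b), rfl⟩) g hg
  have k' : y _ = 0 := congrArg Multiplicative.toAdd k
  have e' : (_ : GQ) = _ := e
  simp only [Subgroup.coe_subtype] at e'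
  have pw := (GK j).pow_mem φ.2 n
  rwa [e', ha _ ((GK j).inv_mem pw) _ hg.1, Kum.ch_inv ha pw, Kum.ch_pow ha φ.2, h0, mul_zero,
    neg_zero, zero_add] at k'

/-- an unramified character which kills the Frobenius elements above a big set is trivial -/
theorem van (M : Mu p L) {T : Finset ℕ} (hB : P022D.Sel.Big L T) {y : GQ → ZMod p}
    (hy : Ch (GK j) y) (un : ∀ l P, Ov l P → ∀ i ∈ GK j, Inert P i → y i = 0)
    (hT : ∀ w ∈ P022D.Sel.ov L T, ∀ P g, FrI j w P g → y g = 0) : ∀ g ∈ GK j, y g = 0 := by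
  choose P fr hfr using H565.fre_exists j
  obtain ⟨m, m0, m1, m3⟩ := core M hy hfr
  obtain rfl : m = 1 := Nat.eq_one_iff_not_exists_prime_dvd.2 fun l a b => by
    obtain ⟨R, r1, i, r2, r3, r4⟩ := m1 l a b
    exact r4 (un l R r1 i r2 r3)
  have z : ∀ w, y (fr w) = 0 := fun w => by
    by_cases hw : w ∈ P022D.Sel.ov L T
    · exact hT w hw _ _ (hfr w)
    obtain ⟨π, π0, p1, p2⟩ := hB w hw
    have := m3 π π0 fun v hv => absurd ((Ideal.eq_top_iff_one _).2 (by simpa using hv))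
      v.isPrime.ne_top
    rwa [sm, finsum_eq_single _ w fun v hv => ?_, p1, Int.cast_one, one_mul] at this
    by_cases k : v ∈ P022D.Sel.ov L T
    · rw [hT v k _ _ (hfr v), mul_zero]
    · rw [p2 v k hv, Int.cast_zero, zero_mul]
  intro g hg
  by_contra c
  obtain ⟨l, _, hl, -, ⟨R, r1, r2, r3⟩, φ, h0, rfl⟩ := P022K.Cheb.exists_fr
    ((isOpen_GK j).isOpenMap_subtype_val _ (hy.1 {0}ᶜ)) ⟨⟨g, hg⟩, c, rfl⟩ ∅
  obtain ⟨w, hw, -⟩ := ex_below j hl.ne_zero r1 r2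
  obtain ⟨ψ, hψ⟩ := Pl.ex_fri j ⟨hl, r1, r2⟩ hw
  refine h0 (dec_zero hy ⟨hl, r1, r2⟩ hψ ((fr_eq hy (fun R' a b => ?_) hψ (hfr w)).trans (z w))
    (un l R ⟨hl, r1, r2⟩) ⟨φ.2, Pl.fr_dec r1 hl.ne_zero r3⟩)
  exact un l R' ⟨hl, a, (nat_mem j b l).1 ((nat_mem j hw l).2 r2)⟩

variable {G : Type} [Group G] [TopologicalSpace G] [IsTopologicalGroup G] {ι : G →* GQ}
  {U : Subgroup G} {I I' : Set G}

/-- transport of a character to the Galois group -/
theorem gl_ch (hι : Topology.IsOpenEmbedding ι) (hj : ∀ g, ι g ∈ GK j ↔ g ∈ U)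
    (hs : ∀ h ∈ GK j, ∃ g, ι g = h) {f : G → ZMod p} (hf : f ∈ Gl p I U) :
    ∃ y : GQ → ZMod p, Ch (GK j) y ∧ ∀ g, y (ι g) = f g := by
  obtain ⟨f1, f2, W, hW, f3⟩ := hf
  let f' : GQ → ZMod p := fun h => f (Function.invFun ι h)
  have e' : ∀ g, f' (ι g) = f g := fun g => congrArg f (Function.leftInverse_invFun hι.injective g)
  refine ⟨f', ch_open (V := W.map ι) (fun h hh h' hh' => ?_) (hι.isOpenMap _ hW.opn) ?_, e'⟩
  · obtain ⟨g, rfl⟩ := hs h hh
    obtain ⟨g', rfl⟩ := hs h' hh'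
    rw [← map_mul, e', e', e', f1 g ((hj g).1 hh) g' ((hj g').1 hh')]
  · rintro _ ⟨w, hw, rfl⟩ -
    rw [e', f3 w hw]

/-- a character which vanishes on a larger set of inertia elements -/
theorem gl_of [CompactSpace G] (ho : IsOpen (U : Set G)) (hc : ∀ g, ∀ i ∈ I', g * i * g⁻¹ ∈ I')
    {f : G → ZMod p} (hf : f ∈ Gl p I U) (h : ∀ i ∈ I', i ∈ U ∧ f i = 0) : f ∈ Gl p I' U := by
  obtain ⟨f1, f2, W, hW, f3⟩ := hf
  have f0 : f 1 = 0 := f3 1 W.one_mem
  let N : Subgroup G :=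
    { carrier := {g | g ∈ U ∧ f g = 0}
      mul_mem' := fun {a b} x y => ⟨U.mul_mem x.1 y.1, by rw [f1 a x.1 b y.1, x.2, y.2, add_zero]⟩
      one_mem' := ⟨U.one_mem, f0⟩
      inv_mem' := fun {a} x => ⟨U.inv_mem x.1, by
        have := f1 a x.1 _ (U.inv_mem x.1)
        rwa [mul_inv_cancel, f0, x.2, zero_add, eq_comm] at this⟩ }
  exact ⟨f1, f2, _, ad_core (W := N) hc (Subgroup.isOpen_mono (H₁ := U ⊓ W)
    (fun g hg => ⟨hg.1, f3 g hg.2⟩) (ho.inter hW.opn)) h,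
    fun w hw => (N.normalCore_le hw).2⟩

theorem gl_un (hs : ∀ h ∈ GK j, ∃ g, ι g = h) {T : Finset ℕ} {f : G → ZMod p}
    (hf : f ∈ Gl p (In ι (ov T)) U) {y : GQ → ZMod p} (e : ∀ g, y (ι g) = f g) :
    ∀ l ∉ T, ∀ P : Id, Ov l P → ∀ i ∈ GK j, Inert P i → y i = 0 := fun l hl P hP i a b => by
  obtain ⟨i, rfl⟩ := hs i a
  obtain ⟨-, -, W, hW, f3⟩ := hf
  rw [e]
  exact f3 i (hW.inc i ⟨l, P, hP, fun ⟨l', c, d⟩ => hl (Pl.ov_uniq hP d ▸ c), b⟩)

theorem un_pl {T : Finset ℕ} {y : GQ → ZMod p}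
    (h : ∀ l ∉ T, ∀ P : Id, Ov l P → ∀ i ∈ GK j, Inert P i → y i = 0) {w : PL L}
    (hw : w ∉ P022D.Sel.ov L T) :
    ∀ P : Id, P.IsPrime → below j P = w.asIdeal → ∀ g ∈ GK j, Inert P g → y g = 0 :=
  fun P a b => by
    obtain ⟨l, l1, l2⟩ := prime_mem w
    exact h l (fun k => hw ⟨l, k, l1.ne_zero, l2⟩) P ⟨l1, a, (nat_mem j b l).1 l2⟩

end Rcp

open Rcp

theorem rec0 : REC0 := by
  intro p _ L _ _ M j T b u y a hp hy hu hT ha
  choose P fr hfr using H565.fre_exists j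
  obtain ⟨m, m0, m1, m3⟩ := core M (Kum.ch hy) hfr
  have mL : (m : L) ≠ 0 := Nat.cast_ne_zero.2 m0
  have fo := P022D.Sel.LawP.fin_ov (L := L) T
  have ml : ∀ w : PL L, w.valuation L m ≤ 1 := fun w => P011.ArP.val_nat_le _ m
  obtain ⟨z, z0, hz⟩ := approx M fo.toFinset (fun w hw => (hT w (fo.mem_toFinset.1 hw)).2)
    (fun w => w.valuation L m) (fun w => (Valuation.ne_zero_iff _).2 mL) ml
  have x0 := mul_ne_zero b.ne_zero (pow_ne_zero p z0)
  have key := m3 _ x0 fun w hw => (hz w (fo.mem_toFinset.2 (by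
    obtain ⟨l, l1, l2, l3⟩ := H477.GC.exists_prime_mem w.isPrime m m0 hw
    obtain ⟨R, r1, i, r2, r3, r4⟩ := m1 l l1 l2
    by_contra c
    exact r4 (hu l (fun k => c ⟨l, k, l1.ne_zero, l3⟩) R r1 i r2 r3)))).le
  refine (sm_pw a b.ne_zero z0).symm.trans (Eq.trans (finsum_congr fun w => ?_) key)
  by_cases hw : w ∈ P022D.Sel.ov L T
  · rw [ordv, cl_one (ml w) (hz w (fo.mem_toFinset.2 hw))]
    simp
  · rw [← ha w hw _ _ (hfr w)]

theorem sha1 : SHA1 := by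
  intro G _ _ _ _ ι p _ ω T Q hQ U h
  obtain ⟨L, _, _, M, j, r, dn, hj, hB, -⟩ := fld G ι p ω T Q hQ U h
  have hj' : ∀ g, ι g ∈ GK j ↔ g ∈ U := fun g => by
    rw [hj]; exact Subgroup.mem_map_iff_mem h.emb.injective
  have hs : ∀ x ∈ GK j, ∃ g, ι g = x := fun x hx => by
    rw [hj] at hx
    exact hx.imp fun g hg => hg.2
  refine eq_bot_iff.2 fun f hf => ?_
  obtain ⟨y, hy, e⟩ := gl_ch h.emb hj' hs hf.1
  have d : ∀ l ∈ T, ∀ P, Ov l P → ∀ g ∈ GK j, g ∈ dec P → y g = 0 := fun l hl P hP g a b => by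
    obtain ⟨g, rfl⟩ := hs g a
    rw [e]
    exact hf.2 ⟨P, l, hl, hP⟩ g (Subtype.ext ((Pl.dec_iff _ _).1 b))
  have := van M hB hy (fun l P hP i a b => by
    by_cases hl : l ∈ T
    · exact d l hl P hP i a (Pl.inert_dec b)
    · exact gl_un hs hf.1 e l hl P hP i a b) (by
    rintro w ⟨l, l1, -, l2⟩ P g hg
    have o : Ov l P := ⟨h.pr l l1, hg.1, (nat_mem j hg.2.1 l).1 l2⟩
    exact d l l1 P o g g.2 (Pl.fri j o hg.2.1 hg).1.2)
  funext g
  by_cases hg : g ∈ U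
  · exact (e g).symm.trans (this _ ((hj' g).2 hg))
  · exact hf.1.2.1 g hg

theorem tam (hK : KUM3) : TAM := by
  classical
  intro G _ _ _ _ ι p _ ω T Q hQ U h
  obtain ⟨L, _, _, M, j, r, dn, hj, hB, hr, hz, h1, h2, h3, h4, h5, -⟩ := fld G ι p ω T Q hQ U h
  obtain ⟨o1, o2, o3, o4⟩ := okl G ι p ω T Q hQ U h
  haveI := h.nor
  have hj' : ∀ g, ι g ∈ GK j ↔ g ∈ U := fun g => by
    rw [hj]; exact Subgroup.mem_map_iff_mem h.emb.injective
  have hs : ∀ x ∈ GK j, ∃ g, ι g = x := fun x hx => by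
    rw [hj] at hx
    exact hx.imp fun g hg => hg.2
  have hp : ∀ P, Ov p P → P ∈ ov T ∪ Q := fun P k => Or.inl ⟨p, h.pT, k⟩
  have hT : P022D.Sel.ov L T ⊆ SA dn (ov T ∪ Q) := fun w hw => by
    obtain ⟨l, P, k, rfl⟩ := h2 w
    exact ⟨l, P, k, Or.inl ⟨l, (h5 _ _ k).1 hw, k⟩, rfl⟩
  have m2 := fun f => ka_onto (M := M) (f := f) kum2 h.emb hj' hs h1 h2 hp hB hT
  choose l hl hO using fun x : Q => h.qp x x.2
  let w : Q → PL L := fun x => dn _ _ (hO x)
  have wT : ∀ x, w x ∉ P022D.Sel.ov L T := fun x k => hl x ((h5 _ _ _).1 k)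
  have wg : ∀ g x, w (pm ι hQ g x) = P022D.Sel.mv (r g).toRingEquiv (w x) := fun g x =>
    ((h3 _ _ _ _ _ _).2 ⟨1, U.one_mem, by rw [map_one, one_smul]; rfl⟩).trans (h4 _ _ (hO x) g)
  choose τ' t1 t2 t3 using fun x : Q =>
    kum2 p L M j (l x) x (w x) (hO x) (fun e => hl x (e ▸ h.pT)) (h1 _ _ _)
  choose τ hτ using fun x => hs _ (t1 x)
  choose φ' hφ' using fun x : Q => Pl.ex_fri j (hO x) (h1 _ _ (hO x))
  choose φ hφ using fun x => hs _ (φ' x).2
  have τU : ∀ x, τ x ∈ U := fun x => (hj' _).1 (hτ x ▸ t1 x)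
  have kt : ∀ b x, ka U ι M hj' b (τ x) = od (w x) b := fun b x => by
    obtain ⟨f, hf⟩ := Kum.ex M j (Additive.toMul b)
    rw [ka_pos hj' hf (τU x), hτ]
    exact (t3 x _ f hf).1
  refine ⟨τ, φ, fun f hf => ⟨fun g x => ?_, fun h0 => ?_⟩, fun y hy => ?_,
    fun f hf y hy R r1 r2 => ?_⟩
  · obtain ⟨b, -, rfl⟩ := m2 f hf
    obtain ⟨b', rfl⟩ : ∃ b', aL r g b' = b := ⟨aL r g⁻¹ b, by
      show (aL r g * aL r g⁻¹) b = b
      rw [← map_mul, mul_inv_cancel, map_one]; rfl⟩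
    rw [kt, wg, od_aL, ka_aL hj' hr hz, Cal.fa_ap, cj_apply, ← kt]
    congr 2
    group
  · refine gl_of h.opn o2.cj hf fun i hi => ⟨o3.inc i hi, ?_⟩
    obtain ⟨l', P, a, b, c⟩ := id hi
    by_cases hP : P ∈ Q
    · obtain ⟨b', -, rfl⟩ := m2 f hf
      obtain ⟨f', hf'⟩ := Kum.ex M j (Additive.toMul b')
      rw [ka_pos hj' hf' (o3.inc i hi)]
      refine (t3 ⟨P, hP⟩ _ f' hf').2 ?_ _ ((hj' i).2 (o3.inc i hi)) c
      rw [← hτ, ← ka_pos hj' hf' (τU _), h0]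
    · obtain ⟨-, -, W, hW, f3⟩ := hf
      exact f3 i (hW.inc i ⟨l', P, a, fun k => k.elim b hP, c⟩)
  · obtain ⟨y', hy', e⟩ := gl_ch h.emb hj' hs hy
    have un := gl_un hs hy e
    refine ⟨fun g x => ?_, fun h0 => ⟨hy, fun x g hg => ?_⟩, fun k x => ?_⟩
    · have := fr_eq hy' (un_pl un (wT (pm ι hQ g x)))
        (wg g x ▸ P022D.Sel.ArtA.fr_mv (τ := (r g).toRingEquiv) (hr g) (hφ' x)) (hφ' _)
      rw [← e, ← e, hφ, ← this, map_mul, map_mul, map_inv, hφ]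
    · by_cases hU : g ∈ U
      · rw [← e]
        exact dec_zero hy' (hO x) (hφ' x) (by rw [← hφ, e, h0]) (un _ (hl x) _ (hO x))
          ⟨(hj' g).2 hU, (Pl.dec_iff _ _).2 (congrArg Subtype.val hg)⟩
      · exact hy.2.1 g hU
    · refine k.2 x _ (Subtype.ext ((Pl.dec_iff _ _).1 ?_))
      rw [hφ]
      exact (Pl.fri j (hO x) (h1 _ _ _) (hφ' x)).1.2
  · obtain ⟨b, hb, rfl⟩ := m2 f hf.1
    obtain ⟨f', hf'⟩ := Kum.ex M j (Additive.toMul b)
    obtain ⟨y', hy', e⟩ := gl_ch h.emb hj' hs hy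
    have un := gl_un hs hy e
    obtain ⟨u, hu⟩ := Kum.onto M j hy'
    choose P fr hfr using H565.fre_exists j
    have key := rec0 p L M j T (Additive.toMul b) u y'
      (fun v => if v ∈ P022D.Sel.ov L T then 0 else y' (fr v)) h.pT hu un
      (fun v hv => ⟨if_pos hv, by
        obtain ⟨l', P', k, rfl⟩ := h2 v
        refine (hK p L M j l' P' _ k (h1 _ _ _) _ f' hf').1 fun g hg => ?_
        obtain ⟨g, rfl⟩ := hs g hg.1
        rw [← ka_pos hj' hf' ((hj' g).1 hg.1)]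
        exact hf.2 ⟨P', l', (h5 _ _ k).1 hv, k⟩ g (Subtype.ext ((Pl.dec_iff _ _).1 hg.2))⟩)
      fun v hv P' g hg => (fr_eq hy' (un_pl un hv) hg (hfr v)).trans (if_neg hv).symm
    rw [finsum_eq_sum_of_support_subset (s := R.image w) _ fun v hv => ?_,
      Finset.sum_image fun a ha b hb k => ?_] at key
    · refine Eq.trans (Finset.sum_congr rfl fun x _ => ?_) key
      rw [kt, if_neg (wT x), ← e, hφ, fr_eq hy' (un_pl un (wT x)) (hφ' x) (hfr _)]
      rfl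
    · obtain ⟨u, hu, k⟩ := (h3 _ _ _ _ _ _).1 k
      exact r2 a ha b hb u hu (Subtype.ext k)
    · by_contra c
      apply hv
      by_cases k : v ∈ SA dn (ov T ∪ Q)
      · obtain ⟨l', P', a, k | k, rfl⟩ := k
        · obtain ⟨l'', k1, k2⟩ := k
          rw [if_pos ((h5 _ _ a).2 (Pl.ov_uniq k2 a ▸ k1)), mul_zero]
        · obtain ⟨x, hx, u, hu, k'⟩ := r1 ⟨P', k⟩
          exact absurd (Finset.mem_coe.2 (Finset.mem_image.2 ⟨x, hx, (h3 _ _ _ _ _ _).2
            ⟨u, hu, congrArg Subtype.val k'⟩⟩)) c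
      · have : ordv v (Additive.toMul b : Lˣ) = 0 := hb v k
        rw [this, Int.cast_zero, zero_mul]

end Vale.Agent.P022K.GW
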