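import Vale.Agent.P022K.GW.Kill

/-!
# P022K, block GW: the two outputs from the rows
-/

set_option linter.all false

noncomputable section

namespace Vale.Agent.P022K.GW

open NumberField Module
open scoped Pointwise
open Vale.Agent.P022 Vale.Agent.P022.C Vale.Agent.P022.H853
open Vale.Agent.P027M.S (Inert)
open Vale.Agent.P022D.W (dec)
open Vale.Agent.P022E.GW (Ov Fb)

section

variable {G k V Y : Type} [Group G] [Field k] [AddCommGroup V] [Module k V]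

theorem Pr.res {π : G →* Equiv.Perm Y} {σ : Representation k G V} (h : Pr π σ) (B : Subgroup G) :
    Pr (π.comp B.subtype) (σ.comp B.subtype) := fun y => by
  refine cast_ne (Subgroup.card_dvd_of_le ?_) (h y)
  rintro _ ⟨g, hg, rfl⟩
  exact ⟨g, hg, Units.ext rfl⟩

theorem pr_cyc {π : G →* Equiv.Perm Y} {σ : Representation k G V}
    (h : ∀ y, ∃ (φ : G) (m : ℕ), (m : k) ≠ 0 ∧ σ (φ ^ m) = 1 ∧
      ∀ d, π d y = y → ∃ n : ℕ, σ d = σ (φ ^ n)) : Pr π σ := fun y => by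
  obtain ⟨φ, m, h1, h2, h3⟩ := h y
  refine cast_ne ((Subgroup.card_dvd_of_le
    (K := Subgroup.zpowers (σ.asGroupHom φ)) ?_).trans ?_) h1
  · rintro _ ⟨d, hd, rfl⟩
    obtain ⟨n, e⟩ := h3 d hd
    refine ⟨n, ?_⟩
    show _ ^ (n : ℤ) = _
    rw [zpow_natCast, ← map_pow]
    exact Units.ext e.symm
  · rw [Nat.card_zpowers]
    exact orderOf_dvd_of_pow_eq_one (by rw [← map_pow]; exact Units.ext h2)

theorem sep0 (p : ℕ) [Fact p.Prime] [Module (ZMod p) V] {v : V}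
    (h : ∀ l : V →+ ZMod p, l v = 0) : v = 0 :=
  (Module.forall_dual_apply_eq_zero_iff (ZMod p) v).1 fun l => h l.toAddMonoidHom

theorem rk_pi {r : ℕ} [Module.Finite k V] (K : Fin r → Submodule k V)
    (h : ∀ i, finrank k (K i) ≤ 1) : finrank k (∀ i, K i) ≤ r := by
  rw [finrank_pi_fintype]
  refine (Finset.sum_le_sum fun i _ => h i).trans ?_
  simp

theorem sep_add (p : ℕ) [Fact p.Prime] [CharP k p] {v : V} (h : ∀ l : V →+ ZMod p, l v = 0) :
    v = 0 := by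
  have hx : ∀ x : V, p • x = 0 := fun x => by
    rw [← Nat.cast_smul_eq_nsmul k, CharP.cast_eq_zero, zero_smul]
  exact @sep0 V _ p _ (AddCommGroup.zmodModule hx) v h

theorem pick {α : Type} (lab : α → ℕ) (r : ℕ) : ∀ (c : Fin r → α → Prop),
    (∀ i (S : Finset ℕ), ∃ a, lab a ∉ S ∧ c i a) →
    ∃ a : Fin r → α, (Function.Injective fun i => lab (a i)) ∧ ∀ i, c i (a i) := by
  induction r with
  | zero => exact fun _ _ => ⟨Fin.elim0, fun i => i.elim0, fun i => i.elim0⟩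
  | succ r ih =>
    intro c h
    obtain ⟨a, h1, h2⟩ := ih (fun i => c i.succ) fun i => h _
    obtain ⟨b, h3, h4⟩ := h 0 (Finset.univ.image fun i => lab (a i))
    refine ⟨Fin.cons b a, ?_, fun i => Fin.cases h4 h2 i⟩
    have : (fun i => lab (Fin.cons (α := fun _ => α) b a i)) =
        Fin.cons (lab b) fun i => lab (a i) := funext fun i => Fin.cases rfl (fun _ => rfl) i
    rw [this, Fin.cons_injective_iff]
    exact ⟨by simpa using h3, h1⟩

variable [TopologicalSpace G] [IsTopologicalGroup G]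

theorem fin_gl (p : ℕ) [Fact p.Prime] [CharP k p] [Finite V] {I : Set G} {U : Subgroup G}
    (h : Finite (Gl p I U)) : Set.Finite {y : G → V | (∀ g ∈ U, ∀ h ∈ U, y (g * h) = y g + y h) ∧
      (∀ g ∉ U, y g = 0) ∧ ∃ W, Ad I W ∧ ∀ w ∈ W, y w = 0} := by
  have : Finite (V →+ ZMod p) := DFunLike.finite _
  refine Finite.of_injective (fun y (l : V →+ ZMod p) => (⟨fun g => l (y.1 g),
    fun g hg h hh => by simp only [y.2.1 g hg h hh, map_add],
    fun g hg => by simp only [y.2.2.1 g hg, map_zero],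
    y.2.2.2.imp fun W h => ⟨h.1, fun w hw => by simp only [h.2 w hw, map_zero]⟩⟩ : Gl p I U))
    fun y y' e => Subtype.ext (funext fun g => ?_)
  rw [← sub_eq_zero]
  refine sep_add (k := k) p fun l => ?_
  rw [map_sub, sub_eq_zero]
  exact congrFun (congrArg Subtype.val (congrFun e l)) g

end

section

variable {G k : Type} [Group G] [Field k]

theorem ad0_one {ρ : G →* GL (Fin 2) k} {g : G} (h : ρ g = 1) : ad0 ρ g = 1 :=
  LinearMap.ext fun m => Subtype.ext (by rw [ad0_coe, map_inv, h]; simp)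

theorem two_ne {p : ℕ} [Fact p.Prime] [CharP k p] (h : p ≠ 2) : (2 : k) ≠ 0 := fun e =>
  h ((Nat.prime_dvd_prime_iff_eq Fact.out Nat.prime_two).1 ((CharP.cast_eq_zero_iff k p 2).1 e))

theorem fo_em (ι : G →* GQ) : Fo (pm ι (em_stb ι)) := ⟨∅, fun x => x.2.elim⟩

theorem pm_res (ι : G →* GQ) {A : Set Id} (h : Stb ι A) (B : Subgroup G)
    (h' : Stb (ι.comp B.subtype) A) : pm (ι.comp B.subtype) h' = (pm ι h).comp B.subtype :=
  MonoidHom.ext fun _ => Equiv.ext fun _ => Subtype.ext rfl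

theorem pr_I (ι : G →* GQ) (hι : Function.Injective ι) (h2 : (2 : k) ≠ 0) {V : Type}
    [AddCommGroup V] [Module k V] (σ : Representation k G V) : Pr (pI ι) σ := fun v =>
  cast_ne ((Subgroup.card_map_dvd _ _).trans (sti G ι hι v)) (by exact_mod_cast h2)

end

theorem obo (h1 : EUL) (h2 : SHA2) (h3 : PRJ2) : OBO := by
  intro G k _ _ _ _ _ _ ι p _ _ ω ρ hp he hc hρ ⟨⟨H', H, B, hT, l1, l2, hn, l3, hF, l4⟩, _⟩
  have ek : (up ω : G →* kˣ).ker = ω.ker := Subgroup.ext fun _ => up_one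
  have oU : IsOpen ((ρ.ker ⊓ (up ω : G →* kˣ).ker : Subgroup G) : Set G) :=
    hρ.inter (by rw [ek]; exact om_open he hc)
  obtain ⟨T₀, t1, t2⟩ := lev G ι p ω _ H B hp he hc inferInstance oU l1 l2 hn (ek ▸ l3)
  refine ⟨T₀, t1, fun T hT₀ pT' => ?_⟩
  obtain ⟨v1, _, v2⟩ := t2 T hT₀ pT' ∅ (em_stb ι) (fun _ h => h.elim) (fo_em ι)
  obtain ⟨-, o1, o2, -⟩ := okl G ι p ω T _ _ _ v1
  obtain ⟨-, o3, o4, -⟩ := okl B _ p _ T _ _ _ v2
  have fi := Pl.fo_I _ v2.emb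
  have key : ∀ (V : Type) [AddCommGroup V] [Module k V] (σ : Representation k B V),
      Fl (Pc ((up ω).comp B.subtype) ((ρ.ker ⊓ (up ω : G →* kˣ).ker).subgroupOf B) (H.subgroupOf B)
        (((Subgroup.center _).comap ρ).subgroupOf B)) V σ → Module.Finite k V →
      Un (In (ι.comp B.subtype) (ov T)) σ → Up2 (pT (ι.comp B.subtype) T) (pI (ι.comp B.subtype))
        (In (ι.comp B.subtype) (ov T)) σ 0 := by
    intro V _ _ σ h
    induction h with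
    | one V σ h =>
      intro _ _
      obtain ⟨f1, f2, e⟩ := h3 B k V _ _ p _ _ _ _ _ σ o3 fi o4 v2.om h.hig
        (h1 B _ p _ T _ _ _ v2).2 (h2 B _ p _ T _ _ _ v2)
      have e0 : h0 (tw (up (ω.comp B.subtype))⁻¹ σ) = 0 := Submodule.finrank_eq_zero.2 h.h0'
      exact ⟨f1, f2, by omega⟩
    | ext N V M ν σ μ i q hx _ _ i1 i2 =>
      intro _ hu
      obtain ⟨a1, a2, a3⟩ := i1 (Module.Finite.of_injective i hx.inj) (hx.uns hu)
      obtain ⟨b1, b2, b3⟩ := i2 (Module.Finite.of_surjective q hx.sur) (hx.unq hu)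
      obtain ⟨c1, c2, c3⟩ := ext2 B k N V M _ Unit _ _ ν σ μ i q o3 hu hx a1 b1 a2 b2
      have e1 := ((exf B k N V M _ _ ν σ μ i q fi hx).2.2.1
        (pr_I _ v2.emb.injective (two_ne hp) σ)).2.2
      have e2 := rk_ex i q hx.inj hx.sur hx.ex
      exact ⟨c1, c2, by omega⟩
  have hu : Un (In ι (ov T)) (ad0 ρ) := ⟨_, o2, fun u h => ad0_one h.1⟩
  have := key _ _ hF inferInstance (hu.res B)
  rw [pT, pm_res ι (ov_stb ι T)] at this
  exact dsc2 h3 G k _ _ _ p _ _ _ ω _ H' B _ 0 o1 (Pl.fo_I ι he) o2 v1.om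
    (fun u h => ad0_one h.1) hT (h1 G ι p ω T _ _ _ v1).2 (h2 G ι p ω T _ _ _ v1) this

theorem two (h1 : EUL) (h2 : RECI) (h3 : PRJ1) : TWO := by
  intro G k _ _ _ _ _ _ ι p _ _ ω ρ A hA hp he hc hρ hq nA fA pA uA
  classical
  obtain ⟨H', H, B, hT, l1, l2, hn, l3, hF, l4⟩ := hq.1
  have ek : (up ω : G →* kˣ).ker = ω.ker := Subgroup.ext fun _ => up_one
  set U := ρ.ker ⊓ (up ω : G →* kˣ).ker with hU
  have oU : IsOpen (U : Set G) := hρ.inter (by rw [ek]; exact om_open he hc)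
  obtain ⟨T₀, t1, t2⟩ := lev G ι p ω _ H B hp he hc inferInstance oU l1 l2 hn (ek ▸ l3)
  obtain ⟨sA, hs⟩ := fA
  choose lA hl using pA
  let T := T₀ ∪ sA.image fun x => lA x.1 x.2
  have pT' : ∀ l ∈ T, l.Prime := fun l h => by
    rcases Finset.mem_union.1 h with h | h
    · exact t1 l h
    · obtain ⟨x, -, rfl⟩ := Finset.mem_image.1 h
      exact (hl _ _).1
  have AT : A ⊆ ov T := fun P hP => by
    obtain ⟨y, hy, g, e⟩ := hs ⟨P, hP⟩
    refine ⟨_, Finset.mem_union_right _ (Finset.mem_image_of_mem _ hy), ?_⟩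
    rw [← show ι g • y.1 = P from congrArg Subtype.val e]
    exact ov_smul (hl _ _) _
  replace t2 := t2 T Finset.subset_union_left pT'
  obtain ⟨-, _, v0⟩ := t2 ∅ (em_stb ι) (fun _ h => h.elim) (fo_em ι)
  have fG := (h2 B _ p _ T _ _ _ v0).2.1
  have fi := Pl.fo_I _ v0.emb
  have key : ∀ (V : Type) [AddCommGroup V] [Module k V] (σ : Representation k B V),
      Fl (Pc ((up ω).comp B.subtype) (U.subgroupOf B) (H.subgroupOf B)
        (((Subgroup.center _).comap ρ).subgroupOf B)) V σ → Module.Finite k V →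
      ∃ L : Set (Id → Prop), L.Finite ∧
        (∀ c ∈ L, ∀ n S, ∃ l P φ, Tw ι ρ (p ^ n) S l P φ ∧ c P) ∧
        ∀ (Q : Set Id) (hQ : Stb ι Q), (∀ P ∈ Q, ∃ l ∉ T, Ov l P) → Fo (pm ι hQ) →
          (∀ c ∈ L, ∃ P ∈ Q, c P) →
          Pr (pm (ι.comp B.subtype) fun g => hQ g.1) (tw ((up ω).comp B.subtype)⁻¹ σ) →
          Up1 (pT (ι.comp B.subtype) T) (pm (ι.comp B.subtype) fun g => hQ g.1)
            (pI (ι.comp B.subtype)) (In (ι.comp B.subtype) (ov T ∪ Q))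
            ((up ω).comp B.subtype) σ := by
    intro V _ _ σ h
    induction h with
    | one V σ h =>
      intro _
      have : Finite (Module.Dual k V) := Module.finite_of_finite k
      have f := fin_gl (k := k) (V := Module.Dual k V) p fG
      refine ⟨(fun (y : B → Module.Dual k V) (P : Id) =>
          ∃ (g : G) (d : B), ι d • ι g • P = ι g • P ∧ y d ≠ 0) ''
          {y | ((∀ g ∈ H.subgroupOf B, ∀ h ∈ H.subgroupOf B, y (g * h) = y g + y h) ∧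
            (∀ g ∉ H.subgroupOf B, y g = 0) ∧
            ∃ W, Ad (In (ι.comp B.subtype) (ov T)) W ∧ ∀ w ∈ W, y w = 0) ∧
            (∀ g u, y (g * u * g⁻¹) = tw ((up ω).comp B.subtype) σ.dual g (y u)) ∧ y ≠ 0},
        (f.subset fun _ h => h.1).image _, ?_, fun Q hQ q1 q2 q3 _ => ?_⟩
      · rintro _ ⟨y, ⟨⟨y1, y2, W, hW, y3⟩, y4, y5⟩, rfl⟩ n S
        exact (kill G k V ι p ω ρ H B σ hp he hc hρ hq l1 l2 l4 h n S).2 y y1 y2
          ⟨W, hW.emp, y3⟩ y4 y5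
      · obtain ⟨-, -, v2⟩ := t2 Q hQ q1 q2
        obtain ⟨o1, o2, o3, o4⟩ := okl B _ p _ T _ _ _ v2
        refine (h3 B k V _ _ _ p _ _ _ _ _ _ _ σ o1 o2 v2.qf fi o3 o4 v2.om h.hig).2
          (h2 B _ p _ T _ _ _ v2) fun y y1 y2 y3 y4 y5 => ?_
        by_contra y6
        obtain ⟨P, hP, g, d, e, y7⟩ := q3 _ ⟨y, ⟨⟨y1, y2, y3⟩, y4, y6⟩, rfl⟩
        exact y7 (y5 ⟨_, hQ g P hP⟩ d (Subtype.ext e))
    | ext N V M ν σ μ i q hx _ _ i1 i2 =>
      intro _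
      obtain ⟨L1, a1, a2, a3⟩ := i1 (Module.Finite.of_injective i hx.inj)
      obtain ⟨L2, b1, b2, b3⟩ := i2 (Module.Finite.of_surjective q hx.sur)
      refine ⟨L1 ∪ L2, a1.union b1, fun c h => h.elim (a2 c) (b2 c), fun Q hQ q1 q2 q3 q4 => ?_⟩
      obtain ⟨-, -, v2⟩ := t2 Q hQ q1 q2
      obtain ⟨c1, c2, -⟩ := (exf B k N V M _ _ _ _ _ i q v2.qf (hx.tw _)).2.2.1 q4
      exact ext1 B k N V M _ _ _ _ _ _ _ _ ν σ μ i q (okl B _ p _ T _ _ _ v2).1 v2.qf fi hx q4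
        (a3 Q hQ q1 q2 (fun c h => q3 c (Or.inl h)) c1)
        (b3 Q hQ q1 q2 (fun c h => q3 c (Or.inr h)) c2)
  obtain ⟨L, fL, sL, kL⟩ := key _ _ hF inferInstance
  have := fL.fintype
  refine ⟨Fintype.card L, fun r hr n S => ?_⟩
  obtain ⟨e⟩ := Function.Embedding.nonempty_of_card_le (α := L) (β := Fin r) (by simpa using hr)
  let c : Fin r → Id → Prop := Function.extend e Subtype.val fun _ _ => True
  obtain ⟨a, ia, ha⟩ := pick (fun a : ℕ × Id × G => a.1) r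
    (fun i a => Tw ι ρ (p ^ (n + 1)) (S ∪ T) a.1 a.2.1 a.2.2 ∧ c i a.2.1) fun i S' => by
      have : ∃ l P φ, Tw ι ρ (p ^ (n + 1)) (S ∪ T ∪ S') l P φ ∧ c i P := by
        by_cases h : ∃ x, e x = i
        · obtain ⟨x, rfl⟩ := h
          simp only [c, e.injective.extend_apply]
          exact sL _ x.2 _ _
        · simp only [c, Function.extend_apply' _ _ _ h, and_true]
          obtain ⟨s, -, s1, s2, -⟩ := hq.2 k 1 fun _ _ _ => rfl
          have : NeZero (p ^ (n + 1 + 1)) := ⟨pow_ne_zero _ (Fact.out : p.Prime).ne_zero⟩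
          obtain ⟨e, m, -, -, e2, e3⟩ := rg_pow hp hc (up_one.1 s1) s2 (n + 1)
          obtain ⟨l, P, w, -, h⟩ := tw_ex he e3 (ρ := ρ) (by rw [e2]; exact s2) hρ le_rfl
            (S ∪ T ∪ S')
          exact ⟨l, P, _, h.out, h.ov, h.fb, h.deg,
            (pow_dvd_pow p (n + 1).le_succ).trans h.cg, h.rg⟩
      obtain ⟨l, P, φ, h, h'⟩ := this
      exact ⟨(l, P, φ), fun k => h.out (Finset.mem_union_right _ k),
        ⟨fun k => h.out (Finset.mem_union_left _ k), h.ov, h.fb, h.deg, h.cg, h.rg⟩, h'⟩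
  let P : Fin r → Id := fun i => (a i).2.1
  let φ : Fin r → G := fun i => (a i).2.2
  have tw1 : ∀ i, Tw ι ρ (p ^ (n + 1)) (S ∪ T) (a i).1 (P i) (φ i) := fun i => (ha i).1
  have nT : ∀ i, (a i).1 ∉ T := fun i h => (tw1 i).out (Finset.mem_union_right _ h)
  have hQ := orb_stb ι P
  have mP : ∀ i, P i ∈ orb ι P := fun i => ⟨i, 1, by rw [map_one, one_smul]⟩
  have q1 : ∀ R ∈ orb ι P, ∃ l ∉ T, Ov l R := by
    rintro _ ⟨i, g, rfl⟩
    exact ⟨_, nT i, ov_smul (tw1 i).ov _⟩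
  have q2 : Fo (pm ι hQ) := Pl.fo_of (fun i => ⟨P i, mP i⟩) fun ⟨_, i, g, e⟩ =>
    ⟨i, g, Subtype.ext e⟩
  obtain ⟨v1, -, -⟩ := t2 _ hQ q1 q2
  obtain ⟨o1, o2, o3, o4⟩ := okl G ι p ω T _ _ _ v1
  have ω1 : ∀ i, ω (φ i) = 1 := fun i => by
    have pp : p.Prime := Fact.out
    have hl := (tw1 i).ov.1
    have e1 := cyc_frob hl (m := p) (fun h => nT i (by
      rw [(Nat.prime_dvd_prime_iff_eq hl pp).1 h]; exact v1.pT))
      ⟨P i, (tw1 i).ov.2.1, (tw1 i).ov.2.2, (tw1 i).fb⟩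
    apply Units.ext
    rw [cy_eq hc, e1, Units.val_one, ← Nat.cast_one, ZMod.natCast_eq_natCast_iff]
    exact ((Nat.modEq_iff_dvd' hl.one_le).2
      ((dvd_pow_self p n.succ_ne_zero).trans (tw1 i).cg)).symm
  have s1 : ∀ g, ρ g = 1 → ω g = 1 → tw (up ω : G →* kˣ)⁻¹ (ad0 ρ) g = 1 := fun g g1 g2 => by
    show ((((up ω : G →* kˣ) g)⁻¹ : kˣ) : k) • ad0 ρ g = 1
    rw [up_one.2 g2, ad0_one g1, inv_one, Units.val_one, one_smul]
  have pr : Pr (pm ι hQ) (tw (up ω : G →* kˣ)⁻¹ (ad0 ρ)) := pr_cyc (by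
    rintro ⟨_, i, g, rfl⟩
    obtain ⟨m, m1, m2⟩ := (rgo G k ρ _ (two_ne hp) (tw1 i).rg).1
    refine ⟨g * φ i * g⁻¹, m, m1, s1 _ ?_ ?_, fun d hd => ?_⟩
    · rw [conj_pow, map_mul, map_mul, map_pow, m2, mul_one, ← map_mul, mul_inv_cancel, map_one]
    · rw [conj_pow, map_mul, map_mul, map_pow, ω1, one_pow, mul_one, ← map_mul, mul_inv_cancel,
        map_one]
    · have e1 : ι (g⁻¹ * d * g) ∈ dec (P i) := by
        rw [Pl.dec_iff, map_mul, map_mul, mul_smul, mul_smul,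
          show ι d • ι g • P i = ι g • P i from congrArg Subtype.val hd, map_inv, inv_smul_smul]
      obtain ⟨j, u, hu, e2⟩ := (frb.2.1 _ _ _ (tw1 i).ov (tw1 i).fb).2 (U.map ι)
        (Pl.map_open ι he oU) (fun x _ hx => v1.unr _ (nT i) _ (tw1 i).ov x hx) _ ⟨trivial, e1⟩
      rw [← map_pow, ← map_inv, ← map_mul] at e2
      have e3 := he.injective e2
      refine ⟨j, ?_⟩
      rw [conj_pow, show d = g * (φ i ^ j * u) * g⁻¹ by rw [e3]; group]
      simp only [map_mul, s1 u hu.1 (up_one.1 hu.2), mul_one])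
  have u1 := kL _ hQ q1 q2 (fun x hx => ⟨P (e ⟨x, hx⟩), mP _, by
    have := (ha (e ⟨x, hx⟩)).2
    simp only [c, e.injective.extend_apply] at this
    exact this⟩) (by rw [pm_res ι hQ B fun g => hQ g.1]; exact pr.res B)
  rw [pT, pm_res ι (ov_stb ι T), pm_res ι hQ B fun g => hQ g.1] at u1
  obtain ⟨f1, u2⟩ := dsc1 h3 G k _ _ _ _ p _ _ _ _ ω U H' B _ o1 q2 (Pl.fo_I ι he) (o3.mono o4)
    v1.om (fun u h => ad0_one h.1) hT (h1 G ι p ω T _ _ _ v1).1 u1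
  have sAQ : Stb ι (A ∪ orb ι P) := fun g R h => h.imp (hA g R) (hQ g R)
  obtain ⟨f2, u3⟩ := enl G k _ _ _ (pT ι T) (pm ι hA) (Set.inclusion AT) _
    (In ι (A ∪ orb ι P)) (ad0 ρ) o1 ⟨nA.to_subtype, Pl.in_cj ι sAQ, sA, hs⟩
    (fun _ ⟨l, R, r1, r2, r3⟩ => ⟨l, R, r1, fun h => r2 (h.imp_left fun h => AT h), r3⟩)
    ⟨ρ.ker, ⟨inferInstance, hρ, fun _ ⟨l, R, r1, r2, r3⟩ =>
      uA _ ⟨l, R, r1, fun h => r2 (Or.inl h), r3⟩⟩, fun _ h => ad0_one h⟩
    (Set.inclusion_injective AT) (fun _ _ => rfl) (fun ⟨x, l, hl, hx⟩ nx => by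
      obtain ⟨_, ⟨⟨ψ, rfl⟩, g1⟩, g2⟩ := frb.2.2.2 ι.range l x he.isOpen_range hx
      refine ⟨ψ, Subtype.ext ((Pl.dec_iff _ _).1 g1), fun W hW g hg => ?_⟩
      obtain ⟨j, w, hw, e2⟩ := g2 (W.map ι) (Pl.map_open ι he hW.opn) (by
        rintro _ ⟨i, rfl⟩ hi
        refine ⟨i, hW.inc i ⟨l, x, hx, fun h => h.elim (fun h => nx ⟨⟨x, h⟩, rfl⟩) fun h => ?_,
          hi⟩, rfl⟩
        obtain ⟨l', n1, n2⟩ := q1 x h
        exact n1 (Pl.ov_uniq hx n2 ▸ hl)) (ι g)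
        ⟨⟨g, rfl⟩, (Pl.dec_iff _ _).2 (congrArg Subtype.val hg)⟩
      rw [← map_pow, ← map_inv, ← map_mul] at e2
      exact ⟨j, he.injective e2 ▸ hw⟩) f1
  have u4 : finrank k (Fx (pm ι hQ) (tw (up ω : G →* kˣ)⁻¹ (ad0 ρ))) ≤ r := by
    let t : Fx (pm ι hQ) (tw (up ω : G →* kˣ)⁻¹ (ad0 ρ)) →ₗ[k]
        ∀ i, LinearMap.ker (ad0 ρ (φ i) - LinearMap.id) := LinearMap.pi fun i =>
      ((LinearMap.proj (⟨P i, mP i⟩ : orb ι P)).comp (Submodule.subtype _)).codRestrict _ fun f => by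
        have e1 := f.2 (φ i) ⟨P i, mP i⟩
        rw [show pm ι hQ (φ i) ⟨P i, mP i⟩ = ⟨P i, mP i⟩ from Subtype.ext ((Pl.dec_iff _ _).1
          (Pl.fr_dec (tw1 i).ov.2.1 (tw1 i).ov.1.ne_zero (tw1 i).fb))] at e1
        replace e1 : _ = ((((up ω : G →* kˣ) (φ i))⁻¹ : kˣ) : k) • ad0 ρ (φ i) _ := e1
        rw [up_one.2 (ω1 i), inv_one, Units.val_one, one_smul] at e1
        exact sub_eq_zero.2 e1.symm
    refine (LinearMap.finrank_le_finrank_of_injective (f := t) ?_).trans ?_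
    · rw [injective_iff_map_eq_zero]
      intro f hf
      refine Subtype.ext (funext fun ⟨_, i, g, rfl⟩ => ?_)
      have e1 : f.1 ⟨P i, mP i⟩ = 0 := congrArg Subtype.val (congrFun hf i)
      have e2 := f.2 g ⟨P i, mP i⟩
      rw [e1, map_zero] at e2
      exact e2
    · exact rk_pi _ fun i => (rgo G k ρ _ (two_ne hp) (tw1 i).rg).2.1
  rw [rk_sl] at u2
  exact ⟨fun i => (a i).1, P, φ, ia, fun i => ⟨fun h => (tw1 i).out (Finset.mem_union_left _ h),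
    (tw1 i).ov, (tw1 i).fb, (tw1 i).deg, (pow_dvd_pow p n.le_succ).trans (tw1 i).cg, (tw1 i).rg⟩,
    f2, by omega⟩

end Vale.Agent.P022K.GW
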