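import Mathlib

/-!
# P022K, block GW: cohomology with framings in low degree (definitions and abstract statements)

`G` is a profinite group, `π` its action on the set of the framed places, `I` the set of the
inertia elements at the places where no ramification is allowed.
-/

set_option linter.all false

noncomputable section

namespace Vale.Agent.P022K.GW

open Module TensorProduct

/-! ### cochains -/

section

variable {G : Type} [Group G] [TopologicalSpace G] [IsTopologicalGroup G]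

/-- an open normal subgroup which contains `I` -/
structure Ad (I : Set G) (W : Subgroup G) : Prop where
  nor : W.Normal
  opn : IsOpen (W : Set G)
  inc : ∀ i ∈ I, i ∈ W

theorem Ad.inf {I : Set G} {W W' : Subgroup G} (h : Ad I W) (h' : Ad I W') : Ad I (W ⊓ W') :=
  ⟨by have := h.nor; have := h'.nor; infer_instance, h.opn.inter h'.opn,
    fun i hi => ⟨h.inc i hi, h'.inc i hi⟩⟩

theorem Ad.top (I : Set G) : Ad I ⊤ := ⟨inferInstance, isOpen_univ, fun _ _ => trivial⟩

/-- admissible one cochains -/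
def A1 (I : Set G) {V : Type} (b : G → V) : Prop := ∃ W, Ad I W ∧ ∀ w ∈ W, ∀ g, b (g * w) = b g

/-- admissible two cochains -/
def A2 (I : Set G) {V : Type} (z : G → G → V) : Prop :=
  ∃ W, Ad I W ∧ ∀ w ∈ W, ∀ g h, z (g * w) h = z g h ∧ z g (h * w) = z g h

/-- smooth functions on the places -/
def S0 {X : Type} (π : G →* Equiv.Perm X) {V : Type} (a : X → V) : Prop :=
  ∃ W, Ad (∅ : Set G) W ∧ ∀ w ∈ W, ∀ x, a (π w x) = a x

/-- smooth local one cochains -/
def S1 {X : Type} (π : G →* Equiv.Perm X) {V : Type} (e : G → X → V) : Prop :=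
  ∃ W, Ad (∅ : Set G) W ∧ ∀ w ∈ W, ∀ g x, e (g * w) x = e g x ∧ e g (π w x) = e g x

/-- the hypotheses on the places -/
structure Ok {X : Type} (π : G →* Equiv.Perm X) (I : Set G) : Prop where
  ne : Nonempty X
  cj : ∀ g, ∀ i ∈ I, g * i * g⁻¹ ∈ I
  fin : ∃ s : Finset X, ∀ x, ∃ y ∈ s, ∃ g, π g y = x

variable {k V X : Type} [Field k] [AddCommGroup V] [Module k V]

/-- the representation is smooth and not ramified on `I` -/
def Un (I : Set G) (σ : Representation k G V) : Prop := ∃ W, Ad I W ∧ ∀ w ∈ W, σ w = 1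

/-- framed tangent vectors: the framings `a` determine the cocycle `c` -/
def Zc (π : G →* Equiv.Perm X) (I : Set G) (σ : Representation k G V) : Submodule k (X → V) where
  carrier := {a | ∃ c : G → V, A1 I c ∧ ∀ g x, a (π g x) = c g + σ g (a x)}
  add_mem' := by
    rintro a a' ⟨c, ⟨W, hW, h⟩, e⟩ ⟨c', ⟨W', hW', h'⟩, e'⟩
    refine ⟨c + c', ⟨W ⊓ W', hW.inf hW', fun w hw g => ?_⟩, fun g x => ?_⟩
    · rw [Pi.add_apply, Pi.add_apply, h w hw.1, h' w hw.2]
    · simp only [Pi.add_apply, e, e', map_add]; abel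
  zero_mem' := ⟨0, ⟨⊤, Ad.top I, fun _ _ _ => rfl⟩, fun _ _ => by simp⟩
  smul_mem' := by
    rintro r a ⟨c, ⟨W, hW, h⟩, e⟩
    refine ⟨r • c, ⟨W, hW, fun w hw g => ?_⟩, fun g x => ?_⟩
    · rw [Pi.smul_apply, Pi.smul_apply, h w hw]
    · simp only [Pi.smul_apply, e, map_smul, smul_add]

/-- framed two cocycles: the local trivialisations `e` determine the cocycle `z` -/
def Z2 (π : G →* Equiv.Perm X) (I : Set G) (σ : Representation k G V) :
    Submodule k (G → X → V) where
  carrier := {e | S1 π e ∧ ∃ z : G → G → V, A2 I z ∧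
    ∀ g h x, e (g * h) x = e g x + σ g (e h (π g⁻¹ x)) + z g h}
  add_mem' := by
    rintro a a' ⟨⟨U, hU, u⟩, c, ⟨W, hW, h⟩, e⟩ ⟨⟨U', hU', u'⟩, c', ⟨W', hW', h'⟩, e'⟩
    refine ⟨⟨U ⊓ U', hU.inf hU', fun w hw g x => ?_⟩, c + c',
      ⟨W ⊓ W', hW.inf hW', fun w hw g g' => ?_⟩, fun g g' x => ?_⟩
    · simp only [Pi.add_apply, u w hw.1 g x, u' w hw.2 g x, and_self]
    · simp only [Pi.add_apply, h w hw.1 g g', h' w hw.2 g g', and_self]
    · simp only [Pi.add_apply, e, e', map_add]; abel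
  zero_mem' := ⟨⟨⊤, Ad.top _, fun _ _ _ _ => ⟨rfl, rfl⟩⟩, 0,
    ⟨⊤, Ad.top I, fun _ _ _ _ => ⟨rfl, rfl⟩⟩, fun _ _ _ => by simp⟩
  smul_mem' := by
    rintro r a ⟨⟨U, hU, u⟩, c, ⟨W, hW, h⟩, e⟩
    refine ⟨⟨U, hU, fun w hw g x => ?_⟩, r • c, ⟨W, hW, fun w hw g g' => ?_⟩, fun g g' x => ?_⟩
    · simp only [Pi.smul_apply, u w hw g x, and_self]
    · simp only [Pi.smul_apply, h w hw g g', and_self]
    · simp only [Pi.smul_apply, e, map_smul, smul_add]

/-- framed two coboundaries -/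
def B2 (π : G →* Equiv.Perm X) (I : Set G) (σ : Representation k G V) :
    Submodule k (G → X → V) where
  carrier := {e | ∃ (b : G → V) (a : X → V), A1 I b ∧ S0 π a ∧
    ∀ g x, e g x = b g + a x - σ g (a (π g⁻¹ x))}
  add_mem' := by
    rintro e e' ⟨b, a, ⟨W, hW, h⟩, ⟨U, hU, u⟩, f⟩ ⟨b', a', ⟨W', hW', h'⟩, ⟨U', hU', u'⟩, f'⟩
    refine ⟨b + b', a + a', ⟨W ⊓ W', hW.inf hW', fun w hw g => ?_⟩,
      ⟨U ⊓ U', hU.inf hU', fun w hw x => ?_⟩, fun g x => ?_⟩
    · rw [Pi.add_apply, Pi.add_apply, h w hw.1, h' w hw.2]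
    · rw [Pi.add_apply, Pi.add_apply, u w hw.1, u' w hw.2]
    · simp only [Pi.add_apply, f, f', map_add]; abel
  zero_mem' := ⟨0, 0, ⟨⊤, Ad.top I, fun _ _ _ => rfl⟩, ⟨⊤, Ad.top _, fun _ _ _ => rfl⟩,
    fun _ _ => by simp⟩
  smul_mem' := by
    rintro r e ⟨b, a, ⟨W, hW, h⟩, ⟨U, hU, u⟩, f⟩
    refine ⟨r • b, r • a, ⟨W, hW, fun w hw g => ?_⟩, ⟨U, hU, fun w hw x => ?_⟩, fun g x => ?_⟩
    · rw [Pi.smul_apply, Pi.smul_apply, h w hw]
    · rw [Pi.smul_apply, Pi.smul_apply, u w hw]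
    · simp only [Pi.smul_apply, f, map_smul, smul_add, smul_sub]

/-- the obstruction space -/
abbrev H2 (π : G →* Equiv.Perm X) (I : Set G) (σ : Representation k G V) : Type :=
  Z2 π I σ ⧸ (B2 π I σ).submoduleOf (Z2 π I σ)

end

section

variable {G k V : Type} [Group G] [Field k] [AddCommGroup V] [Module k V]

/-- equivariant functions -/
def Fx {Y : Type} (π : G →* Equiv.Perm Y) (σ : Representation k G V) : Submodule k (Y → V) where
  carrier := {f | ∀ g y, f (π g y) = σ g (f y)}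
  add_mem' {a b} ha hb g y := by rw [Pi.add_apply, Pi.add_apply, ha, hb, map_add]
  zero_mem' g y := by simp
  smul_mem' r a ha g y := by rw [Pi.smul_apply, Pi.smul_apply, ha, map_smul]

/-- the twist by a character -/
def tw (χ : G →* kˣ) (σ : Representation k G V) : Representation k G V where
  toFun g := (χ g : k) • σ g
  map_one' := by simp
  map_mul' g h := by rw [map_mul, map_mul, Units.val_mul, smul_mul_smul_comm]

/-- a character with values in the prime field, read in `k` -/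
def up {p : ℕ} [CharP k p] (χ : G →* (ZMod p)ˣ) : G →* kˣ :=
  (Units.map (ZMod.castHom (dvd_refl p) k).toMonoidHom).comp χ

/-- functions on the cosets of `B` -/
def fn (B : Subgroup G) (σ : Representation k G V) : Representation k G (G ⧸ B → V) where
  toFun g :=
    { toFun := fun f x => σ g (f (g⁻¹ • x))
      map_add' := fun a b => funext fun x => map_add _ _ _
      map_smul' := fun r a => funext fun x => map_smul _ _ _ }
  map_one' := by ext f x; simp
  map_mul' g h := by ext f x; simp [mul_smul]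

/-- an element of trace one from `B` to `G` -/
def Tr1 (B : Subgroup G) (σ : Representation k G V) (ε : V →ₗ[k] V) : Prop :=
  (∀ b ∈ B, σ b * ε = ε * σ b) ∧ ∃ _ : Fintype (G ⧸ B), ∑ x : G ⧸ B, σ x.out * ε * σ x.out⁻¹ = 1

/-- a projective representation of `G ⧸ U` -/
def Hig (U : Subgroup G) (σ : Representation k G V) : Prop :=
  (∀ u ∈ U, σ u = 1) ∧ ∃ ε, Tr1 U σ ε

/-- a short exact sequence of representations -/
structure Ex {N M : Type} [AddCommGroup N] [Module k N] [AddCommGroup M] [Module k M]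
    (ν : Representation k G N) (σ : Representation k G V) (μ : Representation k G M)
    (i : N →ₗ[k] V) (q : V →ₗ[k] M) : Prop where
  inj : Function.Injective i
  sur : Function.Surjective q
  ex : ∀ v, q v = 0 ↔ ∃ x, i x = v
  ei : ∀ g x, i (ν g x) = σ g (i x)
  eq : ∀ g v, q (σ g v) = μ g (q v)

/-- the stabiliser -/
def stb {Y : Type} (π : G →* Equiv.Perm Y) (y : Y) : Subgroup G where
  carrier := {g | π g y = y}
  mul_mem' {g h} hg hh := by
    show π (g * h) y = y
    rw [map_mul, Equiv.Perm.mul_apply, show π h y = y from hh]; exact hg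
  one_mem' := by show π 1 y = y; rw [map_one]; rfl
  inv_mem' {g} hg := by
    show π g⁻¹ y = y
    rw [map_inv, Equiv.Perm.inv_eq_iff_eq]; exact (show π g y = y from hg).symm

/-- the stabilisers act on `V` through finite groups of order prime to the characteristic -/
def Pr {Y : Type} (π : G →* Equiv.Perm Y) (σ : Representation k G V) : Prop :=
  ∀ y, ((Nat.card ((stb π y).map σ.asGroupHom) : ℕ) : k) ≠ 0

/-- the dimension of the invariants -/
def h0 (σ : Representation k G V) : ℕ := finrank k (Fx (1 : G →* Equiv.Perm Unit) σ)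

/-- representations with a filtration whose pieces have the property `Pc` -/
inductive Fl (Pc : ∀ (N : Type) [AddCommGroup N] [Module k N], Representation k G N → Prop) :
    ∀ (V : Type) [AddCommGroup V] [Module k V], Representation k G V → Prop
  | one (V : Type) [AddCommGroup V] [Module k V] (σ : Representation k G V) :
      Pc V σ → Fl Pc V σ
  | ext (N V M : Type) [AddCommGroup N] [Module k N] [AddCommGroup V] [Module k V]
      [AddCommGroup M] [Module k M] (ν : Representation k G N) (σ : Representation k G V)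
      (μ : Representation k G M) (i : N →ₗ[k] V) (q : V →ₗ[k] M) :
      Ex ν σ μ i q → Fl Pc N ν → Fl Pc M μ → Fl Pc V σ

/-- `H` acts freely modulo `U` on the cosets other than `B`; the index of `H` is invertible -/
structure TI (k : Type) [Field k] (U H B : Subgroup G) : Prop where
  le : U ≤ H
  le' : H ≤ B
  idx : (H.index : k) ≠ 0
  ti : ∀ g, g ∉ B → ∀ h ∈ H, g⁻¹ * h * g ∈ B → h ∈ U

end

/-! ### additive functions on finite modules -/

section

variable {G : Type} [Group G]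

/-- actions -/
abbrev Ac (G M : Type) [Group G] [AddCommGroup M] := G →* AddMonoid.End M

/-- functions on modules -/
def AF (G : Type) [Group G] : Type 1 := ∀ (M : Type) [AddCommGroup M], Ac G M → ℕ

variable {M : Type} [AddCommGroup M]

/-- finite modules which are killed by `p` and fixed by `U` -/
structure Md (p : ℕ) (U : Subgroup G) (a : Ac G M) : Prop where
  fin : Finite M
  tor : ∀ m : M, p • m = 0
  trv : ∀ u ∈ U, ∀ m, a u m = m

/-- additivity -/
def AF.Add (Ψ : AF G) (p : ℕ) (U : Subgroup G) : Prop :=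
  ∀ (A B C : Type) [AddCommGroup A] [AddCommGroup B] [AddCommGroup C] (a : Ac G A) (b : Ac G B)
    (c : Ac G C) (i : A →+ B) (q : B →+ C), Md p U b → Function.Injective i →
    Function.Surjective q → (∀ y, q y = 0 ↔ ∃ x, i x = y) → (∀ g x, i (a g x) = b g (i x)) →
    (∀ g y, q (b g y) = c g (q y)) → Ψ B b = Ψ A a + Ψ C c

/-- `Ψ'` is the value of `Ψ` on the dual module -/
def AF.Du (Ψ Ψ' : AF G) (p : ℕ) (U : Subgroup G) : Prop :=
  ∀ (A B : Type) [AddCommGroup A] [AddCommGroup B] (a : Ac G A) (b : Ac G B)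
    (β : A →+ B →+ ZMod p), Md p U a → Md p U b → (∀ g x y, β (a g x) (b g y) = β x y) →
    (∀ x, (∀ y, β x y = 0) → x = 0) → (∀ y, (∀ x, β x y = 0) → y = 0) → Ψ A a = Ψ' B b

/-- stable subgroups -/
def St (a : Ac G M) (A : AddSubgroup M) : Prop := ∀ g, ∀ m ∈ A, a g m ∈ A

/-- the action on a stable subgroup -/
def Ac.sub (a : Ac G M) (A : AddSubgroup M) (h : St a A) : Ac G A where
  toFun g := ((a g : M →+ M).comp A.subtype).codRestrict A fun m => h g m m.2
  map_one' := by ext m; simp; rfl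
  map_mul' g g' := by ext m; simp; rfl

/-- the action on the quotient by a stable subgroup -/
def Ac.quo (a : Ac G M) (A : AddSubgroup M) (h : St a A) : Ac G (M ⧸ A) where
  toFun g := QuotientAddGroup.map A A (a g : M →+ M) fun m hm => h g m hm
  map_one' := AddMonoidHom.ext fun m => QuotientAddGroup.induction_on m fun m => by
    show ((a 1 m : M) : M ⧸ A) = m
    rw [map_one]; rfl
  map_mul' g g' := AddMonoidHom.ext fun m => QuotientAddGroup.induction_on m fun m => by
    show ((a (g * g') m : M) : M ⧸ A) = (a g (a g' m) : M)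
    rw [map_mul]; rfl

open Classical in
/-- the value on the subquotient `B ⧸ A` -/
def AF.sq (Ψ : AF G) (a : Ac G M) (B A : AddSubgroup M) : ℕ :=
  if h : St a B ∧ St a A then
    Ψ (B ⧸ A.addSubgroupOf B) ((a.sub B h.1).quo (A.addSubgroupOf B) fun g m hm => h.2 g m hm)
  else 0

/-- functions on a set with an action, twisted by a character -/
def fa {p : ℕ} {S : Type} (π : G →* Equiv.Perm S) (χ : G →* (ZMod p)ˣ) : Ac G (S → ZMod p) where
  toFun g :=
    { toFun := fun f s => (χ g : ZMod p) * f (π g⁻¹ s)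
      map_zero' := funext fun s => mul_zero _
      map_add' := fun f f' => funext fun s => mul_add _ _ _ }
  map_one' := by ext f s; simp; rfl
  map_mul' g h := by
    ext f s
    show ((χ (g * h) : (ZMod p)ˣ) : ZMod p) * f (π (g * h)⁻¹ s) =
      (χ g : ZMod p) * ((χ h : ZMod p) * f (π h⁻¹ (π g⁻¹ s)))
    rw [map_mul, Units.val_mul, mul_assoc, mul_inv_rev, map_mul]; rfl

/-- the action by conjugation -/
def cj (G : Type) [Group G] : G →* Equiv.Perm G := MulAction.toPermHom (ConjAct G) G |>.comp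
  ConjAct.toConjAct.toMonoidHom

theorem cj_apply (g x : G) : cj G g x = g * x * g⁻¹ := rfl

/-- the action on pairs of a place and a group element -/
def pj {X : Type} (π : G →* Equiv.Perm X) : G →* Equiv.Perm (X × G) where
  toFun g := (π g).prodCongr (cj G g)
  map_one' := by rw [map_one, map_one]; rfl
  map_mul' g h := by rw [map_mul, map_mul]; rfl

theorem pj_apply {X : Type} (π : G →* Equiv.Perm X) (g : G) (x : X) (u : G) :
    pj π g (x, u) = (π g x, g * u * g⁻¹) := rfl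

/-- the functions which are fixed by `U` -/
def Fu (p : ℕ) {Y : Type} (π : G →* Equiv.Perm Y) (U : Subgroup G) : AddSubgroup (Y → ZMod p) where
  carrier := {f | ∀ u ∈ U, ∀ y, f (π u y) = f y}
  add_mem' {a b} ha hb u hu y := by rw [Pi.add_apply, Pi.add_apply, ha u hu, hb u hu]
  zero_mem' _ _ _ := rfl
  neg_mem' {a} ha u hu y := by rw [Pi.neg_apply, Pi.neg_apply, ha u hu]

/-- the value on the functions fixed by `U` -/
def AF.fu (Ψ : AF G) {p : ℕ} {Y : Type} (π : G →* Equiv.Perm Y) (U : Subgroup G)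
    (χ : G →* (ZMod p)ˣ) : ℕ := Ψ.sq (fa π χ) (Fu p π U) ⊥

/-- the value on a character -/
def AF.ch (Ψ : AF G) {p : ℕ} (χ : G →* (ZMod p)ˣ) : ℕ :=
  Ψ.sq (fa (1 : G →* Equiv.Perm Unit) χ) ⊤ ⊥

variable [TopologicalSpace G] [IsTopologicalGroup G]

/-- the admissible characters of `U` -/
def Gl (p : ℕ) (I : Set G) (U : Subgroup G) : AddSubgroup (G → ZMod p) where
  carrier := {f | (∀ g ∈ U, ∀ h ∈ U, f (g * h) = f g + f h) ∧ (∀ g ∉ U, f g = 0) ∧
    ∃ W, Ad I W ∧ ∀ w ∈ W, f w = 0}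
  add_mem' := by
    rintro a b ⟨a1, a2, W, hW, a3⟩ ⟨b1, b2, W', hW', b3⟩
    refine ⟨fun g hg h hh => ?_, fun g hg => ?_, W ⊓ W', hW.inf hW', fun w hw => ?_⟩
    · simp only [Pi.add_apply, a1 g hg h hh, b1 g hg h hh]; abel
    · rw [Pi.add_apply, a2 g hg, b2 g hg, add_zero]
    · rw [Pi.add_apply, a3 w hw.1, b3 w hw.2, add_zero]
  zero_mem' := ⟨fun _ _ _ _ => by simp, fun _ _ => rfl, ⊤, Ad.top I, fun _ _ => rfl⟩
  neg_mem' := by
    rintro a ⟨a1, a2, W, hW, a3⟩
    refine ⟨fun g hg h hh => ?_, fun g hg => ?_, W, hW, fun w hw => ?_⟩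
    · simp only [Pi.neg_apply, a1 g hg h hh]; abel
    · rw [Pi.neg_apply, a2 g hg, neg_zero]
    · rw [Pi.neg_apply, a3 w hw, neg_zero]

/-- the admissible characters of `U` which vanish on the stabilisers -/
def Kr (p : ℕ) {X : Type} (π : G →* Equiv.Perm X) (I : Set G) (U : Subgroup G) :
    AddSubgroup (G → ZMod p) where
  carrier := {f | f ∈ Gl p I U ∧ ∀ x g, π g x = x → f g = 0}
  add_mem' {a b} ha hb := ⟨add_mem ha.1 hb.1, fun x g h => by
    rw [Pi.add_apply, ha.2 x g h, hb.2 x g h, add_zero]⟩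
  zero_mem' := ⟨zero_mem _, fun _ _ _ => rfl⟩
  neg_mem' {a} ha := ⟨neg_mem ha.1, fun x g h => by rw [Pi.neg_apply, ha.2 x g h, neg_zero]⟩

/-- the families of characters of the stabilisers in `U` -/
def Lo (p : ℕ) {X : Type} (π : G →* Equiv.Perm X) (U : Subgroup G) :
    AddSubgroup (X × G → ZMod p) where
  carrier := {f | (∀ x, ∀ g ∈ U, ∀ h ∈ U, π g x = x → π h x = x →
      f (x, g * h) = f (x, g) + f (x, h)) ∧ (∀ x g, ¬ (g ∈ U ∧ π g x = x) → f (x, g) = 0) ∧
    (∀ u ∈ U, ∀ s, f (pj π u s) = f s) ∧ ∃ W, Ad (∅ : Set G) W ∧ ∀ w ∈ W, ∀ x, f (x, w) = 0}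
  add_mem' := by
    rintro a b ⟨a1, a2, a3, W, hW, a4⟩ ⟨b1, b2, b3, W', hW', b4⟩
    refine ⟨fun x g hg h hh e e' => ?_, fun x g hg => ?_, fun u hu s => ?_, W ⊓ W', hW.inf hW',
      fun w hw x => ?_⟩
    · simp only [Pi.add_apply, a1 x g hg h hh e e', b1 x g hg h hh e e']; abel
    · rw [Pi.add_apply, a2 x g hg, b2 x g hg, add_zero]
    · rw [Pi.add_apply, Pi.add_apply, a3 u hu, b3 u hu]
    · rw [Pi.add_apply, a4 w hw.1, b4 w hw.2, add_zero]
  zero_mem' := ⟨fun _ _ _ _ _ _ _ => by simp, fun _ _ _ => rfl, fun _ _ _ => rfl, ⊤, Ad.top _,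
    fun _ _ _ => rfl⟩
  neg_mem' := by
    rintro a ⟨a1, a2, a3, W, hW, a4⟩
    refine ⟨fun x g hg h hh e e' => ?_, fun x g hg => ?_, fun u hu s => ?_, W, hW,
      fun w hw x => ?_⟩
    · simp only [Pi.neg_apply, a1 x g hg h hh e e']; abel
    · rw [Pi.neg_apply, a2 x g hg, neg_zero]
    · rw [Pi.neg_apply, Pi.neg_apply, a3 u hu]
    · rw [Pi.neg_apply, a4 w hw, neg_zero]

open Classical in
/-- restriction to the stabilisers -/
def rs (p : ℕ) {X : Type} (π : G →* Equiv.Perm X) : (G → ZMod p) →+ (X × G → ZMod p) where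
  toFun f s := if π s.2 s.1 = s.1 then f s.2 else 0
  map_zero' := funext fun s => by simp
  map_add' f f' := funext fun s => by simp only [Pi.add_apply]; split_ifs <;> simp

/-- a two cocycle on `U` which is trivial on the stabilisers is trivial -/
def Sha2 (p : ℕ) {X : Type} (π : G →* Equiv.Perm X) (I : Set G) (U : Subgroup G) : Prop :=
  ∀ z : G → G → ZMod p,
    (∀ g ∈ U, ∀ h ∈ U, ∀ l ∈ U, z h l + z g (h * l) = z (g * h) l + z g h) → A2 I z →
    (∀ x, ∃ e : G → ZMod p, A1 ∅ e ∧ ∀ g ∈ U, ∀ h ∈ U, π g x = x → π h x = x →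
      e (g * h) = e g + e h + z g h) →
    ∃ b : G → ZMod p, A1 I b ∧ ∀ g ∈ U, ∀ h ∈ U, b (g * h) = b g + b h + z g h

/-- **the count**; `π` framed places, `πq` the places with free ramification, `πi` the infinite
places -/
def Eul (p : ℕ) {X Q Y : Type} (π : G →* Equiv.Perm X) (πq : G →* Equiv.Perm Q)
    (πi : G →* Equiv.Perm Y) (I : Set G) (ω : G →* (ZMod p)ˣ) (U : Subgroup G) : Prop :=
  Finite (Gl p I U) ∧ Finite (Lo p π U) ∧ ∀ Ψ : AF G, Ψ.Add p U →
    Ψ.sq (fa (pj π) 1) (Lo p π U) ((Gl p I U).map (rs p π)) + Ψ.ch (1 : G →* (ZMod p)ˣ) +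
        Ψ.fu πq U ω⁻¹ =
      Ψ.fu πi U (1 : G →* (ZMod p)ˣ) + Ψ.ch ω⁻¹ + Ψ.fu π U (1 : G →* (ZMod p)ˣ) +
        Ψ.sq (fa (cj G) 1) (Kr p π I U) ⊥

/-- **the bound given by the reciprocity law**; `I₀` also contains the inertia at `πq` -/
def Rec (p : ℕ) {X Q Y : Type} (π : G →* Equiv.Perm X) (πq : G →* Equiv.Perm Q)
    (πi : G →* Equiv.Perm Y) (I I₀ : Set G) (ω : G →* (ZMod p)ˣ) (U : Subgroup G) : Prop :=
  Finite (Gl p I U) ∧ Finite (Gl p I₀ U) ∧ ∀ Ψ Ψ' : AF G, Ψ.Add p U → Ψ'.Add p U → Ψ.Du Ψ' p U →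
    Ψ.sq (fa (cj G) 1) (Kr p π I U) ⊥ + Ψ.fu π U (1 : G →* (ZMod p)ˣ) +
        Ψ.fu πi U (1 : G →* (ZMod p)ˣ) + Ψ.ch ω⁻¹ ≤
      Ψ.fu πq U ω⁻¹ + Ψ'.sq (fa (cj G) ω) (Kr p πq I₀ U) ⊥ + Ψ.ch (1 : G →* (ZMod p)ˣ)

end

section

variable {G k N : Type} [Group G] [Field k] [AddCommGroup N] [Module k N]

/-- the dimension of the invariants of the tensor product -/
def psi (ν : Representation k G N) : AF G := fun M _ a =>
  finrank k (⨅ g : G, LinearMap.ker (AlgebraTensorModule.map (ν g)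
    (AddMonoidHom.toIntLinearMap (a g : M →+ M)) - LinearMap.id) : Submodule k (N ⊗[ℤ] M))

variable (k N) in
/-- the functions with values in `N` all of whose coordinates are in `A` -/
def Co {p : ℕ} {S : Type} (A : AddSubgroup (S → ZMod p)) : Submodule k (S → N) where
  carrier := {f | ∀ l : N →+ ZMod p, (fun s => l (f s)) ∈ A}
  add_mem' {a b} ha hb l := by
    have := add_mem (ha l) (hb l)
    convert this using 1; funext s; simp
  zero_mem' l := by convert zero_mem A using 1; funext s; simp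
  smul_mem' r a ha l := ha (l.comp (DistribSMul.toAddMonoidHom N r))

/-- the elements of `Co A` which are invariant modulo `Co A'` -/
def Ci (ν : Representation k G N) {p : ℕ} [CharP k p] {S : Type} (π : G →* Equiv.Perm S)
    (χ : G →* (ZMod p)ˣ) (A A' : AddSubgroup (S → ZMod p)) : Submodule k (S → N) where
  carrier := {f | f ∈ Co k N A ∧
    ∀ g, (fun s => tw (up χ) ν g (f (π g⁻¹ s)) - f s) ∈ Co k N A'}
  add_mem' {a b} ha hb := ⟨add_mem ha.1 hb.1, fun g => by
    have := add_mem (ha.2 g) (hb.2 g)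
    convert this using 1; funext s; simp only [Pi.add_apply, map_add]; abel⟩
  zero_mem' := ⟨zero_mem _, fun g => by convert zero_mem (Co k N A') using 1; funext s; simp⟩
  smul_mem' r a ha := ⟨Submodule.smul_mem _ r ha.1, fun g => by
    have := Submodule.smul_mem _ r (ha.2 g)
    convert this using 1; funext s; simp only [Pi.smul_apply, map_smul, smul_sub]⟩

end

/-! ### the four inequalities -/

section

variable {G k V X Q Y : Type} [Group G] [TopologicalSpace G] [IsTopologicalGroup G] [Field k]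
  [AddCommGroup V] [Module k V]

/-- the upper bound for the framed tangent space -/
def Up1 (π : G →* Equiv.Perm X) (πq : G →* Equiv.Perm Q) (πi : G →* Equiv.Perm Y) (I : Set G)
    (ω : G →* kˣ) (σ : Representation k G V) : Prop :=
  Module.Finite k (Zc π I σ) ∧
    finrank k (Zc π I σ) + finrank k (Fx πi σ) + h0 (tw ω⁻¹ σ) ≤
      finrank k V + finrank k (Fx πq (tw ω⁻¹ σ))

/-- the lower bound for the framed tangent space -/
def Lw1 (π : G →* Equiv.Perm X) (πq : G →* Equiv.Perm Q) (πi : G →* Equiv.Perm Y) (I : Set G)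
    (ω : G →* kˣ) (σ : Representation k G V) : Prop :=
  Module.Finite k (Zc π I σ) ∧ finrank k V + finrank k (Fx πq (tw ω⁻¹ σ)) ≤
    finrank k (Zc π I σ) + finrank k (Fx πi σ) + h0 (tw ω⁻¹ σ)

/-- the upper bound for the obstruction space, with the defect `n` -/
def Up2 (π : G →* Equiv.Perm X) (πi : G →* Equiv.Perm Y) (I : Set G)
    (σ : Representation k G V) (n : ℕ) : Prop :=
  Module.Finite k (Zc π I σ) ∧ Module.Finite k (H2 π I σ) ∧
    finrank k (H2 π I σ) + finrank k V ≤ finrank k (Zc π I σ) + finrank k (Fx πi σ) + n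

/-- the lower bound for the obstruction space -/
def Lw2 (π : G →* Equiv.Perm X) (πi : G →* Equiv.Perm Y) (I : Set G)
    (σ : Representation k G V) : Prop :=
  Module.Finite k (Zc π I σ) ∧ Module.Finite k (H2 π I σ) ∧
    finrank k (Zc π I σ) + finrank k (Fx πi σ) ≤ finrank k (H2 π I σ) + finrank k V

/-- the places `πq` kill the classes of the dual module -/
def Kil (πq : G →* Equiv.Perm Q) (I₀ : Set G) (ω : G →* kˣ) (U : Subgroup G)
    (σ : Representation k G V) : Prop :=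
  ∀ y : G → Module.Dual k V, (∀ g ∈ U, ∀ h ∈ U, y (g * h) = y g + y h) → (∀ g ∉ U, y g = 0) →
    (∃ W, Ad I₀ W ∧ ∀ w ∈ W, y w = 0) →
    (∀ g u, y (g * u * g⁻¹) = tw ω σ.dual g (y u)) → (∀ x g, πq g x = x → y g = 0) → y = 0

/-- finitely many orbits -/
def Fo (π : G →* Equiv.Perm Y) : Prop := ∃ s : Finset Y, ∀ x, ∃ y ∈ s, ∃ g, π g y = x

end

/-! ### rows: the calculus of additive functions -/

/-- the chain rule, transport along a map, products, twists -/
def CAL : Prop := ∀ (G : Type) [Group G] (p : ℕ) (U : Subgroup G) (Ψ : AF G), Ψ.Add p U →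
  (∀ (M : Type) [AddCommGroup M] (a : Ac G M) (A B C : AddSubgroup M), St a A → St a B → St a C →
    A ≤ B → B ≤ C → A.relIndex C ≠ 0 → (∀ m ∈ C, p • m ∈ A) → (∀ u ∈ U, ∀ m ∈ C, a u m - m ∈ A) →
    Ψ.sq a C A = Ψ.sq a C B + Ψ.sq a B A) ∧
  (∀ (M M' : Type) [AddCommGroup M] [AddCommGroup M'] (a : Ac G M) (a' : Ac G M')
    (A B : AddSubgroup M) (A' B' : AddSubgroup M') (f : B →+ M'), St a A → St a' A' → St a' B' →
    ∀ hB : St a B, (∀ g (m : B), f ⟨a g m, hB g m m.2⟩ - a' g (f m) ∈ A') → (∀ m, f m ∈ B') →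
    (∀ m' ∈ B', ∃ m, f m - m' ∈ A') → (∀ m : B, f m ∈ A' ↔ m.1 ∈ A) →
    A.relIndex B ≠ 0 → (∀ m ∈ B, p • m ∈ A) → (∀ u ∈ U, ∀ m ∈ B, a u m - m ∈ A) →
    Ψ.sq a B A = Ψ.sq a' B' A') ∧
  (∀ (M : Type) [AddCommGroup M] (a : Ac G M), Md p U a → Ψ.sq a ⊤ ⊥ = Ψ M a) ∧
  ∀ (M : Type) [AddCommGroup M] (a : Ac G M) (A : AddSubgroup M), St a A → Ψ.sq a A A = 0

/-- the multiples of `p` in `B` -/
def mu {M : Type} [AddCommGroup M] (p : ℕ) (B : AddSubgroup M) : AddSubgroup M :=
  B.map (nsmulAddMonoidHom p)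

/-- the `p` torsion of `B` -/
def tor {M : Type} [AddCommGroup M] (p : ℕ) (B : AddSubgroup M) : AddSubgroup M :=
  B ⊓ (nsmulAddMonoidHom p).ker

/-- the Herbrand quotient does not see finite indices -/
def HRB : Prop := ∀ (G : Type) [Group G] (p : ℕ) (U : Subgroup G) (Ψ : AF G), p.Prime →
  Ψ.Add p U → ∀ (M : Type) [AddCommGroup M] (a : Ac G M) (A B : AddSubgroup M), St a A → St a B →
  A ≤ B → A.relIndex B ≠ 0 → (∀ u ∈ U, ∀ m ∈ B, a u m = m) → (mu p A).relIndex A ≠ 0 →
  Finite (tor p A) → (mu p B).relIndex B ≠ 0 ∧ Finite (tor p B) ∧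
    Ψ.sq a B (mu p B) + Ψ.sq a (tor p A) ⊥ = Ψ.sq a A (mu p A) + Ψ.sq a (tor p B) ⊥

/-- additivity and duality for a projective representation -/
def PSI : Prop := ∀ (G k N : Type) [Group G] [Field k] [AddCommGroup N] [Module k N]
  [Module.Finite k N] (p : ℕ) [Fact p.Prime] [CharP k p] (U : Subgroup G) [U.Normal]
  (ν : Representation k G N), Hig U ν →
  (psi ν).Add p U ∧ Hig U ν.dual ∧ (psi ν).Du (psi ν.dual) p U

/-- the value on spaces of functions -/
def FUN : Prop := ∀ (G k N : Type) [Group G] [Field k] [Finite k] [AddCommGroup N] [Module k N]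
  [Module.Finite k N] (p : ℕ) [Fact p.Prime] [CharP k p] (U : Subgroup G) [U.Normal]
  (ν : Representation k G N), Hig U ν → ∀ (S : Type) (π : G →* Equiv.Perm S) (χ : G →* (ZMod p)ˣ)
  (A A' : AddSubgroup (S → ZMod p)), St (fa π χ) A → St (fa π χ) A' → A' ≤ A → Finite A →
  (∀ u ∈ U, ∀ f ∈ A, fa π χ u f - f ∈ A') → Module.Finite k (Co k N A) ∧
    (psi ν).sq (fa π χ) A A' + finrank k (Co k N A') = finrank k (Ci ν π χ A A')

/-! ### rows: cochains -/

/-- corestriction after an element of trace one -/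
def COR : Prop := ∀ (G k V X : Type) [Group G] [TopologicalSpace G] [IsTopologicalGroup G]
  [CompactSpace G] [Field k] [AddCommGroup V] [Module k V] (π : G →* Equiv.Perm X) (I : Set G)
  (σ : Representation k G V) (B : Subgroup G) (ε : V →ₗ[k] V), Ok π I → Un I σ →
  IsOpen (B : Set G) → (∀ i ∈ I, i ∈ B) → Tr1 B σ ε → ∀ e ∈ Z2 π I σ,
  (fun (g : B) x => ε (e g x)) ∈ B2 (π.comp B.subtype) (B.subtype ⁻¹' I) (σ.comp B.subtype) →
  e ∈ B2 π I σ

/-- the lemma of Shapiro -/
def SHP : Prop := ∀ (G k V X : Type) [Group G] [TopologicalSpace G] [IsTopologicalGroup G]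
  [CompactSpace G] [Field k] [AddCommGroup V] [Module k V] [Module.Finite k V]
  (π : G →* Equiv.Perm X) (I : Set G) (σ : Representation k G V) (B : Subgroup G), Ok π I →
  Un I σ → IsOpen (B : Set G) → (∀ i ∈ I, i ∈ B) →
  Ok (π.comp B.subtype) (B.subtype ⁻¹' I) ∧ Un (B.subtype ⁻¹' I) (σ.comp B.subtype) ∧
  Un I (fn B σ) ∧
  (Module.Finite k (Zc (π.comp B.subtype) (B.subtype ⁻¹' I) (σ.comp B.subtype)) →
    Module.Finite k (Zc π I (fn B σ)) ∧ finrank k (Zc π I (fn B σ)) + finrank k V =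
      finrank k (Zc (π.comp B.subtype) (B.subtype ⁻¹' I) (σ.comp B.subtype)) +
        finrank k (G ⧸ B → V)) ∧
  (Module.Finite k (H2 (π.comp B.subtype) (B.subtype ⁻¹' I) (σ.comp B.subtype)) →
    Module.Finite k (H2 π I (fn B σ)) ∧ finrank k (H2 π I (fn B σ)) ≤
      finrank k (H2 (π.comp B.subtype) (B.subtype ⁻¹' I) (σ.comp B.subtype))) ∧
  ∀ (Y : Type) (πy : G →* Equiv.Perm Y),
    Nonempty (Fx πy (fn B σ) ≃ₗ[k] Fx (πy.comp B.subtype) (σ.comp B.subtype))

/-- extensions, degree one -/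
def EXT1 : Prop := ∀ (G k N V M X Q Y : Type) [Group G] [TopologicalSpace G]
  [IsTopologicalGroup G] [Field k] [AddCommGroup N] [Module k N] [AddCommGroup V] [Module k V]
  [AddCommGroup M] [Module k M] [Module.Finite k V] (π : G →* Equiv.Perm X)
  (πq : G →* Equiv.Perm Q) (πi : G →* Equiv.Perm Y) (I : Set G) (ω : G →* kˣ)
  (ν : Representation k G N) (σ : Representation k G V) (μ : Representation k G M)
  (i : N →ₗ[k] V) (q : V →ₗ[k] M), Ok π I → Fo πq → Fo πi → Ex ν σ μ i q → Pr πq (tw ω⁻¹ σ) →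
  Up1 π πq πi I ω ν → Up1 π πq πi I ω μ → Up1 π πq πi I ω σ

/-- extensions, degree two -/
def EXT2 : Prop := ∀ (G k N V M X Y : Type) [Group G] [TopologicalSpace G]
  [IsTopologicalGroup G] [CompactSpace G] [Field k] [AddCommGroup N] [Module k N]
  [AddCommGroup V] [Module k V] [AddCommGroup M] [Module k M] [Module.Finite k V]
  (π : G →* Equiv.Perm X) (I : Set G)
  (ν : Representation k G N) (σ : Representation k G V) (μ : Representation k G M)
  (i : N →ₗ[k] V) (q : V →ₗ[k] M), Ok π I → Un I σ → Ex ν σ μ i q →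
  Module.Finite k (Zc π I ν) → Module.Finite k (Zc π I μ) → Module.Finite k (H2 π I ν) →
  Module.Finite k (H2 π I μ) → Module.Finite k (Zc π I σ) ∧ Module.Finite k (H2 π I σ) ∧
    finrank k (H2 π I σ) + finrank k (Zc π I ν) + finrank k (Zc π I μ) ≤
      finrank k (H2 π I ν) + finrank k (H2 π I μ) + finrank k (Zc π I σ)

/-- exactness of the equivariant functions -/
def EXF : Prop := ∀ (G k N V M Y : Type) [Group G] [Field k] [AddCommGroup N] [Module k N]
  [AddCommGroup V] [Module k V] [AddCommGroup M] [Module k M] [Module.Finite k V]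
  (π : G →* Equiv.Perm Y) (ν : Representation k G N) (σ : Representation k G V)
  (μ : Representation k G M) (i : N →ₗ[k] V) (q : V →ₗ[k] M), Fo π → Ex ν σ μ i q →
  Module.Finite k (Fx π σ) ∧ finrank k (Fx π σ) ≤ finrank k (Fx π ν) + finrank k (Fx π μ) ∧
    (Pr π σ → Pr π ν ∧ Pr π μ ∧ finrank k (Fx π σ) = finrank k (Fx π ν) + finrank k (Fx π μ)) ∧
    (Pr π σ → ∀ B : Subgroup G, Pr (π.comp B.subtype) (σ.comp B.subtype))

/-- split sequences -/
def SPL : Prop := ∀ (G k N V M X : Type) [Group G] [TopologicalSpace G]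
  [IsTopologicalGroup G] [Field k] [AddCommGroup N] [Module k N]
  [AddCommGroup V] [Module k V] [AddCommGroup M] [Module k M] (π : G →* Equiv.Perm X) (I : Set G)
  (ν : Representation k G N) (σ : Representation k G V) (μ : Representation k G M)
  (i : N →ₗ[k] V) (q : V →ₗ[k] M) (r : V →ₗ[k] N), Ex ν σ μ i q → (∀ x, r (i x) = x) →
  (∀ g v, r (σ g v) = ν g (r v)) →
  Nonempty (Zc π I σ ≃ₗ[k] Zc π I ν × Zc π I μ) ∧ Nonempty (H2 π I σ ≃ₗ[k] H2 π I ν × H2 π I μ) ∧
    ∀ (Y : Type) (πy : G →* Equiv.Perm Y), Nonempty (Fx πy σ ≃ₗ[k] Fx πy ν × Fx πy μ)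

/-- the complement of the constants is projective -/
def STB : Prop := ∀ (G k V : Type) [Group G] [Field k] [AddCommGroup V] [Module k V]
  [Module.Finite k V] (p : ℕ) [Fact p.Prime] [CharP k p] (U H B : Subgroup G) [U.Normal]
  (σ : Representation k G V), U.index ≠ 0 → TI k U H B → (∀ u ∈ U, σ u = 1) →
  ∃ (M : Type) (_ : AddCommGroup M) (_ : Module k M) (μ : Representation k G M)
    (i : V →ₗ[k] G ⧸ B → V) (q : (G ⧸ B → V) →ₗ[k] M) (r : (G ⧸ B → V) →ₗ[k] V),
    Ex σ (fn B σ) μ i q ∧ (∀ x, r (i x) = x) ∧ (∀ g v, r (fn B σ g v) = σ g (r v)) ∧ Hig U μ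

/-! ### rows: projective representations -/

/-- the framed tangent space in terms of the additive function -/
def Z1C : Prop := ∀ (G k N X : Type) [Group G] [TopologicalSpace G] [IsTopologicalGroup G]
  [CompactSpace G] [Field k] [Finite k] [AddCommGroup N] [Module k N] [Module.Finite k N] (p : ℕ)
  [Fact p.Prime] [CharP k p] (π : G →* Equiv.Perm X) (I : Set G) (U : Subgroup G)
  (ν : Representation k G N), Ok π I → Ad I U → Hig U ν → Finite (Gl p I U) →
  Module.Finite k (Zc π I ν) ∧ finrank k (Zc π I ν) + (psi ν).ch (1 : G →* (ZMod p)ˣ) =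
    finrank k N + (psi ν).fu π U (1 : G →* (ZMod p)ˣ) + (psi ν).sq (fa (cj G) 1) (Kr p π I U) ⊥

/-- equivariant functions in terms of the additive function -/
def FXC : Prop := ∀ (G k N Y : Type) [Group G] [Field k] [Finite k] [AddCommGroup N] [Module k N]
  [Module.Finite k N] (p : ℕ) [Fact p.Prime] [CharP k p] (π : G →* Equiv.Perm Y)
  (U : Subgroup G) [U.Normal] (ν : Representation k G N) (χ : G →* (ZMod p)ˣ), Fo π →
  U.index ≠ 0 → Hig U ν → (∀ u ∈ U, χ u = 1) →
  (psi ν).fu π U χ = finrank k (Fx π (tw (up χ) ν)) ∧ (psi ν).ch χ = h0 (tw (up χ) ν)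

/-- the obstruction space, upper bound -/
def H2U : Prop := ∀ (G k N X : Type) [Group G] [TopologicalSpace G] [IsTopologicalGroup G]
  [CompactSpace G] [Field k] [Finite k] [AddCommGroup N] [Module k N] [Module.Finite k N] (p : ℕ)
  [Fact p.Prime] [CharP k p] (π : G →* Equiv.Perm X) (I : Set G) (U : Subgroup G)
  (ν : Representation k G N), Ok π I → Ad I U → Hig U ν → Finite (Lo p π U) → Sha2 p π I U →
  Module.Finite k (H2 π I ν) ∧ finrank k (H2 π I ν) ≤
    (psi ν).sq (fa (pj π) 1) (Lo p π U) ((Gl p I U).map (rs p π))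

/-- the obstruction space, lower bound -/
def H2L : Prop := ∀ (G k N X : Type) [Group G] [TopologicalSpace G] [IsTopologicalGroup G]
  [CompactSpace G] [Field k] [Finite k] [AddCommGroup N] [Module k N] [Module.Finite k N] (p : ℕ)
  [Fact p.Prime] [CharP k p] (π : G →* Equiv.Perm X) (I : Set G) (U : Subgroup G)
  (ν : Representation k G N), Ok π I → Ad I U → Hig U ν → Finite (Lo p π U) →
  Module.Finite k (H2 π I ν) →
  (psi ν).sq (fa (pj π) 1) (Lo p π U) ((Gl p I U).map (rs p π)) ≤ finrank k (H2 π I ν)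

/-- degree one -/
def PRJ1 : Prop := ∀ (G k N X Q Y : Type) [Group G] [TopologicalSpace G] [IsTopologicalGroup G]
  [CompactSpace G] [Field k] [Finite k] [AddCommGroup N] [Module k N] [Module.Finite k N] (p : ℕ)
  [Fact p.Prime] [CharP k p] (π : G →* Equiv.Perm X) (πq : G →* Equiv.Perm Q)
  (πi : G →* Equiv.Perm Y) (I I₀ : Set G) (ω : G →* (ZMod p)ˣ) (U : Subgroup G)
  (ν : Representation k G N), Ok π I → Ok π I₀ → Fo πq → Fo πi → Ad I₀ U → I ⊆ I₀ →
  (∀ u ∈ U, ω u = 1) → Hig U ν →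
  (Eul p π πq πi I ω U → Lw1 π πq πi I (up ω) ν) ∧
  (Rec p π πq πi I I₀ ω U → Kil πq I₀ (up ω) U ν → Up1 π πq πi I (up ω) ν)

/-- degree two -/
def PRJ2 : Prop := ∀ (G k N X Y : Type) [Group G] [TopologicalSpace G] [IsTopologicalGroup G]
  [CompactSpace G] [Field k] [Finite k] [AddCommGroup N] [Module k N] [Module.Finite k N] (p : ℕ)
  [Fact p.Prime] [CharP k p] (π : G →* Equiv.Perm X) (πi : G →* Equiv.Perm Y) (I : Set G)
  (ω : G →* (ZMod p)ˣ) (U : Subgroup G) (ν : Representation k G N), Ok π I → Fo πi → Ad I U →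
  (∀ u ∈ U, ω u = 1) → Hig U ν → Eul p π (1 : G →* Equiv.Perm Empty) πi I ω U → Sha2 p π I U →
  Module.Finite k (Zc π I ν) ∧ Module.Finite k (H2 π I ν) ∧
    finrank k (H2 π I ν) + finrank k N =
      finrank k (Zc π I ν) + finrank k (Fx πi ν) + h0 (tw (up ω)⁻¹ ν)

/-- descent, degree one -/
def DSC1 : Prop := ∀ (G k V X Q Y : Type) [Group G] [TopologicalSpace G] [IsTopologicalGroup G]
  [CompactSpace G] [Field k] [Finite k] [AddCommGroup V] [Module k V] [Module.Finite k V] (p : ℕ)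
  [Fact p.Prime] [CharP k p] (π : G →* Equiv.Perm X) (πq : G →* Equiv.Perm Q)
  (πi : G →* Equiv.Perm Y) (I : Set G) (ω : G →* (ZMod p)ˣ) (U H B : Subgroup G)
  (σ : Representation k G V), Ok π I → Fo πq → Fo πi → Ad I U → (∀ u ∈ U, ω u = 1) →
  (∀ u ∈ U, σ u = 1) → TI k U H B → Eul p π πq πi I ω U →
  Up1 (π.comp B.subtype) (πq.comp B.subtype) (πi.comp B.subtype) (B.subtype ⁻¹' I)
    ((up ω).comp B.subtype) (σ.comp B.subtype) → Up1 π πq πi I (up ω) σ

/-- descent, degree two -/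
def DSC2 : Prop := ∀ (G k V X Y : Type) [Group G] [TopologicalSpace G] [IsTopologicalGroup G]
  [CompactSpace G] [Field k] [Finite k] [AddCommGroup V] [Module k V] [Module.Finite k V] (p : ℕ)
  [Fact p.Prime] [CharP k p] (π : G →* Equiv.Perm X) (πi : G →* Equiv.Perm Y) (I : Set G)
  (ω : G →* (ZMod p)ˣ) (U H B : Subgroup G) (σ : Representation k G V) (n : ℕ), Ok π I → Fo πi →
  Ad I U → (∀ u ∈ U, ω u = 1) → (∀ u ∈ U, σ u = 1) → TI k U H B →
  Eul p π (1 : G →* Equiv.Perm Empty) πi I ω U → Sha2 p π I U →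
  Up2 (π.comp B.subtype) (πi.comp B.subtype) (B.subtype ⁻¹' I) (σ.comp B.subtype) n →
  Up2 π πi I σ n

/-- fewer framed places; `I'` also forbids the ramification at the places which are dropped -/
def ENL : Prop := ∀ (G k V X X' : Type) [Group G] [TopologicalSpace G] [IsTopologicalGroup G]
  [CompactSpace G] [Field k] [AddCommGroup V] [Module k V] [Module.Finite k V]
  (π : G →* Equiv.Perm X) (π' : G →* Equiv.Perm X') (j : X' → X) (I I' : Set G)
  (σ : Representation k G V), Ok π I → Ok π' I' → I ⊆ I' → Un I' σ → Function.Injective j →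
  (∀ g x, j (π' g x) = π g (j x)) →
  (∀ x, x ∉ Set.range j → ∃ φ : G, π φ x = x ∧ ∀ W, Ad I' W → ∀ g, π g x = x →
    ∃ i : ℕ, (φ ^ i)⁻¹ * g ∈ W) →
  Module.Finite k (Zc π I σ) →
  Module.Finite k (Zc π' I' σ) ∧ finrank k (Zc π' I' σ) ≤ finrank k (Zc π I σ)

end Vale.Agent.P022K.GW
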