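import Vale.Agent.P022K.GW.Ext

/-!
# P022K, block GW: the lemma of Shapiro, the complement of the constants, descent
-/

set_option linter.all false

noncomputable section

namespace Vale.Agent.P022K.GW

open Module

section

variable {G k V X : Type} [Group G] [Field k] [AddCommGroup V] [Module k V]

theorem fn_ap (B : Subgroup G) (σ : Representation k G V) (g : G) (f : G ⧸ B → V) (x : G ⧸ B) :
    fn B σ g f x = σ g (f (g⁻¹ • x)) := rfl

theorem smul_one_of {B : Subgroup G} {b : G} (hb : b ∈ B) :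
    b • ((1 : G) : G ⧸ B) = ((1 : G) : G ⧸ B) := by
  rw [MulAction.Quotient.smul_mk, QuotientGroup.eq]; simpa using hb

theorem out_one (B : Subgroup G) : ((1 : G) : G ⧸ B).out ∈ B := by
  have := QuotientGroup.eq.1 (QuotientGroup.out_eq' ((1 : G) : G ⧸ B)).symm
  simpa using this

theorem out_smul (B : Subgroup G) (y : G ⧸ B) : y.out • ((1 : G) : G ⧸ B) = y := by
  rw [MulAction.Quotient.smul_mk, smul_eq_mul, mul_one, QuotientGroup.out_eq']

theorem fo_res {π : G →* Equiv.Perm X} (B : Subgroup G) [Finite (G ⧸ B)]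
    (h : ∃ s : Finset X, ∀ x, ∃ y ∈ s, ∃ g, π g y = x) :
    ∃ s : Finset X, ∀ x, ∃ y ∈ s, ∃ g, (π.comp B.subtype) g y = x := by
  classical
  obtain ⟨s, h⟩ := h
  have := Fintype.ofFinite (G ⧸ B)
  refine ⟨(s ×ˢ (Finset.univ : Finset (G ⧸ B))).image fun t => π t.2.out⁻¹ t.1, fun x => ?_⟩
  obtain ⟨y, hy, g, rfl⟩ := h x
  refine ⟨_, Finset.mem_image.2 ⟨(y, (g⁻¹ : G)), by simp [hy], rfl⟩,
    ⟨g * ((g⁻¹ : G) : G ⧸ B).out, ?_⟩, ?_⟩
  · simpa using QuotientGroup.eq.1 (QuotientGroup.out_eq' ((g⁻¹ : G) : G ⧸ B)).symm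
  · show π (g * _) _ = _
    rw [pi_mul, pi_inv']

theorem tw_fn (χ : G →* kˣ) (B : Subgroup G) (σ : Representation k G V) :
    tw χ (fn B σ) = fn B (tw χ σ) := rfl

/-- equivariant functions with values in the induced module -/
theorem fx_fn {Y : Type} (π : G →* Equiv.Perm Y) (B : Subgroup G) (σ : Representation k G V) :
    Nonempty (Fx π (fn B σ) ≃ₗ[k] Fx (π.comp B.subtype) (σ.comp B.subtype)) := by
  let ev : (G ⧸ B → V) →ₗ[k] V := LinearMap.proj ((1 : G) : G ⧸ B)
  have h : ∀ f ∈ Fx π (fn B σ), ev.compLeft Y f ∈ Fx (π.comp B.subtype) (σ.comp B.subtype) := by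
    intro f hf g y
    show f (π g y) _ = σ g (f y _)
    rw [hf, fn_ap, smul_one_of (inv_mem g.2)]
  refine ⟨LinearEquiv.ofBijective ((ev.compLeft Y).restrict h) ⟨?_, fun f => ?_⟩⟩
  · rw [injective_iff_map_eq_zero]
    intro f hf
    refine Subtype.ext (funext fun y => funext fun c => ?_)
    have h0 : ∀ y, f.1 y ((1 : G) : G ⧸ B) = 0 := congrFun (congrArg Subtype.val hf)
    rw [← pi_inv' π c.out y, f.2, fn_ap, inv_smul_eq_iff.2 (out_smul B c).symm, h0, map_zero]
    rfl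
  · refine ⟨⟨fun y c => σ c.out (f.1 (π c.out⁻¹ y)), fun g y => funext fun c => ?_⟩,
      Subtype.ext (funext fun y => ?_)⟩
    · obtain ⟨c, rfl⟩ := (MulAction.toPerm g).surjective c
      show σ (g • c).out (f.1 (π (g • c).out⁻¹ (π g y))) = _
      rw [fn_ap]
      show _ = σ g (σ (g⁻¹ • g • c).out (f.1 (π (g⁻¹ • g • c).out⁻¹ y)))
      rw [inv_smul_smul, ← ap_mul, ← out_be, ap_mul]
      congr 1
      refine Eq.trans ?_ (f.2 (be B g c) _)
      show _ = f.1 (π (be B g c : G) _)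
      rw [← pi_mul, ← pi_mul, be_coe, mul_inv_cancel_right]
    · show σ _ (f.1 (π _ y)) = _
      refine (f.2 ⟨_, out_one B⟩ _).symm.trans ?_
      exact congrArg f.1 (pi_inv' π _ _)

variable [TopologicalSpace G] [IsTopologicalGroup G] {π : G →* Equiv.Perm X} {I : Set G}
  {σ : Representation k G V}

theorem Zc.res {a : X → V} (ha : a ∈ Zc π I σ) (B : Subgroup G) :
    a ∈ Zc (π.comp B.subtype) (B.subtype ⁻¹' I) (σ.comp B.subtype) := by
  obtain ⟨c, h, e⟩ := ha
  exact ⟨_, h.res B, fun g x => e g x⟩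

theorem Z2.res {e : G → X → V} (he : e ∈ Z2 π I σ) (B : Subgroup G) :
    (fun g : B => e g) ∈ Z2 (π.comp B.subtype) (B.subtype ⁻¹' I) (σ.comp B.subtype) := by
  obtain ⟨⟨U, hU, u⟩, z, ⟨W, hW, h⟩, f⟩ := he
  exact ⟨⟨_, hU.res0 B, fun w hw g x => u w hw g x⟩, fun g g' => z g g',
    ⟨_, hW.res B, fun w hw g g' => h w hw g g'⟩, fun g g' x => f g g' x⟩

theorem B2.res {e : G → X → V} (he : e ∈ B2 π I σ) (B : Subgroup G) :
    (fun g : B => e g) ∈ B2 (π.comp B.subtype) (B.subtype ⁻¹' I) (σ.comp B.subtype) := by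
  obtain ⟨b, a, h, ⟨U, hU, u⟩, f⟩ := he
  exact ⟨_, a, h.res B, ⟨_, hU.res0 B, fun w hw x => u w hw x⟩, fun g x => f g x⟩

theorem Un.res (h : Un I σ) (B : Subgroup G) : Un (B.subtype ⁻¹' I) (σ.comp B.subtype) := by
  obtain ⟨W, hW, h⟩ := h
  exact ⟨_, hW.res B, fun w hw => h w hw⟩

theorem Ok.res [CompactSpace G] (h : Ok π I) {B : Subgroup G} (hB : IsOpen (B : Set G)) :
    Ok (π.comp B.subtype) (B.subtype ⁻¹' I) :=
  ⟨h.ne, fun g i hi => h.cj g i hi, by have := fin_quo hB; exact fo_res B h.fin⟩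

end

theorem shp : SHP := by
  intro G k V X _ _ _ _ _ _ _ _ π I σ B ho hσ hB hIB
  classical
  have := fin_quo hB
  have := Fintype.ofFinite (G ⧸ B)
  have := ho.ne
  have hc := ad_core ho.cj hB hIB
  have hu : Un I (fn B σ) := by
    obtain ⟨W, hW, h⟩ := hσ
    refine ⟨_, hW.inf hc, fun w hw => LinearMap.ext fun f => funext fun x => ?_⟩
    rw [fn_ap, h w hw.1, fix_quo fun g => B.normalCore_le (hc.cj (inv_mem hw.2) g)]; rfl
  let ev : (G ⧸ B → V) →ₗ[k] V := LinearMap.proj ((1 : G) : G ⧸ B)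
  have hev : ∀ (g : B) f, ev (((fn B σ).comp B.subtype) g f) = (σ.comp B.subtype) g (ev f) := by
    intro g f
    show σ g (f ((g : G)⁻¹ • _)) = σ g (f _)
    rw [smul_one_of (inv_mem g.2)]
  let inc : V →ₗ[k] G ⧸ B → V := LinearMap.single k (fun _ => V) ((1 : G) : G ⧸ B)
  have hinc : ∀ (g : B) v, inc ((σ.comp B.subtype) g v) = ((fn B σ).comp B.subtype) g (inc v) := by
    intro g v
    funext x
    show Pi.single (M := fun _ => V) _ (σ g v) x =
      σ g (Pi.single (M := fun _ => V) _ v ((g : G)⁻¹ • x))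
    by_cases h : x = ((1 : G) : G ⧸ B)
    · rw [h, smul_one_of (inv_mem g.2), Pi.single_eq_same, Pi.single_eq_same]
    · rw [Pi.single_eq_of_ne h, Pi.single_eq_of_ne, map_zero]
      intro e
      exact h ((inv_smul_eq_iff.1 e).trans (smul_one_of g.2))
  refine ⟨ho.res hB, hσ.res B, hu, fun f1 => ?_, fun f1 => ?_, fun Y πy => fx_fn πy B σ⟩
  · let q : Zc π I (fn B σ) →ₗ[k] Zc (π.comp B.subtype) (B.subtype ⁻¹' I) (σ.comp B.subtype) :=
      (ev.compLeft X).restrict fun a ha => Zc.map ev hev (Zc.res ha B)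
    let i : LinearMap.ker ev →ₗ[k] Zc π I (fn B σ) :=
      ((LinearMap.pi fun _ => LinearMap.id).comp (LinearMap.ker ev).subtype).codRestrict _
        fun f => Zc.cst hu f.1
    have hk : ∀ a, q a = 0 ↔ ∃ f, i f = a := fun a => by
      constructor
      · intro ha
        have h0 : ∀ y, a.1 y ((1 : G) : G ⧸ B) = 0 := congrFun (congrArg Subtype.val ha)
        obtain ⟨c, -, e⟩ := a.2
        have h1 : ∀ y d, a.1 y d = c d.out d := fun y d => by
          rw [← pi_inv' π d.out y, e, Pi.add_apply, fn_ap,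
            inv_smul_eq_iff.2 (out_smul B d).symm, h0, map_zero, add_zero]
        obtain ⟨x⟩ := this
        exact ⟨⟨a.1 x, h0 x⟩, Subtype.ext (funext fun y => funext fun d =>
          (h1 x d).trans (h1 y d).symm)⟩
      · rintro ⟨f, rfl⟩
        exact Subtype.ext (funext fun y => f.2)
    have hi : Function.Injective i := fun a b e => by
      obtain ⟨x⟩ := this
      exact Subtype.ext (congrFun (congrArg Subtype.val e) x)
    have hq : Function.Surjective q := fun a => by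
      obtain ⟨c, ⟨W, hW, h⟩, e⟩ := a.2
      obtain ⟨W', hW', k'⟩ := ad_up ho.cj hB hIB hW
      have m1 : (fun y d => σ d.out (a.1 (π d.out⁻¹ y))) ∈ Zc π I (fn B σ) := by
        refine ⟨fun g d => σ d.out (c (be B g (g⁻¹ • d))), ⟨W', hW', fun w hw g => ?_⟩,
          fun g y => funext fun d => ?_⟩
        · have hw' : ∀ g : G, g⁻¹ * w * g ∈ B := fun g => (k' w hw g).1
          funext d
          beta_reduce
          rw [mul_inv_rev, mul_smul, fix_quo fun g => (k' _ (inv_mem hw) g).1, be_w hw',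
            h _ (k' w hw _).2]
        · obtain ⟨d, rfl⟩ := (MulAction.toPerm g).surjective d
          show σ (g • d).out (a.1 (π (g • d).out⁻¹ (π g y))) =
            σ (g • d).out (c (be B g (g⁻¹ • g • d))) +
              σ g (σ (g⁻¹ • g • d).out (a.1 (π (g⁻¹ • g • d).out⁻¹ y)))
          rw [inv_smul_smul, ← ap_mul σ g, ← out_be, ap_mul, ← map_add]
          congr 1
          refine Eq.trans ?_ (e (be B g d) _)
          show _ = a.1 (π (be B g d : G) _)
          rw [← pi_mul, ← pi_mul, be_coe, mul_inv_cancel_right]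
      refine ⟨⟨_, add_mem m1 (Zc.cst hu fun _ => c ⟨_, out_one B⟩)⟩,
        Subtype.ext (funext fun y => ?_)⟩
      show σ _ (a.1 (π _ y)) + c _ = _
      rw [add_comm]
      refine (e ⟨_, out_one B⟩ _).symm.trans ?_
      exact congrArg a.1 (pi_inv' π _ _)
    have f2 := fin_ex i q fun a => (hk a).1
    have e1 := rk_ex i q hi hq hk
    have e2 := ev.finrank_range_add_finrank_ker
    rw [LinearMap.range_eq_top.2 (fun v => ⟨fun _ => v, rfl⟩), finrank_top] at e2
    exact ⟨f2, by omega⟩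
  · let t₀ : Z2 π I (fn B σ) →ₗ[k] Z2 (π.comp B.subtype) (B.subtype ⁻¹' I) (σ.comp B.subtype) :=
      (((ev.compLeft X).compLeft B).comp (LinearMap.funLeft k _ (Subtype.val : B → G))).restrict
        fun e he => Z2.map ev hev (Z2.res he B)
    let t : H2 π I (fn B σ) →ₗ[k] H2 (π.comp B.subtype) (B.subtype ⁻¹' I) (σ.comp B.subtype) :=
      Submodule.mapQ _ _ t₀ fun e he => B2.map ev hev (B2.res he B)
    have ht : Function.Injective t := by
      rw [injective_iff_map_eq_zero]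
      intro a ha
      obtain ⟨e, rfl⟩ := Submodule.Quotient.mk_surjective _ a
      rw [show t (Submodule.Quotient.mk e) = Submodule.Quotient.mk (t₀ e) from rfl,
        Submodule.Quotient.mk_eq_zero] at ha
      refine (Submodule.Quotient.mk_eq_zero _).2
        (cOR G k _ X π I _ B (inc.comp ev) ho hu hB hIB ⟨fun b hb => ?_, ‹_›, ?_⟩ e.1 e.2
          (B2.map inc hinc ha))
      · exact LinearMap.ext fun f =>
          (hinc ⟨b, hb⟩ (ev f)).symm.trans (congrArg inc (hev ⟨b, hb⟩ f).symm)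
      · refine LinearMap.ext fun f => funext fun x => ?_
        rw [LinearMap.sum_apply, Finset.sum_apply, Finset.sum_eq_single x]
        · show σ _ (Pi.single (M := fun _ => V) _ (σ _ (f _)) (_ • x)) = f x
          rw [inv_smul_eq_iff.2 (out_smul B x).symm, Pi.single_eq_same, ap_inv', inv_inv, out_smul]
        · intro y _ hy
          show σ _ (Pi.single (M := fun _ => V) _ (σ _ (f _)) (_ • x)) = 0
          rw [Pi.single_eq_of_ne, map_zero]
          intro e
          exact hy ((inv_smul_eq_iff.1 e).trans (out_smul B y)).symm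
        · exact fun h => (h (Finset.mem_univ _)).elim
    exact ⟨Module.Finite.of_injective t ht, LinearMap.finrank_le_finrank_of_injective ht⟩

/-! ### the complement of the constants -/

section

variable {G V : Type} [Group G] [AddCommGroup V]

open Classical in
/-- the sum over a fundamental domain -/
theorem sum_dom {U H B : Subgroup G} [U.Normal] [Fintype (G ⧸ U)] [Fintype (G ⧸ H)] (h1 : U ≤ H)
    (h2 : H ≤ B) (h3 : ∀ g, g ∉ B → ∀ h ∈ H, g⁻¹ * h * g ∈ B → h ∈ U) (x : G ⧸ B)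
    (φ : G ⧸ B → V) (hφ : φ x = 0) :
    ∑ g : G ⧸ U, (if (Quotient.mk (MulAction.orbitRel H (G ⧸ B)) (g.out⁻¹ • x)).out = g.out⁻¹ • x
      then φ (g.out • ((1 : G) : G ⧸ B)) else 0) =
      ∑ t : G ⧸ H, φ (t.out • ((1 : G) : G ⧸ B)) := by
  rw [← Finset.sum_fiberwise Finset.univ (Subgroup.quotientMapOfLE h1)]
  refine Finset.sum_congr rfl fun t _ => ?_
  have hf : ∀ g : G ⧸ U, Subgroup.quotientMapOfLE h1 g = t → t.out⁻¹ * g.out ∈ H := fun g hg => by
    rw [← QuotientGroup.eq, QuotientGroup.out_eq', ← hg]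
    conv_lhs => rw [← QuotientGroup.out_eq' g]
    rfl
  have h1' : ∀ g : G, t.out⁻¹ * g ∈ H →
      g • ((1 : G) : G ⧸ B) = t.out • ((1 : G) : G ⧸ B) := fun g hg => by
    rw [← mul_inv_cancel_left t.out g, mul_smul, smul_one_of (h2 hg)]
  by_cases hx : t.out • ((1 : G) : G ⧸ B) = x
  · rw [hx, hφ]
    refine Finset.sum_eq_zero fun g hg => ?_
    rw [h1' _ (hf g (Finset.mem_filter.1 hg).2), hx, hφ, ite_self]
  have hr : ∀ g : G, t.out⁻¹ * g ∈ H → Quotient.mk (MulAction.orbitRel H (G ⧸ B)) (g⁻¹ • x) =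
      Quotient.mk (MulAction.orbitRel H (G ⧸ B)) (t.out⁻¹ • x) := fun g hg => by
    refine Quotient.sound ⟨⟨_, inv_mem hg⟩, ?_⟩
    show (t.out⁻¹ * g)⁻¹ • t.out⁻¹ • x = _
    rw [← mul_smul]; congr 1; group
  obtain ⟨h0, e0⟩ := Quotient.mk_out (s := MulAction.orbitRel H (G ⧸ B)) (t.out⁻¹ • x)
  replace e0 : (h0 : G) • t.out⁻¹ • x = _ := e0
  have hU : ∀ u ∈ U, ∀ y : G ⧸ B, u • y = y := fun u hu =>
    fix_quo fun g => h2 (h1 (by simpa using ‹U.Normal›.conj_mem u hu g⁻¹))
  obtain ⟨u, hu⟩ := QuotientGroup.mk_out_eq_mul U (t.out * (h0 : G)⁻¹)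
  have m0 : t.out⁻¹ * ((t.out * (h0 : G)⁻¹ : G) : G ⧸ U).out ∈ H := by
    rw [hu, mul_assoc, inv_mul_cancel_left]
    exact mul_mem (inv_mem h0.2) (h1 u.2)
  rw [Finset.sum_eq_single ((t.out * (h0 : G)⁻¹ : G) : G ⧸ U)]
  · rw [if_pos, h1' _ m0]
    rw [hr _ m0, ← e0, hu, mul_inv_rev, mul_smul, hU _ (inv_mem u.2), mul_inv_rev, inv_inv,
      mul_smul]
  · intro g hg hne
    refine if_neg fun e => hne ?_
    have m := hf g (Finset.mem_filter.1 hg).2
    rw [hr _ m, ← e0] at e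
    rw [← QuotientGroup.out_eq' g, eq_comm, QuotientGroup.eq]
    refine h3 (g.out⁻¹ • x).out (fun hb => hx ?_) _ ?_ ?_
    · rw [← h1' _ m, ← smul_one_of hb, out_smul, smul_inv_smul]
    · rw [mul_inv_rev, inv_inv, mul_assoc]
      exact mul_mem h0.2 m
    · rw [mul_assoc, ← QuotientGroup.eq, QuotientGroup.out_eq', ← smul_eq_mul,
        ← MulAction.Quotient.smul_mk, QuotientGroup.out_eq', ← mul_smul, mul_inv_cancel_right,
        mul_inv_rev, inv_inv, mul_smul, e]
  · intro h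
    refine (h (Finset.mem_filter.2 ⟨Finset.mem_univ _, ?_⟩)).elim
    rw [Subgroup.quotientMapOfLE_apply_mk, ← QuotientGroup.out_eq' t, QuotientGroup.eq,
      QuotientGroup.out_eq']
    simpa using h0.2

end

theorem sTB : STB := by
  intro G k V _ _ _ _ _ p _ _ U H B _ σ hU hT hσ
  classical
  have : U.FiniteIndex := ⟨hU⟩
  have : H.FiniteIndex := Subgroup.finiteIndex_of_le hT.le
  have : B.FiniteIndex := Subgroup.finiteIndex_of_le hT.le'
  have := Fintype.ofFinite (G ⧸ U)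
  have := Fintype.ofFinite (G ⧸ H)
  have := Fintype.ofFinite (G ⧸ B)
  have hB : (B.index : k) ≠ 0 := cast_ne (Subgroup.index_dvd_of_le hT.le') hT.idx
  let i : V →ₗ[k] G ⧸ B → V := LinearMap.pi fun _ => LinearMap.id
  have hi : ∀ g x, i (σ g x) = fn B σ g (i x) := fun _ _ => rfl
  have hst : ∀ g, LinearMap.range i ≤ (LinearMap.range i).comap (fn B σ g) := by
    rintro g _ ⟨v, rfl⟩
    exact ⟨_, hi g v⟩
  let μ := (fn B σ).quotient (LinearMap.range i) hst
  have hμ : ∀ g f, μ g (Submodule.Quotient.mk f) = Submodule.Quotient.mk (fn B σ g f) :=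
    fun _ _ => rfl
  let D : G ⧸ B → Prop := fun z => (Quotient.mk (MulAction.orbitRel H (G ⧸ B)) z).out = z
  let ε₀ : (G ⧸ B → V) →ₗ[k] G ⧸ B → V := LinearMap.pi fun z =>
    if D z then (LinearMap.proj z : (G ⧸ B → V) →ₗ[k] V) - LinearMap.proj ((1 : G) : G ⧸ B) else 0
  have hε : ∀ f z, ε₀ f z = if D z then f z - f ((1 : G) : G ⧸ B) else 0 := fun f z => by
    show (if D z then _ else _ : (G ⧸ B → V) →ₗ[k] V) f = _
    split_ifs <;> rfl
  let ε := (LinearMap.range i).mapQ (LinearMap.range i) ε₀ (by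
    rintro _ ⟨v, rfl⟩
    refine ⟨0, funext fun z => ?_⟩
    rw [hε]
    show 0 = if D z then v - v else 0
    simp)
  have hu : ∀ u ∈ U, μ u = 1 := fun u hu => by
    refine LinearMap.ext fun a => ?_
    obtain ⟨f, rfl⟩ := Submodule.Quotient.mk_surjective _ a
    rw [hμ]
    refine congrArg _ (funext fun x => ?_)
    rw [fn_ap, hσ u hu, fix_quo fun g => hT.le' (hT.le
      (by simpa using ‹U.Normal›.conj_mem _ (inv_mem hu) g⁻¹))]
    rfl
  refine ⟨_, inferInstance, inferInstance, μ, i, (LinearMap.range i).mkQ,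
    (B.index : k)⁻¹ • ∑ x : G ⧸ B, LinearMap.proj x,
    ⟨fun a b e => congrFun e ((1 : G) : G ⧸ B), Submodule.mkQ_surjective _,
      fun v => Submodule.Quotient.mk_eq_zero _, hi, fun _ _ => rfl⟩, fun v => ?_, fun g f => ?_,
    hu, (H.index : k)⁻¹ • ε, fun u h => by rw [hu u h, one_mul, mul_one], ‹_›, ?_⟩
  · rw [LinearMap.smul_apply, LinearMap.sum_apply]
    show _ • ∑ x : G ⧸ B, v = v
    rw [Finset.sum_const, Finset.card_univ, ← Nat.cast_smul_eq_nsmul k, smul_smul,
      ← Nat.card_eq_fintype_card, ← Subgroup.index, inv_mul_cancel₀ hB, one_smul]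
  · rw [LinearMap.smul_apply, LinearMap.smul_apply, LinearMap.sum_apply, LinearMap.sum_apply,
      map_smul, map_sum]
    congr 1
    exact sum_sh B g⁻¹ fun x => σ g (f x)
  · refine LinearMap.ext fun a => ?_
    obtain ⟨f, rfl⟩ := Submodule.Quotient.mk_surjective _ a
    have e1 : ∀ g : G, (μ g * (H.index : k)⁻¹ • ε * μ g⁻¹) (Submodule.Quotient.mk f) =
        (LinearMap.range i).mkQ ((H.index : k)⁻¹ • fn B σ g (ε₀ (fn B σ g⁻¹ f))) := fun g => by
      simp only [Module.End.mul_apply, LinearMap.smul_apply, map_smul]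
      rfl
    rw [LinearMap.sum_apply]
    simp only [e1]
    rw [← map_sum, ← Finset.smul_sum]
    refine (Submodule.Quotient.eq _).2
      ⟨-((H.index : k)⁻¹ • ∑ t : G ⧸ H, f (t.out • ((1 : G) : G ⧸ B))), funext fun x => ?_⟩
    have e2 := sum_dom hT.le hT.le' hT.ti x (fun y => f x - f y) (sub_self _)
    have e3 : ∀ g : G, fn B σ g (ε₀ (fn B σ g⁻¹ f)) x =
        if D (g⁻¹ • x) then f x - f (g • ((1 : G) : G ⧸ B)) else 0 := fun g => by
      rw [fn_ap, hε]
      split_ifs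
      · rw [fn_ap, fn_ap, map_sub, ap_inv', ap_inv', inv_inv, smul_inv_smul]
      · exact map_zero _
    rw [Pi.sub_apply, Pi.smul_apply, Finset.sum_apply]
    simp only [e3]
    rw [e2, Finset.sum_sub_distrib, Finset.sum_const, Finset.card_univ,
      ← Nat.cast_smul_eq_nsmul k, smul_sub, smul_smul, ← Nat.card_eq_fintype_card,
      ← Subgroup.index, inv_mul_cancel₀ hT.idx, one_smul]
    show -_ = _
    abel

/-! ### fewer framed places -/

theorem enl : ENL := by
  intro G k V X X' _ _ _ _ _ _ _ _ π π' j I I' σ ho ho' hI hσ hj he hφ f1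
  classical
  have := ho'.ne
  have := obs_fin ho.fin
  obtain ⟨x0⟩ := ho'.ne
  let R := {o : Quotient (obs π) // o.out ∉ Set.range j}
  choose φ hφ hg using fun o : R => hφ o.1.out o.2
  choose γ hγ using obs_out π
  let c : Zc π' I' σ →ₗ[k] G → V :=
    { toFun := fun a g => a.1 (π' g x0) - σ g (a.1 x0)
      map_add' := fun a b => funext fun g => by
        simp only [Submodule.coe_add, Pi.add_apply, map_add]; abel
      map_smul' := fun r a => funext fun g => by
        simp only [Submodule.coe_smul, Pi.smul_apply, map_smul, smul_sub, RingHom.id_apply] }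
  have hc : ∀ a, A1 I' (c a) ∧ ∀ g x, a.1 (π' g x) = c a g + σ g (a.1 x) := fun a => by
    obtain ⟨d, hd, e⟩ := a.2
    have : c a = d := funext fun g => by
      show a.1 _ - σ g _ = _
      rw [e, add_sub_cancel_right]
    rw [this]; exact ⟨hd, e⟩
  let Φ : (Zc π' I' σ × (R → V)) →ₗ[k] R → V :=
    { toFun := fun t o => c t.1 (φ o) - (t.2 o - σ (φ o) (t.2 o))
      map_add' := fun a b => funext fun g => by
        simp only [Prod.fst_add, Prod.snd_add, Pi.add_apply, map_add]; abel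
      map_smul' := fun r a => funext fun g => by
        simp only [Prod.smul_fst, Prod.smul_snd, Pi.smul_apply, map_smul, smul_sub,
          RingHom.id_apply] }
  have hn : ∀ x g, π g x ∈ Set.range j ↔ x ∈ Set.range j := fun x g =>
    ⟨fun ⟨y, e⟩ => ⟨π' g⁻¹ y, by rw [he, e, pi_inv]⟩, fun ⟨y, e⟩ => ⟨π' g y, by rw [he, e]⟩⟩
  have hR : ∀ x, x ∉ Set.range j → (Quotient.mk (obs π) x).out ∉ Set.range j := fun x hx h =>
    hx (by rw [← hγ x, hn]; exact h)
  let ex : (Zc π' I' σ × (R → V)) →ₗ[k] X → V :=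
    { toFun := fun t x => if h : x ∈ Set.range j then t.1.1 h.choose
        else c t.1 (γ x) + σ (γ x) (t.2 ⟨_, hR x h⟩)
      map_add' := fun a b => funext fun g => by
        simp only [Prod.fst_add, Prod.snd_add, Submodule.coe_add, Pi.add_apply, map_add]
        split_ifs
        · rfl
        · abel
      map_smul' := fun r a => funext fun g => by
        simp only [Prod.smul_fst, Prod.smul_snd, Submodule.coe_smul, Pi.smul_apply, map_smul,
          RingHom.id_apply]
        split_ifs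
        · rfl
        · rw [smul_add] }
  have x1 : ∀ t y, ex t (j y) = t.1.1 y := fun t y => by
    have h : j y ∈ Set.range j := ⟨y, rfl⟩
    exact (dif_pos h).trans (congrArg _ (hj h.choose_spec))
  have x2 : ∀ t x (h : x ∉ Set.range j), ex t x = c t.1 (γ x) + σ (γ x) (t.2 ⟨_, hR x h⟩) :=
    fun t x h => dif_neg h
  have hm : ∀ t ∈ LinearMap.ker Φ, ex t ∈ Zc π I σ := fun t ht => by
    have cm := coc_mul (hc t.1).2
    refine ⟨c t.1, (hc t.1).1.mono hI, fun g x => ?_⟩
    by_cases h : x ∈ Set.range j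
    · obtain ⟨y, rfl⟩ := h
      rw [← he, x1, x1, (hc t.1).2]
    have k1 : ∀ (o : R) d, π d o.1.out = o.1.out → c t.1 d = t.2 o - σ d (t.2 o) := by
      intro o d hd
      obtain ⟨W, hW, w1⟩ := (hc t.1).1
      obtain ⟨W', hW', w2⟩ := hσ
      obtain ⟨n, hn⟩ := hg o _ (hW.inf hW') d hd
      rw [← mul_inv_cancel_left (φ o ^ n) d, w1 _ hn.1, map_mul σ, w2 _ hn.2, mul_one]
      clear hn
      induction n with
      | zero => rw [pow_zero, coc_one (hc t.1).2, ap_one, sub_self]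
      | succ n ih =>
        have : c t.1 (φ o) = _ := sub_eq_zero.1 (congrFun ht o)
        rw [pow_succ, cm, ih, this, map_sub, ap_mul]; abel
    have h' : π g x ∉ Set.range j := fun e => h ((hn x g).1 e)
    have e0 : (⟨_, hR _ h'⟩ : R) = ⟨_, hR x h⟩ := Subtype.ext (obs_mk π g x)
    have e1 := k1 ⟨_, hR x h⟩ ((γ (π g x))⁻¹ * (g * γ x)) (by
      show π _ (Quotient.mk (obs π) x).out = _
      rw [pi_mul, pi_mul, hγ, map_inv, Equiv.Perm.inv_eq_iff_eq]
      show _ = π _ (Quotient.mk (obs π) x).out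
      rw [← obs_mk π g, hγ])
    have e2 := cm (γ (π g x)) ((γ (π g x))⁻¹ * (g * γ x))
    rw [mul_inv_cancel_left, e1, map_sub, ← ap_mul, mul_inv_cancel_left, cm, ap_mul,
      ← sub_eq_zero] at e2
    rw [x2 _ _ h', x2 _ _ h, e0, map_add, ← sub_eq_zero, ← neg_eq_zero, ← e2]
    abel
  have hi : Function.Injective (ex.restrict hm) := by
    rw [injective_iff_map_eq_zero]
    intro t ht
    have h0 : ∀ x, ex t.1 x = 0 := congrFun (congrArg Subtype.val ht)
    have h1 : t.1.1 = 0 := Subtype.ext (funext fun y => (x1 _ y).symm.trans (h0 _))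
    refine Subtype.ext (Prod.ext h1 (funext fun o => ?_))
    have := h0 o.1.out
    rw [x2 _ _ o.2, h1, map_zero, Pi.zero_apply, zero_add] at this
    have e0 : (⟨_, hR _ o.2⟩ : R) = o := Subtype.ext o.1.out_eq
    rw [e0] at this
    rw [← ap_inv σ (γ o.1.out) (t.1.2 o), this, map_zero]; rfl
  have f2 := Module.Finite.of_injective _ hi
  have hx : ∀ b, Φ b = 0 → ∃ a, (LinearMap.ker Φ).subtype a = b := fun b hb => ⟨⟨b, hb⟩, rfl⟩
  have f3 := fin_ex (A := LinearMap.ker Φ) (LinearMap.ker Φ).subtype Φ hx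
  have f4 := Module.Finite.of_surjective (LinearMap.fst k (Zc π' I' σ) (R → V))
    LinearMap.fst_surjective
  have e1 := rk_ex_le (A := LinearMap.ker Φ) (LinearMap.ker Φ).subtype Φ hx
  have e2 := LinearMap.finrank_le_finrank_of_injective hi
  rw [finrank_prod] at e1
  exact ⟨f4, by omega⟩

/-! ### descent -/

theorem rk_prod {k A B C : Type} [Field k] [AddCommGroup A] [Module k A] [AddCommGroup B]
    [Module k B] [AddCommGroup C] [Module k C] (h : Nonempty (A ≃ₗ[k] B × C)) [Module.Finite k A] :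
    Module.Finite k B ∧ Module.Finite k C ∧ finrank k A = finrank k B + finrank k C := by
  obtain ⟨e⟩ := h
  have := Module.Finite.equiv e
  have f1 := Module.Finite.of_surjective (LinearMap.fst k B C) LinearMap.fst_surjective
  have f2 := Module.Finite.of_surjective (LinearMap.snd k B C) LinearMap.snd_surjective
  exact ⟨f1, f2, by rw [e.finrank_eq, finrank_prod]⟩

theorem tw_sp {G k N V : Type} [Group G] [Field k] [AddCommGroup N] [Module k N] [AddCommGroup V]
    [Module k V] {ν : Representation k G N} {σ : Representation k G V} {r : V →ₗ[k] N}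
    (h : ∀ g v, r (σ g v) = ν g (r v)) (χ : G →* kˣ) (g : G) (v : V) :
    r (tw χ σ g v) = tw χ ν g (r v) := by
  show r ((χ g : k) • σ g v) = (χ g : k) • ν g (r v)
  rw [map_smul, h]

theorem dsc1 (hP : PRJ1) : DSC1 := by
  intro G k V X Q Y _ _ _ _ _ _ _ _ _ p _ _ π πq πi I ω U H B σ ho hq hi hU hω hσ hT hE ⟨f1, h1⟩
  have := hU.nor
  have := fin_quo hU.opn
  have hUB := hT.le.trans hT.le'
  have hB : IsOpen (B : Set G) := Subgroup.isOpen_mono hUB hU.opn
  have := fin_quo hB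
  obtain ⟨M, _, _, μ, i, q, r, hx, hr, hr', hμ⟩ :=
    sTB G k V p U H B σ Subgroup.index_ne_zero_of_finite hT hσ
  have := Module.Finite.of_surjective q hx.sur
  obtain ⟨-, -, -, s1, -, s3⟩ := shp G k V X π I σ B ho ⟨U, hU, hσ⟩ hB fun i hi => hUB (hU.inc i hi)
  obtain ⟨f2, e1⟩ := s1 f1
  obtain ⟨p1, -, p3⟩ := spl G k V _ M X π I σ _ μ i q r hx hr hr'
  obtain ⟨-, -, p4⟩ := spl G k V _ M X π I _ _ _ i q r (hx.tw (up ω)⁻¹) hr (tw_sp hr' _)
  obtain ⟨-, l1⟩ := (hP G k M X Q Y p π πq πi I I ω U μ ho ho hq hi hU subset_rfl hω hμ).1 hE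
  obtain ⟨f3, -, e2⟩ := rk_prod p1
  have := fx_fin hi (fn B σ)
  have := fx_fin hq (tw (up ω)⁻¹ (fn B σ))
  have := fx_fin fo_unit (tw (up ω)⁻¹ (fn B σ))
  have e3 := (rk_prod (p3 Y πi)).2.2
  have e4 := (rk_prod (p4 Q πq)).2.2
  have e5 := (rk_prod (p4 Unit 1)).2.2
  have e6 := (s3 Y πi).some.finrank_eq
  have e7 : finrank k (Fx πq (tw (up ω)⁻¹ (fn B σ))) = finrank k (Fx (πq.comp B.subtype)
      (tw ((up ω).comp B.subtype)⁻¹ (σ.comp B.subtype))) :=
    (fx_fn πq B (tw (up ω)⁻¹ σ)).some.finrank_eq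
  have e8 : finrank k (Fx (1 : G →* Equiv.Perm Unit) (tw (up ω)⁻¹ (fn B σ))) =
      h0 (tw ((up ω).comp B.subtype)⁻¹ (σ.comp B.subtype)) :=
    (fx_fn 1 B (tw (up ω)⁻¹ σ)).some.finrank_eq
  have e9 := rk_ex i q hx.inj hx.sur hx.ex
  refine ⟨f3, ?_⟩
  unfold h0 at *
  omega

theorem dsc2 (hP : PRJ2) : DSC2 := by
  intro G k V X Y _ _ _ _ _ _ _ _ _ p _ _ π πi I ω U H B σ n ho hi hU hω hσ hT hE hS ⟨f1, g1, h1⟩
  have := hU.nor
  have := fin_quo hU.opn
  have hUB := hT.le.trans hT.le'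
  have hB : IsOpen (B : Set G) := Subgroup.isOpen_mono hUB hU.opn
  have := fin_quo hB
  obtain ⟨M, _, _, μ, i, q, r, hx, hr, hr', hμ⟩ :=
    sTB G k V p U H B σ Subgroup.index_ne_zero_of_finite hT hσ
  have := Module.Finite.of_surjective q hx.sur
  obtain ⟨-, -, -, s1, s2, s3⟩ :=
    shp G k V X π I σ B ho ⟨U, hU, hσ⟩ hB fun i hi => hUB (hU.inc i hi)
  obtain ⟨f2, e1⟩ := s1 f1
  obtain ⟨g2, e0⟩ := s2 g1
  obtain ⟨p1, p2, p3⟩ := spl G k V _ M X π I σ _ μ i q r hx hr hr'
  obtain ⟨-, -, l1⟩ := hP G k M X Y p π πi I ω U μ ho hi hU hω hμ hE hS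
  obtain ⟨f3, -, e2⟩ := rk_prod p1
  obtain ⟨g3, -, e4⟩ := rk_prod p2
  have := fx_fin hi (fn B σ)
  have e3 := (rk_prod (p3 Y πi)).2.2
  have e6 := (s3 Y πi).some.finrank_eq
  have e9 := rk_ex i q hx.inj hx.sur hx.ex
  exact ⟨f3, g3, by omega⟩

end Vale.Agent.P022K.GW
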