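import Vale.Agent.P022K.GW.Eul
import Vale.Agent.P022K.GW.Shp

/-!
# P022K, block GW: the obstruction space of a projective representation
-/

set_option linter.all false

noncomputable section

namespace Vale.Agent.P022K.GW

open Module

namespace Ob

section

theorem coord0 (p : ℕ) [Fact p.Prime] (N : Type) [AddCommGroup N] [Module (ZMod p) N] [Finite N] :
    ∃ (J : Type) (_ : Finite J), Nonempty (N ≃+ (J → ZMod p)) :=
  ⟨_, inferInstance, ⟨(Module.Free.chooseBasis (ZMod p) N).equivFun.toAddEquiv⟩⟩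

theorem coord (p : ℕ) [Fact p.Prime] (k N : Type) [Field k] [Finite k] [CharP k p] [AddCommGroup N]
    [Module k N] [Module.Finite k N] : ∃ (J : Type) (_ : Finite J), Nonempty (N ≃+ (J → ZMod p)) := by
  have hx : ∀ x : N, p • x = 0 := fun x => by
    rw [← Nat.cast_smul_eq_nsmul k, CharP.cast_eq_zero, zero_smul]
  exact @coord0 p _ N _ (AddCommGroup.zmodModule hx) (Module.finite_of_finite k)

variable {p : ℕ} {N J : Type} [AddCommGroup N] (E : N ≃+ (J → ZMod p))

/-- a coordinate -/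
def co (j : J) : N →+ ZMod p := (Pi.evalAddMonoidHom (fun _ => ZMod p) j).comp E.toAddMonoidHom

theorem ext_co {v w : N} (h : ∀ j, co E j v = co E j w) : v = w := E.injective (funext h)

theorem co_symm (j : J) (f : J → ZMod p) : co E j (E.symm f) = f j :=
  congrFun (E.apply_symm_apply f) j

end

section

variable {G X : Type} [Group G] {π : G →* Equiv.Perm X}

/-- representatives of the orbits which are smooth modulo `W` -/
theorem ex_gam (π : G →* Equiv.Perm X) {U W : Subgroup G} (hn : W.Normal) (hW : W ≤ U) :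
    ∃ (ρ : X → X) (γ : X → G), (∀ x, γ x ∈ U) ∧ (∀ x, π (γ x) (ρ x) = x) ∧
      (∀ u ∈ U, ∀ x, ρ (π u x) = ρ x) ∧ ∀ w ∈ W, ∀ x, (γ x)⁻¹ * γ (π w x) ∈ W := by
  choose a ha using obs_out (π.comp U.subtype)
  choose b hb using obs_out (π.comp W.subtype)
  have e1 : ∀ u ∈ U, ∀ x, Quotient.mk (obs (π.comp U.subtype)) (π u x) = Quotient.mk _ x :=
    fun u hu x => obs_mk (π.comp U.subtype) ⟨u, hu⟩ x
  refine ⟨fun x => (Quotient.mk (obs (π.comp U.subtype)) x).out,
    fun x => b x * a (Quotient.mk (obs (π.comp W.subtype)) x).out,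
    fun x => mul_mem (hW (b x).2) (a _).2, fun x => ?_, fun u hu x => by simp only [e1 u hu],
    fun w hw x => ?_⟩
  · beta_reduce
    rw [pi_mul]
    conv_lhs => rw [← hb x]
    rw [show ∀ y, (π.comp W.subtype) (b x) y = π (b x) y from fun _ => rfl, e1 _ (hW (b x).2),
      show π (b x) _ = x from hb x]
    exact (congrArg _ (ha _)).trans (hb x)
  · beta_reduce
    rw [show Quotient.mk (obs (π.comp W.subtype)) (π w x) = Quotient.mk _ x from
      obs_mk (π.comp W.subtype) ⟨w, hw⟩ x]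
    have := hn.conj_mem' _ (mul_mem (inv_mem (b x).2) (b (π w x)).2)
      (a (Quotient.mk (obs (π.comp W.subtype)) x).out)
    convert this using 1
    group

variable {N : Type} [AddCommGroup N] {U : Subgroup G}

theorem zero_of_add {a : N} (h : a = a + a) : a = 0 := left_eq_add.1 h

theorem add_of [Nonempty X] {e : G → X → N} {b : G → N} {a : X → N}
    (h1 : ∀ u ∈ U, ∀ v ∈ U, ∀ x, e (u * v) x = e u x + e v (π u⁻¹ x))
    (h2 : ∀ u ∈ U, ∀ x, e u x = b u + a x - a (π u⁻¹ x)) :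
    ∀ u ∈ U, ∀ v ∈ U, b (u * v) = b u + b v := fun u hu v hv => by
  obtain ⟨x⟩ := ‹Nonempty X›
  have := h1 u hu v hv x
  rw [h2 _ (mul_mem hu hv), h2 u hu, h2 v hv, mul_inv_rev, pi_mul, ← sub_eq_zero] at this
  rw [← sub_eq_zero, ← this]; abel

variable [TopologicalSpace G] [IsTopologicalGroup G] {I : Set G}

theorem ad_fin {J : Type} [Finite J] {W : J → Subgroup G} (h : ∀ j, Ad I (W j)) :
    Ad I (⨅ j, W j) :=
  ⟨Subgroup.normal_iInf_normal fun j => (h j).nor, by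
    rw [Subgroup.coe_iInf]; exact isOpen_iInter_of_finite fun j => (h j).opn,
    fun i hi => Subgroup.mem_iInf.2 fun j => (h j).inc i hi⟩

/-- a cocycle which vanishes on the stabilisers is a coboundary -/
theorem cob_of {e : G → X → N} (h1 : ∀ u ∈ U, ∀ v ∈ U, ∀ x, e (u * v) x = e u x + e v (π u⁻¹ x))
    (h2 : ∀ u ∈ U, ∀ x, π u x = x → e u x = 0) {W : Subgroup G} (hW : Ad (∅ : Set G) W)
    (h3 : ∀ w ∈ W, w ∈ U → ∀ x, e w x = 0) :
    ∃ a : X → N, S0 (π.comp U.subtype) a ∧ ∀ u ∈ U, ∀ x, e u x = a x - a (π u⁻¹ x) := by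
  obtain ⟨ρ, γ, g1, g2, g3, -⟩ := ex_gam π (U := U) (W := ⊥) inferInstance bot_le
  have k : ∀ u ∈ U, ∀ x, e u x = e (γ x) x - e (γ (π u⁻¹ x)) (π u⁻¹ x) := fun u hu x => by
    have e0 : π (γ x)⁻¹ x = ρ x := by
      rw [map_inv, Equiv.Perm.inv_eq_iff_eq, g2]
    have m := mul_mem (inv_mem (g1 x)) (mul_mem hu (g1 (π u⁻¹ x)))
    have e1 := h1 _ (g1 x) _ m x
    rw [mul_inv_cancel_left, h1 u hu _ (g1 _), e0, h2 _ m (ρ x) (by
      rw [pi_mul, pi_mul, ← g3 _ (inv_mem hu) x, g2, pi_inv', g3 _ (inv_mem hu) x, e0]),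
      add_zero] at e1
    rw [← e1, add_sub_cancel_right]
  refine ⟨fun x => e (γ x) x, ⟨_, hW.res0 U, fun w hw x => ?_⟩, k⟩
  have := k w w.2 (π w x)
  rw [h3 w hw w.2, pi_inv] at this
  exact sub_eq_zero.1 this.symm

end

section

variable {G k N X : Type} [Group G] [TopologicalSpace G] [IsTopologicalGroup G] [Field k]
  [AddCommGroup N] [Module k N] {p : ℕ} [Fact p.Prime] {π : G →* Equiv.Perm X} {I : Set G}
  {U : Subgroup G} {J : Type} (E : N ≃+ (J → ZMod p))

theorem co_comp {S : Type} {A : AddSubgroup (S → ZMod p)} {f : S → N} (hf : f ∈ Co k N A)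
    (t : N →ₗ[k] N) : (fun s => t (f s)) ∈ Co k N A := fun l => hf (l.comp t.toAddMonoidHom)

open Classical in
theorem co_gl {b : G → N} (h1 : ∀ u ∈ U, ∀ v ∈ U, b (u * v) = b u + b v) {W : Subgroup G}
    (hW : Ad I W) (hU : Ad I U) (h2 : ∀ w ∈ W, w ∈ U → b w = 0) {f : X × G → N}
    (h3 : ∀ x g, f (x, g) = if g ∈ U ∧ π g x = x then b g else 0) :
    f ∈ Co k N ((Gl p I U).map (rs p π)) := fun l => by
  refine ⟨fun g => if g ∈ U then l (b g) else 0, ⟨fun g hg h hh => ?_, fun g hg => if_neg hg,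
    _, hW.inf hU, fun w hw => ?_⟩, funext fun ⟨x, g⟩ => ?_⟩
  · simp only [if_pos hg, if_pos hh, if_pos (mul_mem hg hh), h1 g hg h hh, map_add]
  · simp only [h2 w hw.1 hw.2, map_zero, ite_self]
  · show (if π g x = x then (if g ∈ U then l (b g) else 0) else 0) = l (f (x, g))
    rw [h3]
    by_cases e : π g x = x <;> by_cases e' : g ∈ U <;> simp [e, e']

include E

theorem gl_co [Finite J] {f : X × G → N} (hf : f ∈ Co k N ((Gl p I U).map (rs p π))) :
    ∃ b : G → N, (∀ u ∈ U, ∀ v ∈ U, b (u * v) = b u + b v) ∧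
      (∃ W, Ad I W ∧ ∀ w ∈ W, b w = 0) ∧ ∀ x g, π g x = x → f (x, g) = b g := by
  choose b hb e using fun j => hf (co E j)
  choose W hW w using fun j => (hb j).2.2
  refine ⟨fun g => E.symm fun j => b j g, fun u hu v hv => ext_co E fun j => ?_,
    ⟨_, ad_fin hW, fun x hx => ext_co E fun j => ?_⟩, fun x g h => ext_co E fun j => ?_⟩
  · simp only [map_add, co_symm, (hb j).1 u hu v hv]
  · simp only [co_symm, map_zero, w j x (Subgroup.mem_iInf.1 hx j)]
  · rw [co_symm, ← congrFun (e j) (x, g)]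
    exact if_pos h

theorem lo_co {f : X × G → N} (hf : f ∈ Co k N (Lo p π U)) :
    (∀ x, ∀ g ∈ U, ∀ h ∈ U, π g x = x → π h x = x → f (x, g * h) = f (x, g) + f (x, h)) ∧
      (∀ x g, ¬ (g ∈ U ∧ π g x = x) → f (x, g) = 0) ∧ ∀ u ∈ U, ∀ s, f (pj π u s) = f s :=
  ⟨fun x g hg h hh e e' => ext_co E fun j => by
      rw [map_add]; exact (hf (co E j)).1 x g hg h hh e e',
    fun x g hg => ext_co E fun j => by rw [map_zero]; exact (hf (co E j)).2.1 x g hg,
    fun u hu s => ext_co E fun j => (hf (co E j)).2.2.1 u hu s⟩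

theorem lo_unif (k : Type) [Field k] [Module k N] (hL : Finite (Lo p π U)) (hU : Ad I U) :
    ∃ W, Ad (∅ : Set G) W ∧ W ≤ U ∧ ∀ f ∈ Co k N (Lo p π U), ∀ w ∈ W, ∀ x, f (x, w) = 0 := by
  choose W hW w using fun f : Lo p π U => f.2.2.2.2
  exact ⟨_, (ad_fin hW).inf hU.emp, inf_le_right, fun f hf x hx y => ext_co E fun j => by
    rw [map_zero]; exact w ⟨_, hf (co E j)⟩ x (Subgroup.mem_iInf.1 hx.1 _) y⟩

theorem sha [Finite J] [Nonempty X] (hS : Sha2 p π I U) {e : G → X → N} {z : G → G → N}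
    (h1 : S1 π e) (h2 : A2 I z)
    (h3 : ∀ g ∈ U, ∀ h x, e (g * h) x = e g x + e h (π g⁻¹ x) + z g h) :
    ∃ b : G → N, A1 I b ∧ ∀ g ∈ U, ∀ h ∈ U, b (g * h) = b g + b h + z g h := by
  have k : ∀ g ∈ U, ∀ h ∈ U, ∀ l, z h l + z g (h * l) = z (g * h) l + z g h := by
    intro g hg h hh l
    obtain ⟨x⟩ := ‹Nonempty X›
    have e1 := h3 _ (mul_mem hg hh) l x
    rw [mul_assoc, h3 g hg, h3 h hh, h3 g hg, mul_inv_rev, pi_mul, ← sub_eq_zero] at e1
    rw [← sub_eq_zero, ← e1]; abel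
  choose b hb e using fun j => hS (fun g h => co E j (z g h))
    (fun g hg h hh l _ => by rw [← map_add, ← map_add, k g hg h hh]) (h2.comp _) fun x =>
      ⟨fun g => co E j (e g x), h1.imp fun W h => ⟨h.1, fun w hw g => by
        simp only [(h.2 w hw g x).1]⟩, fun g hg h hh e1 e2 => by
        beta_reduce
        rw [h3 g hg, map_add, map_add, show π g⁻¹ x = x from (stb π x).inv_mem e1]⟩
  choose W hW w using hb
  refine ⟨fun g => E.symm fun j => b j g, ⟨_, ad_fin hW, fun x hx g => ext_co E fun j => ?_⟩,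
    fun u hu v hv => ext_co E fun j => ?_⟩
  · simp only [co_symm, w j x (Subgroup.mem_iInf.1 hx j)]
  · simp only [map_add, co_symm, e j u hu v hv]

end

theorem tw_one {G k N : Type} [Group G] [Field k] [AddCommGroup N] [Module k N] {p : ℕ} [CharP k p]
    (ν : Representation k G N) (g : G) (v : N) : tw (up (1 : G →* (ZMod p)ˣ)) ν g v = ν g v := by
  show (((up (1 : G →* (ZMod p)ˣ) : G →* kˣ) g : kˣ) : k) • ν g v = _
  rw [show (up (1 : G →* (ZMod p)ˣ) : G →* kˣ) g = 1 from map_one (Units.map _), Units.val_one,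
    one_smul]

/-- the map from the local characters to the obstruction space -/
theorem main {G k N X : Type} [Group G] [TopologicalSpace G] [IsTopologicalGroup G]
    [CompactSpace G] [Field k] [Finite k] [AddCommGroup N] [Module k N] [Module.Finite k N] {p : ℕ}
    [Fact p.Prime] [CharP k p] {π : G →* Equiv.Perm X} {I : Set G} {U : Subgroup G}
    {ν : Representation k G N} (ho : Ok π I) (hU : Ad I U) (hν : Hig U ν)
    (hL : Finite (Lo p π U)) :
    ∃ Θ : Ci ν (pj π) 1 (Lo p π U) ((Gl p I U).map (rs p π)) →ₗ[k] H2 π I ν,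
      (∀ f, Θ f = 0 ↔ f.1 ∈ Co k N ((Gl p I U).map (rs p π))) ∧
      (Sha2 p π I U → Function.Surjective Θ) := by
  classical
  obtain ⟨J, _, ⟨E⟩⟩ := coord p k N
  have := hU.nor
  have := ho.ne
  obtain ⟨n1, ε, n2, _, n3⟩ := hν
  have n4 : ∀ u ∈ U, ∀ v, ν u v = v := fun u hu v => by rw [n1 u hu]; rfl
  have n5 : ∀ v, ∑ y : G ⧸ U, ν y.out (ε (ν y.out⁻¹ v)) = v := fun v => by
    have := LinearMap.congr_fun n3 v
    simpa only [LinearMap.sum_apply, Module.End.mul_apply, Module.End.one_apply] using this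
  have n6 : ∀ (g : U) v, ε ((ν.comp U.subtype) g v) = (ν.comp U.subtype) g (ε v) := fun g v =>
    (LinearMap.congr_fun (n2 g g.2) v).symm
  obtain ⟨W, hW, lW, w0⟩ := lo_unif E k hL hU
  obtain ⟨ρ, γ, g1, g2, g3, g4⟩ := ex_gam π hW.nor lW
  let d : G → X → G := fun u x => (γ x)⁻¹ * u * γ (π u⁻¹ x)
  have d1 : ∀ u ∈ U, ∀ x, d u x ∈ U := fun u hu x => mul_mem (mul_mem (inv_mem (g1 x)) hu) (g1 _)
  have d2 : ∀ u ∈ U, ∀ x, π (d u x) (ρ x) = ρ x := fun u hu x => by
    show π (_ * _ * _) _ = _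
    rw [pi_mul, pi_mul, ← g3 _ (inv_mem hu) x, g2, pi_inv', g3 _ (inv_mem hu) x, map_inv,
      Equiv.Perm.inv_eq_iff_eq, g2]
  let θ : (X × G → N) → G → X → N := fun f u x => f (ρ x, d u x)
  have t1 : ∀ f ∈ Co k N (Lo p π U), ∀ u ∈ U, ∀ v ∈ U, ∀ x,
      θ f (u * v) x = θ f u x + θ f v (π u⁻¹ x) := fun f hf u hu v hv x => by
    show f (_, d _ _) = f (_, d _ _) + f (_, d _ _)
    rw [g3 _ (inv_mem hu), ← (lo_co E hf).1 _ _ (d1 u hu x) _ (d1 v hv _) (d2 u hu x)
      (by rw [← g3 _ (inv_mem hu) x]; exact d2 v hv _)]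
    congr 2
    simp only [d, mul_inv_rev, pi_mul]
    group
  have t2 : ∀ f ∈ Co k N (Lo p π U), ∀ w ∈ W, ∀ x, θ f w x = 0 := fun f hf w hw x => by
    refine w0 f hf _ ?_ _
    have := mul_mem (hW.cj hw (γ x)) (g4 _ (inv_mem hw) x)
    rwa [mul_assoc _ (γ x), mul_inv_cancel_left] at this
  have t3 : ∀ f ∈ Co k N (Lo p π U), ∀ u ∈ U, ∀ x, π u x = x → θ f u x = f (x, u) := by
    intro f hf u hu x e
    show f (_, _ * _ * γ (π u⁻¹ x)) = _
    rw [show π u⁻¹ x = x from (stb π x).inv_mem e, ← (lo_co E hf).2.2 _ (g1 x), pj_apply, g2]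
    congr 2; group
  have t4 : ∀ f ∈ Co k N (Lo p π U), S1 (π.comp U.subtype) fun u x => ε (θ f u x) := by
    intro f hf
    have a : ∀ w ∈ W, ∀ u ∈ U, ∀ x, θ f (u * w) x = θ f u x := fun w hw u hu x => by
      rw [t1 f hf u hu w (lW hw), t2 f hf w hw, add_zero]
    refine ⟨_, hW.res0 U, fun w hw u x => ⟨congrArg ε (a w hw u u.2 x), congrArg ε ?_⟩⟩
    have := t1 f hf w w.2 _ (mul_mem (inv_mem w.2) u.2) (π w x)
    rw [mul_inv_cancel_left, t2 f hf w hw, zero_add, pi_inv,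
      show (w : G)⁻¹ * u = u * ((u : G)⁻¹ * (w : G)⁻¹ * u) by group,
      a _ (hW.cj (inv_mem (show (w : G) ∈ W from hw)) u) u u.2] at this
    exact this
  have t5 : ∀ f ∈ Co k N (Lo p π U), ∀ (g h : U) x, ε (θ f (g * h : U) x) =
      ε (θ f g x) + ν g (ε (θ f h (π (g⁻¹ : U) x))) := fun f hf g h x => by
    rw [n4 g g.2, ← map_add]
    exact congrArg ε (t1 f hf g g.2 h h.2 x)
  let T : (X × G → N) →ₗ[k] G → X → N :=
    { toFun := fun f => cor π ν U fun u x => ε (θ f u x)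
      map_add' := fun a b => funext fun g => funext fun x => by
        simp only [cor, θ, Pi.add_apply, map_add, Finset.sum_add_distrib]
      map_smul' := fun c a => funext fun g => funext fun x => by
        simp only [cor, θ, Pi.smul_apply, map_smul, Finset.smul_sum, RingHom.id_apply] }
  have hT : ∀ f ∈ Ci ν (pj π) 1 (Lo p π U) ((Gl p I U).map (rs p π)), T f ∈ Z2 π I ν :=
    fun f hf => cor_Z2 hU.opn (t4 f hf.1) (t5 f hf.1)
  refine ⟨(Submodule.mkQ _).comp (T.restrict hT), fun f => ?_, fun hS a => ?_⟩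
  · refine (Submodule.Quotient.mk_eq_zero _).trans ⟨fun h => ?_, fun h => ?_⟩
    · obtain ⟨b, a, ⟨V, hV, b1⟩, -, e⟩ := h
      replace e : ∀ g x, T f.1 g x = _ := e
      have b2 := add_of (π := π) (U := U) (e := T f.1) (b := b) (a := a) (fun u hu v _ x =>
        (cor_coc (e := fun u x => ε (θ f.1 u x)) (t5 _ f.2.1) u v x).trans
          (congrArg _ (n4 u hu _)))
        fun u hu x => by rw [e, n4 u hu]
      have b3 : b 1 = 0 := zero_of_add (by simpa using b2 1 U.one_mem 1 U.one_mem)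
      have m1 := co_gl (k := k) (p := p) (π := π) b2 hV hU
        (fun w hw _ => by rw [← one_mul w, b1 w hw, b3])
        (f := fun s => if s.2 ∈ U ∧ π s.2 s.1 = s.1 then b s.2 else 0) fun _ _ => rfl
      have m2 := Submodule.sum_mem _ fun (y : G ⧸ U) (_ : y ∈ Finset.univ) =>
        co_comp (f.2.2 y.out) (ν y.out * ε * ν y.out⁻¹)
      have m3 := sub_mem m1 m2
      convert m3 using 1
      funext ⟨x, u⟩
      simp only [Pi.sub_apply, Finset.sum_apply, Module.End.mul_apply, tw_one, map_sub, ap_inv,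
        Finset.sum_sub_distrib, n5, pj_apply, inv_inv]
      by_cases h : u ∈ U ∧ π u x = x
      · have e1 := e u x
        rw [n4 u h.1, show π u⁻¹ x = x from (stb π x).inv_mem h.2, add_sub_cancel_right] at e1
        rw [if_pos h, ← e1]
        have e2 : T f.1 u x = _ :=
          cor_core (π := π) (σ := ν) (fun u x => ε (θ f.1 u x)) (fun g => hU.cj h.1 g) x
        simp only [t3 _ f.2.1 _ (hU.cj h.1 _) _ (Cal.fix_iff.2 h.2)] at e2
        rw [e2]; abel
      · have e3 : ∀ g : G, f.1 (π g⁻¹ x, g⁻¹ * u * g) = 0 := fun g =>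
          (lo_co E f.2.1).2.1 _ _ fun k => h ⟨Cal.cj_iff.1 k.1, Cal.fix_iff.1 k.2⟩
        simp only [if_neg h, e3, map_zero, Finset.sum_const_zero]
        abel
    · obtain ⟨b, b1, ⟨V, hV, b2⟩, b3⟩ := gl_co E h
      obtain ⟨a, a1, a2⟩ := cob_of (π := π) (U := U) (e := fun u x => θ f.1 u x - b u)
        (fun u hu v hv x => by rw [t1 _ f.2.1 u hu v hv, b1 u hu v hv]; abel)
        (fun u hu x e => by rw [t3 _ f.2.1 u hu x e, b3 x u e, sub_self]) (hW.inf hV.emp)
        fun w hw _ x => by rw [t2 _ f.2.1 w hw.1, b2 w hw.2, sub_self]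
      refine cor_B2 ho.cj hU.opn hU.inc (B2.map (σ := ν.comp U.subtype) ε n6
        (e := fun u x => θ f.1 u x) ⟨fun u => b u, a, ⟨_, hV.res U, fun w hw g => ?_⟩, a1, fun u x => ?_⟩)
      · show b (g * w) = b g
        rw [b1 g g.2 w w.2, b2 w hw, add_zero]
      · show θ f.1 u x = b u + a x - ν u (a (π (u : G)⁻¹ x))
        rw [n4 u u.2, add_sub_assoc, ← a2 u u.2, add_sub_cancel]
  · obtain ⟨e, rfl⟩ := Submodule.Quotient.mk_surjective _ a
    obtain ⟨⟨V, hV, v1⟩, z, ⟨Z, hZ, z1⟩, e1⟩ := e.2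
    have e2 : ∀ g ∈ U, ∀ h x, e.1 (g * h) x = e.1 g x + e.1 h (π g⁻¹ x) + z g h :=
      fun g hg h x => by rw [e1, n4 g hg]
    obtain ⟨b, ⟨B, hB, b1⟩, b2⟩ := sha E hS ⟨V, hV, v1⟩ ⟨Z, hZ, z1⟩ e2
    let c : G → X → N := fun u x => e.1 u x - b u
    have c1 : ∀ u ∈ U, ∀ v ∈ U, ∀ x, c (u * v) x = c u x + c v (π u⁻¹ x) := fun u hu v hv x => by
      simp only [c, e2 u hu, b2 u hu v hv]; abel
    have c2 : ∀ w ∈ V ⊓ B, ∀ x, c w x = 0 := fun w hw x => by
      have := c1 1 U.one_mem 1 U.one_mem x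
      rw [one_mul, inv_one, pi_one] at this
      rw [← zero_of_add this, ← one_mul w]
      simp only [c, (v1 w hw.1 _ _).1, b1 w hw.2]
    let f : X × G → N := fun s => if s.2 ∈ U ∧ π s.2 s.1 = s.1 then c s.2 s.1 else 0
    have f0 : ∀ x g, f (x, g) = if g ∈ U ∧ π g x = x then c g x else 0 := fun _ _ => rfl
    have f1 : f ∈ Co k N (Lo p π U) := fun l => by
      refine ⟨fun x g hg h hh e e' => ?_, fun x g hg => ?_, fun u hu ⟨x, g⟩ => congrArg l ?_, _,
        hV.inf hB.emp, fun w hw x => ?_⟩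
      · simp only [f0]
        rw [if_pos ⟨mul_mem hg hh, by rw [pi_mul, e', e]⟩, if_pos ⟨hg, e⟩, if_pos ⟨hh, e'⟩,
          c1 g hg h hh, show π g⁻¹ x = x from (stb π x).inv_mem e, map_add]
      · simp only [f0, if_neg hg, map_zero]
      · have i1 : (u * g * u⁻¹ ∈ U ∧ π (u * g * u⁻¹) (π u x) = π u x) ↔ (g ∈ U ∧ π g x = x) := by
          have a1 := Cal.cj_iff (U := U) (g := u⁻¹) (h := g)
          have a2 := Cal.fix_iff (π := π) (g := u⁻¹) (h := g) (x := x)
          rw [inv_inv] at a1 a2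
          rw [a1, a2]
        rw [pj_apply, f0, f0]
        by_cases h : g ∈ U ∧ π g x = x
        · have a1 := c1 _ (i1.2 h).1 u hu (π u x)
          rw [inv_mul_cancel_right, c1 u hu g h.1, pi_inv, add_comm,
            show π (u * g * u⁻¹)⁻¹ (π u x) = π u x from (stb π _).inv_mem (i1.2 h).2] at a1
          rw [if_pos h, if_pos (i1.2 h), add_right_cancel a1]
        · rw [if_neg h, if_neg fun k => h (i1.1 k)]
      · simp only [f0, c2 w hw, ite_self, map_zero]
    have f2 : f ∈ Ci ν (pj π) 1 (Lo p π U) ((Gl p I U).map (rs p π)) := by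
      refine ⟨f1, fun g => ?_⟩
      let β : G → N := fun u => z u g - z g (g⁻¹ * u * g) - ν g (b (g⁻¹ * u * g)) + b u
      have β1 : ∀ u ∈ U, ∀ x, ν g (c (g⁻¹ * u * g) (π g⁻¹ x)) - c u x =
          β u + -e.1 g x - -e.1 g (π u⁻¹ x) := fun u hu x => by
        have a1 := e1 g (g⁻¹ * u * g) x
        rw [show g * (g⁻¹ * u * g) = u * g by group, e2 u hu, ← sub_eq_zero] at a1
        simp only [c, β, map_sub]
        rw [← sub_eq_zero, ← neg_eq_zero, ← a1]; abel
      have β2 := add_of (π := π) (U := U) (a := fun x => -e.1 g x) (fun u hu v hv x => by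
        rw [show g⁻¹ * (u * v) * g = g⁻¹ * u * g * (g⁻¹ * v * g) by group,
          c1 _ (hU.cj hu g) _ (hU.cj hv g), c1 u hu v hv, map_add, ← pi_mul, ← pi_mul,
          show (g⁻¹ * u * g)⁻¹ * g⁻¹ = g⁻¹ * u⁻¹ by group]
        abel) β1
      refine co_gl β2 (hZ.inf hB) hU (fun w hw _ => ?_) fun x u => ?_
      · have β3 : β 1 = 0 := zero_of_add (by simpa using β2 1 U.one_mem 1 U.one_mem)
        rw [← β3]
        simp only [β]
        rw [← one_mul w, (z1 w hw.1 _ _).1, b1 w hw.2, one_mul, ← one_mul (g⁻¹ * w * g),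
          (z1 _ (hZ.cj hw.1 g) _ _).2, b1 _ (hB.cj hw.2 g), mul_one, inv_mul_cancel]
      · rw [tw_one, pj_apply, inv_inv, f0, f0]
        by_cases h : u ∈ U ∧ π u x = x
        · rw [if_pos h, if_pos h, if_pos ⟨Cal.cj_iff.2 h.1, Cal.fix_iff.2 h.2⟩, β1 u h.1,
            show π u⁻¹ x = x from (stb π x).inv_mem h.2, add_sub_cancel_right]
        · rw [if_neg h, if_neg h, if_neg fun k => h ⟨Cal.cj_iff.1 k.1, Cal.fix_iff.1 k.2⟩,
            map_zero, sub_zero]
    obtain ⟨a, a1, a2⟩ := cob_of (π := π) (U := U) (e := fun u x => θ f u x - c u x)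
      (fun u hu v hv x => by rw [t1 _ f1 u hu v hv, c1 u hu v hv]; abel)
      (fun u hu x e => by rw [t3 _ f1 u hu x e, f0, if_pos ⟨hu, e⟩, sub_self])
      (hW.inf (hV.inf hB.emp)) fun w hw _ x => by rw [t2 _ f1 w hw.1, c2 w hw.2, sub_self]
    have m1 := cor_B2 ho.cj hU.opn hU.inc (B2.map (σ := ν.comp U.subtype) ε n6
      (e := fun u x => θ f u x - e.1 u x)
      ⟨fun u => -b u, a, (A1.res ⟨B, hB, b1⟩ U).comp fun v => -v, a1, fun u x => by
        show θ f u x - e.1 u x = -b u + a x - ν u (a (π (u : G)⁻¹ x))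
        rw [n4 u u.2, add_sub_assoc, ← a2 u u.2]
        simp only [c]; abel⟩)
    have m2 := add_mem m1 (cor_res ho.cj hU.opn hU.inc n2 n3 e.2)
    refine ⟨⟨f, f2⟩, (Submodule.Quotient.eq _).2 ?_⟩
    convert m2 using 1
    refine Iff.of_eq (congrArg (· ∈ B2 π I ν) (funext fun g => funext fun x => ?_))
    show cor π ν U (fun u x => ε (θ f u x)) g x - e.1 g x = _
    simp only [cor, Pi.add_apply, Pi.sub_apply, map_sub, Finset.sum_sub_distrib]
    abel

theorem cnt (hF : FUN) {G k N X : Type} [Group G] [TopologicalSpace G] [IsTopologicalGroup G]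
    [Field k] [Finite k] [AddCommGroup N] [Module k N] [Module.Finite k N] {p : ℕ}
    [Fact p.Prime] [CharP k p] {π : G →* Equiv.Perm X} {I : Set G} {U : Subgroup G}
    {ν : Representation k G N} (hU : Ad I U) (hν : Hig U ν) (hL : Finite (Lo p π U)) :
    Co k N ((Gl p I U).map (rs p π)) ≤ Ci ν (pj π) 1 (Lo p π U) ((Gl p I U).map (rs p π)) ∧
    Module.Finite k (Ci ν (pj π) 1 (Lo p π U) ((Gl p I U).map (rs p π))) ∧
    (psi ν).sq (fa (pj π) 1) (Lo p π U) ((Gl p I U).map (rs p π)) +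
      finrank k (Co k N ((Gl p I U).map (rs p π))) =
        finrank k (Ci ν (pj π) 1 (Lo p π U) ((Gl p I U).map (rs p π))) := by
  have := hU.nor
  have l1 : (Gl p I U).map (rs p π) ≤ Lo p π U := by
    rintro _ ⟨f, hf, rfl⟩
    exact Cal.rs_mem hf
  obtain ⟨f1, e⟩ := hF G k N p U ν hν _ (pj π) 1 _ _ (Cal.st_lo 1) (Cal.st_im 1) l1 hL
    fun u hu f hf => by
      have : fa (pj π) 1 u f = f := funext fun s => (one_mul _).trans (hf.2.2.1 _ (inv_mem hu) s)
      rw [this, sub_self]; exact zero_mem _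
  refine ⟨fun f hf => ⟨fun l => l1 (hf l), fun g => sub_mem (fun l => ?_) hf⟩,
    Module.Finite.of_injective (Submodule.inclusion fun _ h => h.1)
      (Submodule.inclusion_injective _), e⟩
  have := Cal.st_im 1 g _ (hf (l.comp (ν g).toAddMonoidHom))
  convert this using 1
  funext s
  rw [tw_one]
  exact (one_mul _).symm

end Ob

theorem h2u (hF : FUN) : H2U := by
  intro G k N X _ _ _ _ _ _ _ _ _ p _ _ π I U ν ho hU hν hL hS
  obtain ⟨Θ, h1, h2⟩ := Ob.main ho hU hν hL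
  obtain ⟨l, f, e⟩ := Ob.cnt hF (I := I) hU hν hL
  have := rk_ex (Submodule.inclusion l) Θ (Submodule.inclusion_injective l) (h2 hS) fun b =>
    (h1 b).trans ⟨fun h => ⟨⟨_, h⟩, rfl⟩, fun ⟨a, h⟩ => h ▸ a.2⟩
  exact ⟨Module.Finite.of_surjective Θ (h2 hS), by omega⟩

theorem h2l (hF : FUN) : H2L := by
  intro G k N X _ _ _ _ _ _ _ _ _ p _ _ π I U ν ho hU hν hL f2
  obtain ⟨Θ, h1, -⟩ := Ob.main ho hU hν hL
  obtain ⟨l, f, e⟩ := Ob.cnt hF (I := I) hU hν hL
  have := Module.Finite.of_injective _ (Submodule.inclusion_injective l)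
  have := rk_ex_le (Submodule.inclusion l) Θ fun b h => ⟨⟨_, (h1 b).1 h⟩, rfl⟩
  omega

end Vale.Agent.P022K.GW
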