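import Vale.Agent.P022K.GW.Abs

/-!
# P022K, block GW: the calculus of additive functions (rows `CAL`, `HRB`)
-/

set_option linter.all false

noncomputable section

namespace Vale.Agent.P022K.GW

namespace Cal

variable {G : Type} [Group G] {p : ℕ} {U : Subgroup G} {Ψ : AF G}

theorem zero (h : Ψ.Add p U) {M : Type} [AddCommGroup M] [Subsingleton M] (a : Ac G M) :
    Ψ M a = 0 := by
  have := h M M M a a a (AddMonoidHom.id M) (AddMonoidHom.id M)
    ⟨inferInstance, fun _ => Subsingleton.elim _ _, fun _ _ _ => Subsingleton.elim _ _⟩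
    Function.injective_id Function.surjective_id
    (fun y => ⟨fun _ => ⟨y, rfl⟩, fun _ => Subsingleton.elim _ _⟩) (fun _ _ => rfl) fun _ _ => rfl
  omega

theorem iso (h : Ψ.Add p U) {B C : Type} [AddCommGroup B] [AddCommGroup C] {b : Ac G B}
    {c : Ac G C} (q : B →+ C) (hb : Md p U b) (hq : Function.Bijective q)
    (he : ∀ g y, q (b g y) = c g (q y)) : Ψ B b = Ψ C c := by
  have := h PUnit B C 1 b c 0 q hb (fun _ _ _ => rfl) hq.2
    (fun y => ⟨fun e => ⟨0, ((injective_iff_map_eq_zero q).1 hq.1 y e).symm⟩, fun ⟨_, e⟩ => by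
      rw [← e]; exact map_zero q⟩) (fun g _ => (map_zero (b g)).symm) he
  rwa [zero h (M := PUnit), zero_add] at this

variable {M : Type} [AddCommGroup M] {a : Ac G M} {A B C : AddSubgroup M}

/-- the action on the subquotient -/
abbrev aq (a : Ac G M) (hB : St a B) (hA : St a A) : Ac G (B ⧸ A.addSubgroupOf B) :=
  (a.sub B hB).quo (A.addSubgroupOf B) fun g m hm => hA g m hm

theorem sq_eq (hB : St a B) (hA : St a A) : Ψ.sq a B A = Ψ _ (aq a hB hA) := dif_pos ⟨hB, hA⟩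

theorem aq_mk (hB : St a B) (hA : St a A) (g : G) (m : B) :
    aq a hB hA g (m : B ⧸ A.addSubgroupOf B) = ((⟨a g m, hB g m m.2⟩ : B) : B ⧸ _) := rfl

theorem md (hB : St a B) (hA : St a A) (hi : A.relIndex B ≠ 0) (hp : ∀ m ∈ B, p • m ∈ A)
    (hu : ∀ u ∈ U, ∀ m ∈ B, a u m - m ∈ A) : Md p U (aq a hB hA) := by
  refine ⟨Nat.finite_of_card_ne_zero hi, fun m => ?_, fun u h m => ?_⟩
  · induction m using QuotientAddGroup.induction_on with
    | H m =>
      rw [← QuotientAddGroup.mk_nsmul]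
      exact (QuotientAddGroup.eq_zero_iff _).2 (hp m m.2)
  · induction m using QuotientAddGroup.induction_on with
    | H m =>
      rw [aq_mk]
      exact QuotientAddGroup.eq_iff_sub_mem.2 (hu u h m m.2)

/-- the chain rule -/
theorem chain (h : Ψ.Add p U) (hA : St a A) (hB : St a B) (hC : St a C) (l1 : A ≤ B) (l2 : B ≤ C)
    (hi : A.relIndex C ≠ 0) (hp : ∀ m ∈ C, p • m ∈ A) (hu : ∀ u ∈ U, ∀ m ∈ C, a u m - m ∈ A) :
    Ψ.sq a C A = Ψ.sq a C B + Ψ.sq a B A := by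
  rw [sq_eq hC hA, sq_eq hC hB, sq_eq hB hA, add_comm]
  refine h _ _ _ _ _ _
    (QuotientAddGroup.map _ _ (AddSubgroup.inclusion l2) fun m hm => hm)
    (QuotientAddGroup.map _ _ (AddMonoidHom.id C) fun m hm => l1 hm) (md hC hA hi hp hu)
    ((injective_iff_map_eq_zero _).2 fun x hx => ?_) (fun x => ?_) (fun y => ?_)
    (fun g x => ?_) fun g y => ?_
  · induction x using QuotientAddGroup.induction_on with
    | H m =>
      exact (QuotientAddGroup.eq_zero_iff m).2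
        ((QuotientAddGroup.eq_zero_iff (AddSubgroup.inclusion l2 m)).1 hx)
  · induction x using QuotientAddGroup.induction_on with
    | H m => exact ⟨m, rfl⟩
  · induction y using QuotientAddGroup.induction_on with
    | H m =>
      refine ⟨fun e => ⟨(⟨m, (QuotientAddGroup.eq_zero_iff (N := B.addSubgroupOf C) m).1 e⟩ : B),
        rfl⟩, ?_⟩
      rintro ⟨x, e⟩
      rw [← e]
      induction x using QuotientAddGroup.induction_on with
      | H x => exact (QuotientAddGroup.eq_zero_iff _).2 x.2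
  · induction x using QuotientAddGroup.induction_on with
    | H m => rfl
  · induction y using QuotientAddGroup.induction_on with
    | H m => rfl

/-- transport -/
theorem trans (h : Ψ.Add p U) {M' : Type} [AddCommGroup M'] {a' : Ac G M'}
    {A' B' : AddSubgroup M'} (f : B →+ M') (hA : St a A) (hA' : St a' A') (hB' : St a' B')
    (hB : St a B) (h1 : ∀ g (m : B), f ⟨a g m, hB g m m.2⟩ - a' g (f m) ∈ A') (h2 : ∀ m, f m ∈ B')
    (h3 : ∀ m' ∈ B', ∃ m, f m - m' ∈ A') (h4 : ∀ m : B, f m ∈ A' ↔ m.1 ∈ A)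
    (hi : A.relIndex B ≠ 0) (hp : ∀ m ∈ B, p • m ∈ A) (hu : ∀ u ∈ U, ∀ m ∈ B, a u m - m ∈ A) :
    Ψ.sq a B A = Ψ.sq a' B' A' := by
  rw [sq_eq hB hA, sq_eq hB' hA']
  refine iso h (QuotientAddGroup.map _ _ (f.codRestrict B' h2) fun m hm => (h4 m).2 hm)
    (md hB hA hi hp hu) ⟨(injective_iff_map_eq_zero _).2 fun x hx => ?_, fun y => ?_⟩
    fun g x => ?_
  · induction x using QuotientAddGroup.induction_on with
    | H m =>
      exact (QuotientAddGroup.eq_zero_iff _).2 ((h4 m).1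
        ((QuotientAddGroup.eq_zero_iff (f.codRestrict B' h2 m)).1 hx))
  · induction y using QuotientAddGroup.induction_on with
    | H m =>
      obtain ⟨x, hx⟩ := h3 m m.2
      exact ⟨x, QuotientAddGroup.eq_iff_sub_mem.2 hx⟩
  · induction x using QuotientAddGroup.induction_on with
    | H m => exact QuotientAddGroup.eq_iff_sub_mem.2 (h1 g m)

/-- transport along an equivariant map which is defined everywhere -/
theorem trans' (h : Ψ.Add p U) {M' : Type} [AddCommGroup M'] {a' : Ac G M'}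
    {A' B' : AddSubgroup M'} (f : M →+ M') (hA : St a A) (hA' : St a' A') (hB' : St a' B')
    (hB : St a B) (h1 : ∀ g, ∀ m ∈ B, f (a g m) = a' g (f m)) (h2 : ∀ m ∈ B, f m ∈ B')
    (h3 : ∀ m' ∈ B', ∃ m ∈ B, f m - m' ∈ A') (h4 : ∀ m ∈ B, f m ∈ A' ↔ m ∈ A)
    (hi : A.relIndex B ≠ 0) (hp : ∀ m ∈ B, p • m ∈ A) (hu : ∀ u ∈ U, ∀ m ∈ B, a u m - m ∈ A) :
    Ψ.sq a B A = Ψ.sq a' B' A' :=
  trans h (f.comp B.subtype) hA hA' hB' hB
    (fun g m => by
      show f (a g m) - a' g (f m) ∈ A'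
      rw [h1 g m m.2, sub_self]; exact zero_mem _)
    (fun m => h2 m m.2) (fun m' hm' => by
      obtain ⟨m, hm, e⟩ := h3 m' hm'
      exact ⟨⟨m, hm⟩, e⟩) (fun m => h4 m m.2) hi hp hu

theorem st_top : St a ⊤ := fun _ _ _ => trivial

theorem st_bot : St a ⊥ := fun g m hm => by
  rw [AddSubgroup.mem_bot.1 hm, map_zero]; exact zero_mem _

theorem top_bot (h : Ψ.Add p U) (hM : Md p U a) : Ψ.sq a ⊤ ⊥ = Ψ M a := by
  rw [sq_eq st_top st_bot]
  refine (iso h ((QuotientAddGroup.mk' _).comp ((AddMonoidHom.id M).codRestrict ⊤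
    fun _ => AddSubgroup.mem_top _))
    hM ⟨(injective_iff_map_eq_zero _).2 fun x hx => ?_, fun y => ?_⟩ fun g x => rfl).symm
  · exact (QuotientAddGroup.eq_zero_iff _).1 hx
  · induction y using QuotientAddGroup.induction_on with
    | H m => exact ⟨m, rfl⟩

theorem self (h : Ψ.Add p U) (hA : St a A) : Ψ.sq a A A = 0 := by
  rw [sq_eq hA hA]
  haveI : Subsingleton (A ⧸ A.addSubgroupOf A) := by
    rw [AddSubgroup.addSubgroupOf_self]; exact QuotientAddGroup.subsingleton_quotient_top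
  exact zero h _

theorem mem_mu {n : ℕ} {y : M} : y ∈ mu n A ↔ ∃ a ∈ A, n • a = y := Iff.rfl

theorem mem_tor {n : ℕ} {y : M} : y ∈ tor n A ↔ y ∈ A ∧ n • y = 0 := Iff.rfl

theorem st_mu (h : St a A) (n : ℕ) : St a (mu n A) := by
  rintro g _ ⟨m, hm, rfl⟩
  exact ⟨a g m, h g m hm, (map_nsmul (a g) n m).symm⟩

theorem st_tor (h : St a A) (n : ℕ) : St a (tor n A) := fun g m hm =>
  ⟨h g m hm.1, by
    show n • a g m = 0
    rw [← map_nsmul, (mem_tor.1 hm).2, map_zero]⟩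

theorem st_sup (h : St a A) (h' : St a B) : St a (A ⊔ B) := fun g y hy => by
  obtain ⟨x, hx, b, hb, rfl⟩ := AddSubgroup.mem_sup.1 hy
  rw [map_add]
  exact add_mem (AddSubgroup.mem_sup_left (h g x hx)) (AddSubgroup.mem_sup_right (h' g b hb))

theorem mu_le (n : ℕ) (A : AddSubgroup M) : mu n A ≤ A := by
  rintro _ ⟨a, ha, rfl⟩
  exact A.nsmul_mem ha n

theorem mu_mono (n : ℕ) (h : A ≤ B) : mu n A ≤ mu n B := AddSubgroup.map_mono h

theorem tor_mono (n : ℕ) (h : A ≤ B) : tor n A ≤ tor n B := inf_le_inf_right _ h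

theorem rel_mono {A' : AddSubgroup M} (h : A.relIndex C ≠ 0) (l1 : A ≤ A') (l2 : B ≤ C) :
    A'.relIndex B ≠ 0 := fun e =>
  h (AddSubgroup.relIndex_eq_zero_of_le_left l1 (AddSubgroup.relIndex_eq_zero_of_le_right l2 e))

theorem rel_bot (h : Finite A) : (⊥ : AddSubgroup M).relIndex A ≠ 0 := by
  rw [AddSubgroup.relIndex_bot_left]
  exact Nat.card_pos.ne'

theorem fin_tor (n : ℕ) (hi : A.relIndex B ≠ 0) (ht : Finite (tor n A)) : Finite (tor n B) := by
  have h1 : (⊥ : AddSubgroup M).relIndex (tor n B ⊓ A) ≠ 0 := by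
    refine rel_mono (rel_bot ht) le_rfl fun x hx => ⟨hx.2, hx.1.2⟩
  have h2 : (tor n B ⊓ A).relIndex (tor n B) ≠ 0 := by
    rw [AddSubgroup.inf_relIndex_left]
    exact rel_mono hi le_rfl inf_le_left
  have := AddSubgroup.relIndex_ne_zero_trans h1 h2
  rw [AddSubgroup.relIndex_bot_left] at this
  exact Nat.finite_of_card_ne_zero this

/-- one step -/
theorem lat1 (h : Ψ.Add p U) (hA : St a A) (hB : St a B) (le : B ≤ A) (hi : B.relIndex A ≠ 0)
    (hu : ∀ u ∈ U, ∀ m ∈ A, a u m = m) (hm : (mu p B).relIndex B ≠ 0) (ht : Finite (tor p A))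
    (hp : ∀ a ∈ A, p • a ∈ B) :
    Ψ.sq a A (mu p A) + Ψ.sq a (tor p B) ⊥ = Ψ.sq a B (mu p B) + Ψ.sq a (tor p A) ⊥ := by
  have lm : mu p A ≤ B := by
    rintro _ ⟨a, ha, rfl⟩
    exact hp a ha
  have lt : B ⊔ tor p A ≤ A := sup_le le inf_le_left
  have i1 : (mu p B).relIndex A ≠ 0 := AddSubgroup.relIndex_ne_zero_trans hm hi
  have tu : ∀ {C D : AddSubgroup M}, C ≤ A → ∀ u ∈ U, ∀ m ∈ C, a u m - m ∈ D :=
    fun l u k m hm => by rw [hu u k m (l hm), sub_self]; exact zero_mem _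
  have e1 := chain h (st_mu hA p) hB hA lm le (rel_mono i1 (mu_mono p le) le_rfl)
    (fun m hm => ⟨m, hm, rfl⟩) (tu le_rfl)
  have e2 := chain h (st_mu hB p) (st_mu hA p) hB (mu_mono p le) lm hm
    (fun m hm => ⟨m, hm, rfl⟩) (tu le)
  have e3 : Ψ.sq a A (B ⊔ tor p A) = Ψ.sq a (mu p A) (mu p B) :=
    trans' h (nsmulAddMonoidHom p) (st_sup hB (st_tor hA p)) (st_mu hB p) (st_mu hA p) hA
      (fun g m _ => (map_nsmul (a g) p m).symm) (fun m hm => ⟨m, hm, rfl⟩) (by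
        rintro _ ⟨m, hm, rfl⟩
        exact ⟨m, hm, by simp⟩) (fun m hm => ⟨by
        rintro ⟨b, hb, e⟩
        exact AddSubgroup.mem_sup.2 ⟨b, hb, m - b, mem_tor.2 ⟨A.sub_mem hm (le hb), by
          rw [nsmul_sub]; exact sub_eq_zero.2 e.symm⟩, by abel⟩, fun hh => by
        obtain ⟨b, hb, t, ht, rfl⟩ := AddSubgroup.mem_sup.1 hh
        exact ⟨b, hb, by
          show p • b = p • (b + t)
          rw [nsmul_add, (mem_tor.1 ht).2, add_zero]⟩⟩) (rel_mono hi le_sup_left le_rfl)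
      (fun m hm => AddSubgroup.mem_sup_left (hp m hm)) (tu le_rfl)
  have e4 := chain h hB (st_sup hB (st_tor hA p)) hA le_sup_left lt hi hp (tu le_rfl)
  have e5 : Ψ.sq a (tor p A) (tor p B) = Ψ.sq a (B ⊔ tor p A) B :=
    trans' h (AddMonoidHom.id M) (st_tor hB p) hB (st_sup hB (st_tor hA p)) (st_tor hA p)
      (fun _ _ _ => rfl) (fun m hm => AddSubgroup.mem_sup_right hm) (fun y hy => by
        obtain ⟨b, hb, t, ht, rfl⟩ := AddSubgroup.mem_sup.1 hy
        exact ⟨t, ht, by simpa using hb⟩) (fun m hm => ⟨fun hb => ⟨hb, hm.2⟩, fun hb => hb.1⟩)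
      (rel_mono (rel_bot ht) bot_le le_rfl)
      (fun m hm => by rw [(mem_tor.1 hm).2]; exact zero_mem _) (tu inf_le_left)
  have e6 := chain h st_bot (st_tor hB p) (st_tor hA p) bot_le (tor_mono p le) (rel_bot ht)
    (fun m hm => (mem_tor.1 hm).2) (tu inf_le_left)
  omega

/-- index prime to `p` -/
theorem lat0 (h : Ψ.Add p U) (hA : St a A) (hB : St a B) (le : B ≤ A)
    (hu : ∀ u ∈ U, ∀ m ∈ A, a u m = m) (hm : (mu p B).relIndex B ≠ 0) {m : ℕ} (hc : m.Coprime p)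
    (hp : ∀ a ∈ A, m • a ∈ B) :
    Ψ.sq a B (mu p B) = Ψ.sq a A (mu p A) ∧ tor p A = tor p B := by
  obtain ⟨u, v, huv⟩ : IsCoprime (m : ℤ) (p : ℤ) := Nat.isCoprime_iff_coprime.2 hc
  have dec : ∀ a : M, a = u • m • a + v • p • a := fun a => by
    rw [← natCast_zsmul, ← natCast_zsmul, smul_smul, smul_smul, ← add_smul, huv, one_smul]
  refine ⟨?_, le_antisymm (fun a ha => ⟨?_, ha.2⟩) (tor_mono p le)⟩
  · refine trans' h (AddMonoidHom.id M) (st_mu hB p) (st_mu hA p) hA hB (fun _ _ _ => rfl)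
      (fun a ha => le ha) (fun x hx => ?_) (fun b hb => ⟨?_, fun hh => mu_mono p le hh⟩) hm
      (fun m hm => ⟨m, hm, rfl⟩) fun u k m hm => by
        rw [hu u k m (le hm), sub_self]; exact zero_mem _
    · refine ⟨u • m • x, B.zsmul_mem (hp x hx) u, -(v • x), A.neg_mem (A.zsmul_mem hx v), ?_⟩
      show p • -(v • x) = u • m • x - x
      rw [eq_sub_iff_add_eq, smul_neg, smul_comm p, neg_add_eq_iff_eq_add, add_comm]
      exact dec x
    · rintro ⟨x, hx, e⟩
      refine ⟨u • m • x + v • b, B.add_mem (B.zsmul_mem (hp x hx) u) (B.zsmul_mem hb v), ?_⟩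
      have e' : p • x = b := e
      show p • (u • m • x + v • b) = b
      rw [← e', ← dec x]
  · rw [dec a, (mem_tor.1 ha).2, smul_zero, add_zero]
    exact B.zsmul_mem (hp a ha.1) u

/-- **lattices of finite index** -/
theorem lat (pp : p.Prime) (h : Ψ.Add p U) (hB : St a B) (hA : St a A) (le : B ≤ A)
    (hi : B.relIndex A ≠ 0) (hu : ∀ u ∈ U, ∀ m ∈ A, a u m = m) (hm : (mu p B).relIndex B ≠ 0)
    (ht : Finite (tor p B)) :
    Ψ.sq a A (mu p A) + Ψ.sq a (tor p B) ⊥ = Ψ.sq a B (mu p B) + Ψ.sq a (tor p A) ⊥ := by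
  have hp : ∀ x ∈ A, B.relIndex A • x ∈ B := fun x hx => B.nsmul_relIndex_mem hx
  obtain ⟨i, m, hm', e⟩ := Nat.exists_eq_pow_mul_and_not_dvd hi p pp.ne_one
  have hc : m.Coprime p := ((Nat.Prime.coprime_iff_not_dvd pp).2 hm').symm
  rw [e] at hp
  clear e
  induction i generalizing A with
  | zero =>
    obtain ⟨x, y⟩ := lat0 h hA hB le hu hm hc (by simpa using hp)
    rw [x, y]
  | succ i ih =>
    have l1 : B ⊔ mu p A ≤ A := sup_le le (mu_le p A)
    have s1 := st_sup hB (st_mu hA p)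
    have i1 := rel_mono hi le_rfl l1
    have e1 := lat1 h hA s1 l1 (rel_mono hi le_sup_left le_rfl) hu
      (rel_mono (AddSubgroup.relIndex_ne_zero_trans hm i1) (mu_mono p le_sup_left) le_rfl)
      (fin_tor p hi ht) fun a ha => AddSubgroup.mem_sup_right ⟨a, ha, rfl⟩
    have e2 := ih s1 le_sup_left i1 (fun u k m hm => hu u k m (l1 hm)) fun y hy => by
      obtain ⟨b, hb, _, ⟨a, ha, rfl⟩, rfl⟩ := AddSubgroup.mem_sup.1 hy
      rw [nsmul_add]
      refine B.add_mem (B.nsmul_mem hb _) ?_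
      have := hp a ha
      rwa [pow_succ, mul_right_comm, mul_smul] at this
    omega

end Cal

theorem cal : CAL := fun _ _ _ _ _ h =>
  ⟨fun _ _ _ _ _ _ hA hB hC => Cal.chain h hA hB hC,
    fun _ _ _ _ _ _ _ _ _ _ f hA hA' hB' hB => Cal.trans h f hA hA' hB' hB,
    fun _ _ _ hM => Cal.top_bot h hM, fun _ _ _ _ hA => Cal.self h hA⟩

theorem hrb : HRB := fun _ _ p _ _ pp h _ _ _ _ _ hA hB le hi hu hm ht =>
  ⟨Cal.rel_mono (AddSubgroup.relIndex_ne_zero_trans hm hi) (Cal.mu_mono p le) le_rfl,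
    Cal.fin_tor p hi ht, Cal.lat pp h hA hB le hi hu hm ht⟩

end Vale.Agent.P022K.GW
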