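import Vale.Agent.P022K.GW.Pl
import Vale.Agent.P022K.GW.Cal

/-!
# P022K, block GW: the infinite places (rows `INF`, `ODD`)
-/

set_option linter.all false

noncomputable section

namespace Vale.Agent.P022K.GW

open NumberField Module
open Vale.Agent.P022

namespace Inf

variable {G : Type} [Group G] {p : ℕ} {U : Subgroup G}

theorem fa_apply {S : Type} (π : G →* Equiv.Perm S) (χ : G →* (ZMod p)ˣ) (g : G) (f : S → ZMod p)
    (s : S) : fa π χ g f s = (χ g : ZMod p) * f (π g⁻¹ s) := rfl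

theorem st_fu {S : Type} (π : G →* Equiv.Perm S) (hU : U.Normal) (χ : G →* (ZMod p)ˣ) :
    St (fa π χ) (Fu p π U) := fun g f hf u hu y => by
  rw [fa_apply, fa_apply, ← hf _ (hU.conj_mem u hu g⁻¹) (π g⁻¹ y), ← Equiv.Perm.mul_apply,
    ← Equiv.Perm.mul_apply, ← map_mul, ← map_mul, inv_mul_cancel_right]

theorem fu_fin [NeZero p] {S : Type} {π : G →* Equiv.Perm S} (h : Fo π) (hU : U.index ≠ 0) :
    Finite (Fu p π U) := by
  obtain ⟨s, hs⟩ := Pl.fo_comp h U.subtype (π' := π.comp U.subtype)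
    (by rwa [Subgroup.range_subtype]) fun _ _ => rfl
  refine Finite.of_injective (fun (f : Fu p π U) (y : s) => f.1 y) fun a b e =>
    Subtype.ext (funext fun x => ?_)
  obtain ⟨y, hy, u, rfl⟩ := hs x
  exact (a.2 u u.2 y).trans ((congrFun e ⟨y, hy⟩).trans (b.2 u u.2 y).symm)

/-- even and odd functions -/
theorem split [Fact p.Prime] (h2 : p ≠ 2) (hU : U.Normal) {E Y : Type} (πE : G →* Equiv.Perm E)
    (πI : G →* Equiv.Perm Y) (ω χ : G →* (ZMod p)ˣ) (mk : E → Y) (c : E → E) (sec : Y → E)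
    (t : E → ZMod p) (hs : ∀ v, mk (sec v) = v) (hm : ∀ a b, mk a = mk b ↔ a = b ∨ c a = b)
    (cc : ∀ a, c (c a) = a) (e1 : ∀ g a, πI g (mk a) = mk (πE g a))
    (e2 : ∀ g a, πE g (c a) = c (πE g a)) (t0 : ∀ a, t a ≠ 0) (t1 : ∀ a, t (c a) = -t a)
    (t2 : ∀ g a, t (πE g a) = ω g * t a) (hω : ∀ u ∈ U, ω u = 1) (hχ : ∀ u ∈ U, χ u = 1)
    (fin : Finite (Fu p πE U)) {Ψ : AF G} (h : Ψ.Add p U) :
    Ψ.fu πE U χ = Ψ.fu πI U χ + Ψ.fu πI U (ω * χ) := by
  have two : (2 : ZMod p) ≠ 0 := fun e => h2 ((Nat.prime_dvd_prime_iff_eq Fact.out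
    Nat.prime_two).1 ((ZMod.natCast_eq_zero_iff 2 p).1 e))
  let Ev : AddSubgroup (E → ZMod p) :=
    { carrier := {f | ∀ a, f (c a) = f a}
      add_mem' := fun {f g} hf hg a => by rw [Pi.add_apply, Pi.add_apply, hf, hg]
      zero_mem' := fun _ => rfl
      neg_mem' := fun {f} hf a => by rw [Pi.neg_apply, Pi.neg_apply, hf] }
  have ev : ∀ f : E → ZMod p, (∀ a, f (c a) = f a) → ∀ a b, mk a = mk b → f a = f b :=
    fun f hf a b e => ((hm a b).1 e).elim (congrArg f) fun k => k ▸ (hf a).symm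
  have mc : ∀ a, mk (c a) = mk a := fun a => ((hm _ _).2 (Or.inr rfl)).symm
  have sC := st_fu πE hU χ
  have sB : St (fa πE χ) (Fu p πE U ⊓ Ev) := fun g f hf =>
    ⟨sC g f hf.1, fun a => by rw [fa_apply, fa_apply, e2, hf.2]⟩
  have tr : ∀ (A : AddSubgroup (E → ZMod p)) (m : E → ZMod p), p • m ∈ A := fun A m => by
    rw [show p • m = 0 from funext fun a => by simp]; exact zero_mem _
  have fx : ∀ (A : AddSubgroup (E → ZMod p)), ∀ u ∈ U, ∀ m ∈ Fu p πE U,
      fa πE χ u m - m ∈ A := fun A u hu m hm => by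
    rw [show fa πE χ u m = m from funext fun a => by
      rw [fa_apply, hχ u hu, hm _ (U.inv_mem hu), Units.val_one, one_mul], sub_self]
    exact zero_mem _
  have i0 := Cal.rel_bot fin
  let D : (E → ZMod p) → E → ZMod p := fun m a => t a * (m a - m (c a))
  have dv : ∀ m a, D m (c a) = D m a := fun m a => by simp only [D, t1, cc]; ring
  let q : (E → ZMod p) →+ (Y → ZMod p) := AddMonoidHom.mk' (fun m v => D m (sec v))
    fun a b => funext fun v => by simp only [D, Pi.add_apply]; ring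
  let i : (E → ZMod p) →+ (Y → ZMod p) := AddMonoidHom.mk' (fun m v => m (sec v)) fun _ _ => rfl
  have sm : ∀ g v, mk (sec (πI g v)) = mk (πE g (sec v)) := fun g v => by rw [← e1, hs, hs]
  unfold AF.fu
  rw [Cal.chain h Cal.st_bot sB sC bot_le inf_le_left i0 (fun m _ => tr _ m) (fx _), add_comm]
  congr 1
  · refine Cal.trans' h i Cal.st_bot Cal.st_bot (st_fu πI hU χ) sB
      (fun g m hm => funext fun v => ?_) (fun m hm u hu v => ?_) (fun m hm => ?_)
      (fun m hm => ⟨fun k => ?_, fun k => ?_⟩) (Cal.rel_mono i0 le_rfl inf_le_left)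
      (fun m _ => tr _ m) fun u hu m hm => fx _ u hu m hm.1
    · exact congrArg (fun z => (χ g : ZMod p) * z) (ev m hm.2 _ _ (sm _ _).symm)
    · exact (ev m hm.2 _ _ (sm u v)).trans (hm.1 u hu _)
    · refine ⟨fun a => m (mk a), ⟨fun u hu a => ?_, fun a => congrArg m (mc a)⟩, ?_⟩
      · show m (mk _) = m _
        rw [← e1, hm u hu]
      · exact sub_eq_zero.2 (funext fun v => congrArg m (hs v))
    · exact funext fun a => (ev m hm.2 _ _ (hs _).symm).trans (congrFun k (mk a))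
    · rw [AddSubgroup.mem_bot.1 k, map_zero]; exact zero_mem _
  · refine Cal.trans' h q sB Cal.st_bot (st_fu πI hU _) sC
      (fun g m hm => funext fun v => ?_) (fun m hm u hu v => ?_) (fun m hm => ?_)
      (fun m hm => ⟨fun k => ⟨hm, fun a => ?_⟩, fun k => funext fun v => ?_⟩)
      (Cal.rel_mono i0 bot_le le_rfl) (fun m _ => tr _ m) (fx _)
    · show D _ (sec v) = _ * D m (sec _)
      rw [ev _ (dv m) _ _ (sm _ _)]
      have := t2 g (πE g⁻¹ (sec v))
      rw [← Equiv.Perm.mul_apply, ← map_mul, mul_inv_cancel, map_one, Equiv.Perm.one_apply] at this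
      simp only [D, fa_apply, e2, MonoidHom.mul_apply, Units.val_mul]
      rw [this]; ring
    · show D m (sec _) = D m (sec v)
      rw [ev _ (dv m) _ _ (sm _ _)]
      simp only [D, ← e2, hm u hu _, t2, hω u hu, Units.val_one, one_mul]
    · refine ⟨fun a => (2 * t a)⁻¹ * m (mk a), fun u hu a => ?_,
        sub_eq_zero.2 (funext fun v => ?_)⟩
      · show (2 * t _)⁻¹ * m (mk _) = _
        rw [← e1, hm u hu, t2, hω u hu, Units.val_one, one_mul]
      · show t _ * ((2 * t _)⁻¹ * m (mk _) - (2 * t _)⁻¹ * m (mk _)) = _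
        have := t0 (sec v)
        rw [mc, hs, t1]
        field_simp
        ring
    · have := (ev _ (dv m) _ _ (hs _).symm).trans (congrFun k (mk a))
      exact (sub_eq_zero.1 ((mul_eq_zero.1 this).resolve_left (t0 a))).symm
    · show t _ * (m _ - m (c _)) = 0
      rw [k.2, sub_self, mul_zero]

/-- the discrete logarithm attached to an embedding -/
theorem ex_t [Fact p.Prime] (ι : G →* GQ) {ω : G →* (ZMod p)ˣ} (hc : Cy ι p ω) :
    ∃ t : (Qb →+* ℂ) → ZMod p, (∀ a, t a ≠ 0) ∧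
      (∀ a, t (ComplexEmbedding.conjugate a) = -t a) ∧ ∀ g a, t (pE ι g a) = ω g * t a := by
  have hp : p.Prime := Fact.out
  obtain ⟨ζ, hζ⟩ := HasEnoughRootsOfUnity.exists_primitiveRoot Qb p
  obtain ⟨ξ, hξ⟩ := HasEnoughRootsOfUnity.exists_primitiveRoot ℂ p
  have pr : ∀ a : Qb →+* ℂ, IsPrimitiveRoot (a ζ) p := fun a => hζ.map_of_injective a.injective
  have ex : ∀ a : Qb →+* ℂ, ∃ s : ZMod p, a ζ ^ s.val = ξ := fun a => by
    obtain ⟨i, hi, e⟩ := (pr a).eq_pow_of_pow_eq_one hξ.pow_eq_one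
    exact ⟨i, by rw [ZMod.val_cast_of_lt hi, e]⟩
  choose t ht using ex
  have un : ∀ (a : Qb →+* ℂ) (s : ZMod p), a ζ ^ s.val = ξ → t a = s := fun a s e =>
    ZMod.val_injective p ((pr a).pow_inj (ZMod.val_lt _) (ZMod.val_lt _) ((ht a).trans e.symm))
  refine ⟨t, fun a e => ?_, fun a => un _ _ ?_, fun g a => un _ _ ?_⟩
  · have := ht a
    rw [e, ZMod.val_zero, pow_zero] at this
    exact hξ.ne_one hp.one_lt this.symm
  · have h1 : a ζ * ComplexEmbedding.conjugate a ζ = 1 := by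
      rw [ComplexEmbedding.conjugate_coe_eq, Complex.mul_conj, Complex.normSq_eq_norm_sq,
        (pr a).norm'_eq_one hp.ne_zero]
      simp
    have h3 := (pr (ComplexEmbedding.conjugate a)).pow_eq_one
    have h0 := (pr (ComplexEmbedding.conjugate a)).ne_zero hp.ne_zero
    generalize ComplexEmbedding.conjugate a ζ = y at h1 h3 h0
    refine mul_right_cancel₀ (pow_ne_zero (t a).val h0) ?_
    rw [← ht a, ← mul_pow, h1, one_pow, ← pow_add, pow_eq_pow_mod _ h3, ← ZMod.val_add,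
      neg_add_cancel, ZMod.val_zero, pow_zero]
  · rw [ZMod.val_mul, ← pow_eq_pow_mod _ (pr _).pow_eq_one, pow_mul, ← map_pow,
      ← hc g ζ hζ.pow_eq_one, Pl.pE_apply, ← ht a]
    simp

/-- equivariant functions, when the invariants of the stabilisers are lines -/
theorem fx_rank {k V Y J : Type} [Field k] [AddCommGroup V] [Module k V] [Finite J]
    (π : G →* Equiv.Perm Y) (σ : Representation k G V) (v : J → Y) (A : J → V)
    (h1 : ∀ y, ∃ j g, π g (v j) = y) (h2 : ∀ j j' g, π g (v j) = v j' → j = j')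
    (h0 : ∀ j, A j ≠ 0) (h3 : ∀ j g, π g (v j) = v j → σ g (A j) = A j)
    (h4 : ∀ j m, (∀ g, π g (v j) = v j → σ g m = m) → ∃ c : k, c • A j = m) :
    finrank k (Fx π σ) = Nat.card J := by
  choose j g hg using h1
  have key : ∀ (h : G) (i : J), j (π h (v i)) = i ∧ σ (g (π h (v i))) (A i) = σ h (A i) := by
    intro h i
    have e : π (h⁻¹ * g (π h (v i))) (v (j (π h (v i)))) = v i := by
      rw [map_mul, Equiv.Perm.mul_apply, hg]; simp
    have e1 := h2 _ _ _ e
    rw [e1] at e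
    refine ⟨e1, ?_⟩
    rw [← h3 _ _ e, ← Module.End.mul_apply (σ h), ← map_mul, mul_inv_cancel_left, h3 _ _ e]
  let φ : (J → k) →ₗ[k] Fx π σ :=
    { toFun := fun c => ⟨fun y => c (j y) • σ (g y) (A (j y)), fun h y => by
        have e : π h y = π (h * g y) (v (j y)) := by rw [map_mul, Equiv.Perm.mul_apply, hg]
        show c _ • σ _ (A _) = _
        rw [e, (key _ _).1, (key _ _).2, map_smul, map_mul, Module.End.mul_apply]⟩
      map_add' := fun a b => Subtype.ext (funext fun y => add_smul _ _ _)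
      map_smul' := fun a b => Subtype.ext (funext fun y => mul_smul _ _ _) }
  have ev : ∀ c i, (φ c).1 (v i) = c i • A i := fun c i => by
    have := key 1 i
    simp only [map_one, Equiv.Perm.one_apply, Module.End.one_apply] at this
    show c _ • σ _ (A _) = _
    rw [this.1, this.2]
  have hb : Function.Bijective φ := by
    refine ⟨(injective_iff_map_eq_zero φ).2 fun c e => funext fun i => ?_, fun f => ?_⟩
    · have := ev c i
      rw [e] at this
      exact (smul_eq_zero.1 this.symm).resolve_right (h0 i)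
    · choose c hc using fun i => h4 i (f.1 (v i)) fun h e => by rw [← f.2, e]
      refine ⟨c, Subtype.ext (funext fun y => ?_)⟩
      rw [← hg y, (φ c).2, f.2, ev, hc]
  let _ := Fintype.ofFinite J
  rw [← (LinearEquiv.ofBijective φ hb).finrank_eq, finrank_fintype_fun_eq_card,
    Nat.card_eq_fintype_card]

variable {k : Type} [Field k]

theorem tr0 {A : Matrix (Fin 2) (Fin 2) k} (h : A * A = 1) (hd : A.det = -1) : A.trace = 0 := by
  have a := congrFun (congrFun h 0) 0
  have b := congrFun (congrFun h 1) 1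
  simp only [Matrix.mul_apply, Fin.sum_univ_two, Matrix.one_apply_eq] at a b
  rw [Matrix.det_fin_two] at hd
  rw [Matrix.trace_fin_two]
  exact pow_eq_zero_iff two_ne_zero |>.1 (by linear_combination a + b + 2 * hd)

theorem cen {A m : Matrix (Fin 2) (Fin 2) k} (two : (2 : k) ≠ 0) (hA : A.trace = 0)
    (hd : A.det = -1) (hm : m.trace = 0) (h : A * m = m * A) : ∃ c : k, c • A = m := by
  have a := congrFun (congrFun h 0) 0
  have b := congrFun (congrFun h 0) 1
  have c := congrFun (congrFun h 1) 0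
  simp only [Matrix.mul_apply, Fin.sum_univ_two] at a b c
  rw [Matrix.det_fin_two] at hd
  rw [Matrix.trace_fin_two] at hA hm
  have e1 : A 1 1 = -A 0 0 := by linear_combination hA
  have e2 : m 1 1 = -m 0 0 := by linear_combination hm
  rw [e1] at hd
  rw [e1, e2] at b c
  have b' : A 0 0 * m 0 1 = A 0 1 * m 0 0 := mul_left_cancel₀ two (by linear_combination b)
  have c' : A 1 0 * m 0 0 = A 0 0 * m 1 0 := mul_left_cancel₀ two (by linear_combination c)
  have k0 : (A 0 0 * m 0 0 + A 0 1 * m 1 0) * A 0 0 = m 0 0 := by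
    linear_combination (-m 0 0) * hd - A 0 1 * c'
  refine ⟨A 0 0 * m 0 0 + A 0 1 * m 1 0, ?_⟩
  ext i j
  fin_cases i <;> fin_cases j <;> simp only [Matrix.smul_apply, smul_eq_mul, Fin.zero_eta,
    Fin.mk_one, Fin.isValue]
  · exact k0
  · linear_combination (-m 0 1) * hd - A 0 0 * b' + A 0 1 * a
  · linear_combination (-m 1 0) * hd + A 0 0 * c'
  · rw [e1, e2]; linear_combination -k0

end Inf

open Inf Pl

theorem inf : INF := by
  intro G _ _ _ _ ι p _ ω U h2 he hc hn ho hω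
  refine ⟨fo_I ι he, fo_E ι he, fun Ψ h χ hχ => ?_⟩
  obtain ⟨t, t0, t1, t2⟩ := ex_t ι hc
  haveI : Finite (G ⧸ U) := U.quotient_finite_of_isOpen ho
  exact split h2 hn _ _ ω χ InfinitePlace.mk ComplexEmbedding.conjugate InfinitePlace.embedding t
    InfinitePlace.mk_embedding (fun _ _ => InfinitePlace.mk_eq_iff) star_star (pI_mk ι)
    (pE_conj ι) t0 t1 t2 hω hχ (fu_fin (fo_E ι he) Subgroup.index_ne_zero_of_finite) h

theorem odd : ODD := by
  intro G k _ _ _ ι ρ two he hc
  have := H443.algQb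
  obtain ⟨Φ⟩ : Nonempty (Qb →+* ℂ) := ⟨(IsAlgClosed.lift : Qb →ₐ[ℚ] ℂ).toRingHom⟩
  haveI : Finite (GQ ⧸ ι.range) := Nat.finite_of_card_ne_zero (idx ι he)
  have hC : ∀ a : Qb →+* ℂ, ∃ g, ComplexEmbedding.IsConj (k := ℚ) a (ι g) ∧ (ρ g).1.det = -1 :=
    fun a => by
      obtain ⟨c, h⟩ := H916.exists_conj_elt a
      obtain ⟨g, rfl, e⟩ := hc c ⟨a, h⟩
      exact ⟨g, RingHom.ext fun x => (h x).symm, e⟩
  choose c c1 c2 using hC
  have c3 : ∀ a, (c a)⁻¹ = c a := fun a => he.injective (by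
    rw [map_inv]; exact (c1 a).symm.ext (c1 a))
  have c4 : ∀ a, (ρ (c a)).1 * (ρ (c a)).1 = 1 := fun a => by
    rw [← Units.val_mul, ← map_mul]
    nth_rw 1 [← c3 a]
    rw [inv_mul_cancel, map_one, Units.val_one]
  have hm : ∀ a b, InfinitePlace.mk a = InfinitePlace.mk b → ∃ g, pE ι g a = b := fun a b e => by
    rcases InfinitePlace.mk_eq_iff.1 e with rfl | rfl
    · exact ⟨1, by rw [map_one]; rfl⟩
    · exact ⟨c a, RingHom.ext fun x => by
        rw [pE_apply, ← map_inv, c3]; exact (c1 a).eq x⟩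
  let e : GQ ⧸ ι.range → Qb →+* ℂ := fun x => Φ.comp (x.out : Qb →+* Qb)
  refine fx_rank _ _ (fun x => InfinitePlace.mk (e x))
    (fun x => ⟨(ρ (c (e x))).1, tr0 (c4 _) (c2 _)⟩) (fun y => ?_) (fun x x' g h => ?_)
    (fun x h => ?_) (fun x g h => ?_) fun x m h => ?_
  · obtain ⟨s, hs⟩ := emb_trans Φ y.embedding
    obtain ⟨⟨_, u, rfl⟩, hu⟩ := QuotientGroup.mk_out_eq_mul ι.range s⁻¹
    refine ⟨(s⁻¹ : GQ), u, ?_⟩
    rw [pI_mk, ← y.mk_embedding]
    refine congrArg _ (RingHom.ext fun z => ?_)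
    rw [pE_apply, ← hs]
    show Φ ((((s⁻¹ : GQ) : GQ ⧸ ι.range).out : GQ) _) = _
    rw [hu]; simp
  · rw [pI_mk] at h
    obtain ⟨g', h'⟩ := hm _ _ h
    rw [← Equiv.Perm.mul_apply, ← map_mul] at h'
    rw [← x.out_eq, ← x'.out_eq]
    refine QuotientGroup.eq.2 ⟨(g' * g)⁻¹, ?_⟩
    rw [eq_inv_mul_iff_mul_eq, map_inv]
    exact AlgEquiv.ext fun z => Φ.injective
      ((pE_apply ι _ (e x) z).symm.trans (RingHom.congr_fun h' z))
  · have := c2 (e x)
    rw [show (ρ (c (e x))).1 = 0 from congrArg Subtype.val h, Matrix.det_zero] at this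
    exact one_ne_zero (neg_eq_zero.1 this.symm)
  · rcases (InfinitePlace.mem_stabilizer_mk_iff (k := ℚ) (e x) (ι g)).1 h with h | h
    · rw [he.injective (h.trans (map_one ι).symm), map_one]; rfl
    · rw [he.injective (h.ext (c1 _))]
      exact Subtype.ext (by rw [ad0_coe, c4, c3, one_mul])
  · have h1 := congrArg Subtype.val (h (c (e x))
      ((InfinitePlace.mem_stabilizer_mk_iff (k := ℚ) (e x) _).2 (Or.inr (c1 _))))
    rw [ad0_coe, c3] at h1
    obtain ⟨t, ht⟩ := cen two (tr0 (c4 _) (c2 (e x))) (c2 _) m.2 (by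
      conv_rhs => rw [← h1, mul_assoc, c4, mul_one])
    exact ⟨t, Subtype.ext ht⟩

end Vale.Agent.P022K.GW
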