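import Vale.Agent.P022K.GW.LcA

/-!
# P022K, block GW: the class of the local characters (row `LCL`)
-/

set_option linter.all false

noncomputable section

namespace Vale.Agent.P022K.GW

open NumberField IsDedekindDomain Module
open scoped Pointwise
open Vale.Agent.P022 Vale.Agent.P022.C Vale.Agent.P022.H916
open Vale.Agent.P022E.GW (Ov Ch)
open Vale.Agent.P022D.W (dec)
open Vale.Agent.P022D.Sel (mv)
open Vale.Agent.P011.ArP (Mu LS val_nat_le LS_newton' LS_of_close pow_mem_LS)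
open Vale.Agent.P027M.S.Cls (val_eq ordv_of ordv_zpow)

namespace Lc

open Cal Gcl

variable {G : Type} [Group G] {p : ℕ} [Fact p.Prime] {U : Subgroup G} {Ψ : AF G}
  {L : Type} [Field L] [NumberField L] {r : G →* (L ≃ₐ[ℚ] L)} {S : Set (PL L)} {w : PL L}

/-- a condition at all places of `S` -/
def al {M : Type} [AddCommGroup M] (S : Set (PL L)) (A : PL L → AddSubgroup M) :
    AddSubgroup M where
  carrier := {x | ∀ w ∈ S, x ∈ A w}
  add_mem' ha hb w hw := add_mem (ha w hw) (hb w hw)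
  zero_mem' _ _ := zero_mem _
  neg_mem' ha w hw := neg_mem (ha w hw)

theorem mv_inv (r : G →* (L ≃ₐ[ℚ] L)) (g : G) (w : PL L) :
    mv (r g).toRingEquiv (mv (r g⁻¹).toRingEquiv w) = w := by
  rw [← mv_mul, ← map_mul, mul_inv_cancel, map_one, mv_one]

theorem st_al {M : Type} [AddCommGroup M] {a : Ac G M} {A : PL L → AddSubgroup M}
    (sS : ∀ g, ∀ w ∈ S, mv (r g).toRingEquiv w ∈ S)
    (hA : ∀ g w, ∀ x ∈ A w, a g x ∈ A (mv (r g).toRingEquiv w)) : St a (al S A) :=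
  fun g x hx w hw => mv_inv r g w ▸ hA g _ x (hx _ (sS _ w hw))

theorem p_ne : (p : L) ≠ 0 := Nat.cast_ne_zero.2 (Fact.out : p.Prime).ne_zero

theorem vp_pos (w : PL L) (n : ℕ) : 0 < w.valuation L (p : L) ^ n :=
  zero_lt_iff.2 (pow_ne_zero n ((Valuation.ne_zero_iff _).2 p_ne))

theorem vp_le (w : PL L) (n : ℕ) : w.valuation L (p : L) ^ n ≤ 1 :=
  pow_le_one' (val_nat_le _ p) n

theorem el_add (x y : Additive Lˣ) : el (x + y) = el x * el y := rfl

theorem el_sub (x y : Additive Lˣ) : el (x - y) = el x / el y := Units.val_div_eq_div_val _ _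

theorem v_pos (w : PL L) (x : Additive Lˣ) : 0 < w.valuation L (el x) :=
  zero_lt_iff.2 ((Valuation.ne_zero_iff _).2 (el_ne x))

/-- the elements which are close to one -/
def Vw (p : ℕ) [Fact p.Prime] (n : ℕ) (w : PL L) : AddSubgroup (Additive Lˣ) where
  carrier := {x | w.valuation L (el x - 1) < w.valuation L (p : L) ^ n}
  add_mem' {x y} hx hy := by
    show w.valuation L (el x * el y - 1) < _
    rw [show el x * el y - 1 = (el x - 1) * el y + (el y - 1) by ring]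
    refine (w.valuation L).map_add_lt ?_ hy
    rwa [map_mul, v_one_of _ (hy.trans_le (vp_le w n)), mul_one]
  zero_mem' := by
    show w.valuation L (1 - 1) < _
    rw [sub_self, map_zero]
    exact vp_pos w n
  neg_mem' {x} hx := by
    show w.valuation L (el (-x) - 1) < _
    rw [← zero_sub, el_sub, div_sub_one (el_ne x), map_div₀, v_one_of _ (hx.trans_le (vp_le w n)),
      div_one, Valuation.map_sub_swap]
    exact hx

theorem mem_Vw {n : ℕ} {x : Additive Lˣ} :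
    x ∈ Vw p n w ↔ w.valuation L (el x - 1) < w.valuation L (p : L) ^ n := Iff.rfl

theorem sub_Vw {n : ℕ} {x y : Additive Lˣ} : x - y ∈ Vw p n w ↔
    w.valuation L (el x - el y) < w.valuation L (p : L) ^ n * w.valuation L (el y) := by
  rw [mem_Vw, el_sub, div_sub_one (el_ne y), map_div₀, div_lt_iff₀ (v_pos w y)]

theorem od_zero {x : Additive Lˣ} : od w x = 0 ↔ w.valuation L (el x) = 1 :=
  ⟨fun h => by rw [val_eq w (el_ne x), show ordv w (el x) = 0 from h]; rfl,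
    fun h => ordv_of (n := 0) h⟩

theorem Vw_od {n : ℕ} {x : Additive Lˣ} (h : x ∈ Vw p n w) : od w x = 0 :=
  od_zero.2 (v_one_of _ (h.trans_le (vp_le w n)))

theorem st_Vw (n : ℕ) (g : G) (w : PL L) (x : Additive Lˣ) (h : x ∈ Vw p n w) :
    aL r g x ∈ Vw p n (mv (r g).toRingEquiv w) := by
  rw [mem_Vw, el_aL, ← map_one (r g), ← map_sub, val_mv, ← map_natCast (r g), val_mv]
  exact h

theorem apx_u (hS : S.Finite) (x : PL L → Additive Lˣ) (n : ℕ) :
    ∃ y, ∀ w ∈ S, y - x w ∈ Vw p n w := by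
  obtain ⟨f, h1, h2⟩ := P011.Arith.approxVal hS.toFinset (fun w => el (x w))
    (fun w => w.valuation L (p : L) ^ n * w.valuation L (el (x w)))
    (fun w _ => mul_ne_zero (vp_pos w n).ne' (v_pos w _).ne') (fun _ => 1) one_pos
  refine ⟨Additive.ofMul (Units.mk0 f fun e => ?_), fun w hw =>
    sub_Vw.2 (h1 w (hS.mem_toFinset.2 hw))⟩
  have := h2 (Classical.arbitrary _)
  rw [e, zero_sub, InfinitePlace.coe_apply, AbsoluteValue.map_neg, map_one] at this
  exact lt_irrefl _ this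

theorem ex_od (w : PL L) (n : ℤ) : ∃ x, od w x = n := by
  obtain ⟨π, h⟩ := w.valuation_exists_uniformizer L
  have π0 : π ≠ 0 := fun e => WithZero.exp_ne_zero (h.symm.trans (by rw [e, map_zero]))
  refine ⟨n • Additive.ofMul (Units.mk0 π π0), ?_⟩
  rw [map_zsmul, show od w (Additive.ofMul (Units.mk0 π π0)) = 1 from ordv_of h, smul_eq_mul,
    mul_one]

theorem apx_od (hS : S.Finite) (n : PL L → ℤ) : ∃ y : Additive Lˣ, ∀ w ∈ S, od w y = n w := by
  choose x hx using fun w => ex_od w (n w)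
  obtain ⟨y, hy⟩ := apx_u (p := 2) hS x 0
  exact ⟨y, fun w hw => by rw [← hx, ← sub_eq_zero, ← map_sub, Vw_od (hy w hw)]⟩

/-- the units at `S` -/
abbrev EE (S : Set (PL L)) : AddSubgroup (Additive Lˣ) := al S fun w => (od w).ker

/-- the filtration -/
abbrev VV (p : ℕ) [Fact p.Prime] (S : Set (PL L)) (n : ℕ) : AddSubgroup (Additive Lˣ) :=
  al S (Vw p n)

theorem idx (hS : S.Finite) (n : ℕ) : (VV p S n).relIndex (EE S) ≠ 0 := by
  obtain ⟨m, m0, hm⟩ := ex_m hS
  choose t ht using fun x : EE S => apx_int hS (fun _ => el x.1)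
    (fun w hw => (od_zero.1 (x.2 w hw)).le) (pow_ne_zero n (p_ne (p := p)))
  haveI := Ideal.finiteQuotientOfFreeOfNeBot (Ideal.span {((m * p ^ n : ℕ) : 𝓞 L)}) (by
    rw [Ne, Ideal.span_singleton_eq_bot, Nat.cast_eq_zero]
    exact mul_ne_zero m0 (pow_ne_zero n (Fact.out : p.Prime).ne_zero))
  refine fin_of (fun x => Ideal.Quotient.mk (Ideal.span {((m * p ^ n : ℕ) : 𝓞 L)}) (t x))
    fun x y e w hw => sub_Vw.2 ?_
  obtain ⟨c, hc⟩ := Ideal.mem_span_singleton'.1 (Ideal.Quotient.eq.1 e)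
  have e1 : (t x : L) - t y = c * (m * p ^ n) := by
    have := congrArg (algebraMap (𝓞 L) L) hc
    rw [map_mul, map_natCast, map_sub, Nat.cast_mul, Nat.cast_pow] at this
    exact this.symm
  rw [od_zero.1 (y.2 w hw), mul_one, ← map_pow,
    show el x.1 - el y.1 = (t x - t y) + (t y - el y.1) - (t x - el x.1) by ring]
  refine (w.valuation L).map_sub_lt ((w.valuation L).map_add_lt ?_ (ht y w hw)) (ht x w hw)
  rw [e1, map_mul, map_mul, map_pow]
  exact (mul_le_of_le_one_left' (w.valuation_le_one c)).trans_lt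
    (mul_lt_of_lt_one_left (vp_pos w n) (hm w hw))

section

variable (M : Mu p L)

include M

theorem vp_l (w : PL L) : w.valuation L (p : L) ^ 1 ≤ w.valuation L M.l := by
  rw [pow_one, M.val_p]
  exact pow_le_of_le_one zero_le (M.val_l_le _) (by have := M.prime.two_le; omega)

theorem vp_lp (w : PL L) : w.valuation L (p : L) ^ 2 ≤ w.valuation L (M.l ^ p) := by
  rw [M.val_p, map_pow, ← pow_mul]
  exact pow_le_pow_right_of_le_one' (M.val_l_le _) (by have := M.prime.two_le; omega)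

theorem pow_iff {x : Additive Lˣ} (h : w.valuation L (el x - 1) < w.valuation L M.l) :
    p • x ∈ Vw p 2 w ↔ x ∈ Vw p 1 w := by
  rw [mem_Vw, mem_Vw, el_nsmul, v_pow_sub M _ h, ← M.val_p, sq, pow_one]
  exact mul_lt_mul_iff_left₀ (pow_one (w.valuation L (p : L)) ▸ vp_pos w 1)

/-- the local powers -/
theorem mem_lam (hS : S.Finite) {x : Additive Lˣ} : x ∈ mu p ⊤ ⊔ VV p S 2 ↔
    ∀ w ∈ S, Additive.toMul x ∈ LS M (w.valuation L) := by
  refine ⟨fun h w hw => ?_, fun h => ?_⟩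
  · obtain ⟨_, ⟨y, -, rfl⟩, v, hv, rfl⟩ := AddSubgroup.mem_sup.1 h
    exact mul_mem (pow_mem_LS (Additive.toMul y)) (LS_of_close ((hv w hw).trans_le (vp_lp M w)))
  · choose! y hy using fun w hw => LS_newton' (h w hw) (vp_pos (p := p) w 2).ne'
    obtain ⟨z, hz⟩ := apx_u (p := p) hS (fun w => Additive.ofMul (y w)) 2
    refine AddSubgroup.mem_sup.2 ⟨p • z, ⟨z, trivial, rfl⟩, x - p • z, fun w hw => ?_, by abel⟩
    rw [show x - p • z = (x - p • Additive.ofMul (y w)) - p • (z - Additive.ofMul (y w)) by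
      rw [nsmul_sub]; abel]
    refine sub_mem ?_ (nsmul_mem (hz w hw) p)
    rw [mem_Vw, el_sub, el_nsmul]
    exact hy w hw

end

variable (hS : S.Finite) (sS : ∀ g, ∀ w ∈ S, mv (r g).toRingEquiv w ∈ S) (h : Ψ.Add p U)
  (hU : ∀ u ∈ U, r u = 1)

/-- the orders -/
def fo (p : ℕ) (S : Set (PL L)) : Additive Lˣ →+ (S → ZMod p) :=
  AddMonoidHom.mk' (fun x w => (od w.1 x : ZMod p)) fun x y => funext fun w => by simp

include hS in
theorem fo_zero {x : Additive Lˣ} : fo p S x = 0 ↔ x ∈ EE S ⊔ mu p ⊤ := by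
  refine ⟨fun e => ?_, fun k => ?_⟩
  · obtain ⟨y, hy⟩ := apx_od hS fun w => od w x / p
    refine AddSubgroup.mem_sup.2 ⟨x - p • y, fun w hw => ?_, p • y, ⟨y, trivial, rfl⟩, by abel⟩
    show od w _ = 0
    rw [map_sub, map_nsmul, hy w hw, nsmul_eq_mul, Int.mul_ediv_cancel'
      ((ZMod.intCast_zmod_eq_zero_iff_dvd _ _).1 (congrFun e ⟨w, hw⟩)), sub_self]
  · obtain ⟨y, hy, _, ⟨z, -, rfl⟩, rfl⟩ := AddSubgroup.mem_sup.1 k
    rw [map_add, show fo p S (nsmulAddMonoidHom p z) = 0 from (map_nsmul _ p z).trans (p_fun _),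
      add_zero]
    exact funext fun w => (congrArg Int.cast (hy w w.2)).trans Int.cast_zero

include hS in
theorem idx_top : (mu p ⊤ ⊔ VV p S 2).relIndex ⊤ ≠ 0 := by
  haveI := hS.to_subtype
  refine AddSubgroup.relIndex_ne_zero_trans (K := EE S ⊔ mu p ⊤) ?_
    (fin_of (fun x => fo p S x.1) fun x y e => (fo_zero hS).1 (by rw [map_sub, e, sub_self]))
  have := rel_mono (idx (p := p) hS 2) (le_sup_right (a := mu p ⊤)) le_rfl
  rw [← AddSubgroup.relIndex_sup_right] at this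
  exact rel_mono this le_rfl (sup_le_sup_left le_sup_left _)

include hU in
theorem tU (u : G) (k : u ∈ U) (m : Additive Lˣ) : aL r u m = m :=
  el_inj (by rw [el_aL, hU u k]; rfl)

include hU in
theorem tS (u : G) (k : u ∈ U) (s : S) : pS r sS u s = s := Subtype.ext (by
  show mv _ s.1 = s.1
  rw [hU u k, mv_one])

include sS in
theorem st_EE : St (aL r) (EE S) := st_al sS fun g w x hx => (od_aL r g w x).trans hx

include hS h hU in
/-- the orders -/
theorem c1 : Ψ.sq (aL r) ⊤ (EE S ⊔ mu p ⊤) = Ψ _ (fa (pS r sS) (1 : G →* (ZMod p)ˣ)) := by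
  haveI := hS.to_subtype
  rw [← top_bot h (md_fa (fun _ _ => rfl) (tS sS hU))]
  refine trans' h (fo p S) (st_sup (st_EE sS) (st_mu st_top p)) st_bot st_top st_top
    (fun g x _ => funext fun w => ?_) (fun _ _ => trivial) (fun f _ => ?_)
    (fun x _ => fo_zero hS) (rel_mono (idx_top (p := p) hS) (sup_le le_sup_right
      fun x hx => AddSubgroup.mem_sup_left fun w hw => Vw_od (hx w hw)) le_rfl)
    (fun x _ => AddSubgroup.mem_sup_right ⟨x, trivial, rfl⟩) fun u k x _ => by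
      rw [tU hU u k, sub_self]; exact zero_mem _
  · refine Eq.trans (congrArg Int.cast ?_) (one_mul _).symm
    rw [← od_aL r g _ x, show mv (r g).toRingEquiv (pS r sS g⁻¹ w).1 = w from mv_inv r g w]
  · classical
    obtain ⟨y, hy⟩ := apx_od hS fun w => if k : w ∈ S then (f ⟨w, k⟩).val else 0
    refine ⟨y, trivial, sub_eq_zero.2 (funext fun w => ?_)⟩
    show ((od w.1 y : ℤ) : ZMod p) = f w
    rw [hy w w.2, dif_pos w.2]
    simp

include hS h hU in
/-- the roots of unity -/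
theorem c2 (M : Mu p L) {ω : G →* (ZMod p)ˣ} (hω : ∀ u ∈ U, ω u = 1)
    (hz : ∀ g, r g M.ζ = M.ζ ^ (ω g : ZMod p).val) :
    Ψ.sq (aL r) ((VV p S 2).comap (nsmulAddMonoidHom p)) (VV p S 1) = Ψ _ (fa (pS r sS) ω) := by
  haveI := hS.to_subtype
  have sV := fun n => st_al (a := aL r) sS (st_Vw (p := p) n)
  have ex : ∀ (x : (VV p S 2).comap (nsmulAddMonoidHom p)) (w : S), ∃ a : ZMod p,
      w.1.valuation L (el x.1 - M.ζ ^ a.val) < w.1.valuation L M.l := fun x w =>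
    near_ex M _ (by
      rw [← el_nsmul]
      exact (x.2 w w.2).trans_le (vp_lp M w))
  choose f hf using ex
  have v1 : ∀ (x : (VV p S 2).comap (nsmulAddMonoidHom p)) (w : S),
      w.1.valuation L (el x.1) = 1 := fun x w => by
    have := Vw_od (x.2 w w.2)
    rw [show od w.1 (nsmulAddMonoidHom p x.1) = p • od w.1 x.1 from map_nsmul _ _ _] at this
    exact od_zero.1 ((smul_eq_zero.1 this).resolve_left M.prime.ne_zero)
  rw [← top_bot h (md_fa hω (tS sS hU))]
  refine trans h (AddMonoidHom.mk' f fun x y => funext fun w => near_uniq M _ (hf _ w) ?_)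
    (sV 1) st_bot st_top (st_cm (sV 2) p)
    (fun g x => sub_eq_zero.2 (funext fun w => near_uniq M _ (hf _ w) ?_)) (fun _ => trivial)
    (fun a _ => ?_) (fun x => ⟨fun e w hw => ?_, fun e => funext fun w => ?_⟩)
    (rel_mono (idx hS 1) le_rfl fun x hx w hw => od_zero.2 (v1 ⟨x, hx⟩ ⟨w, hw⟩))
    (fun x hx w hw => (hx w hw).trans_le (pow_le_pow_right_of_le_one' (val_nat_le _ p) one_le_two))
    fun u k x _ => by rw [tU hU u k, sub_self]; exact zero_mem _
  · show w.1.valuation L (el x.1 * el y.1 - M.ζ ^ (f x w + f y w).val) < _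
    rw [pw_add, show el x.1 * el y.1 - M.ζ ^ (f x w).val * M.ζ ^ (f y w).val =
      (el x.1 - M.ζ ^ (f x w).val) * el y.1 + M.ζ ^ (f x w).val * (el y.1 - M.ζ ^ (f y w).val)
      by ring]
    refine (w.1.valuation L).map_add_lt ?_ ?_
    · rw [map_mul, v1, mul_one]; exact hf x w
    · rw [map_mul, v_zeta, one_mul]; exact hf y w
  · have k := hf x (pS r sS g⁻¹ w)
    rw [← val_mv (r g), ← val_mv (r g) _ M.l,
      show mv (r g).toRingEquiv (pS r sS g⁻¹ w).1 = w from mv_inv r g w, Mu.l, map_sub (r g),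
      map_sub (r g), map_pow, hz, map_one (r g), v_one_sub M _ fun d => (ω g).ne_zero ((ZMod.val_eq_zero _).1
        (Nat.eq_zero_of_dvd_of_lt d (ZMod.val_lt _))), ← pow_mul,
      pow_eq_pow_mod _ M.zeta_pow, ← ZMod.val_mul] at k
    exact k
  · classical
    let z : PL L → Additive Lˣ := fun w => (if k : w ∈ S then (a ⟨w, k⟩).val else 0) •
      Additive.ofMul (Units.mk0 M.ζ M.zeta_ne)
    have ez : ∀ w : S, el (z w) = M.ζ ^ (a w).val := fun w => by
      rw [el_nsmul, dif_pos w.2]; rfl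
    obtain ⟨y, hy⟩ := apx_u (p := p) hS z 1
    refine ⟨⟨y, fun w hw => ?_⟩, sub_eq_zero.2 (funext fun w => near_uniq M _ (hf _ w) ?_)⟩
    · have k := (pow_iff M ((hy w hw).trans_le (vp_l M w))).2 (hy w hw)
      rwa [nsmul_sub, show p • z w = 0 from el_inj (by
        rw [el_nsmul, ez ⟨w, hw⟩, ← pow_mul, mul_comm, pow_mul, M.zeta_pow, one_pow]; rfl),
        sub_zero] at k
    · have k := sub_Vw.1 (hy w w.2)
      rw [ez, v_zeta, mul_one] at k
      exact k.trans_le (vp_l M w)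
  · have k := hf x ⟨w, hw⟩
    rw [show f x ⟨w, hw⟩ = 0 from congrFun (AddSubgroup.mem_bot.1 e) _, ZMod.val_zero,
      pow_zero] at k
    exact (pow_iff M k).1 (x.2 w hw)
  · refine near_uniq M _ (hf x w) ?_
    rw [Pi.zero_apply, ZMod.val_zero, pow_zero]
    exact (e w w.2).trans_le (vp_l M w)

include hS h hU sS in
/-- the additive part -/
theorem c3 (M : Mu p L) (hp : ∀ w ∉ S, w.valuation L (p : L) = 1) :
    Ψ.sq (aL r) (VV p S 1) (VV p S 2) = Ψ _ (fa (pL r) (1 : G →* (ZMod p)ˣ)) := by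
  have pp : p.Prime := Fact.out
  have sV := fun n => st_al (a := aL r) sS (st_Vw (p := p) n)
  obtain ⟨m, m0, hm⟩ := ex_m hS
  let B : AddSubgroup L := al Set.univ (fun w : PL L => (w.valuation L).leAddSubgroup 1) ⊓
    al S fun w => (w.valuation L).ltAddSubgroup 1
  have mB : ∀ y, y ∈ B ↔ (∀ w : PL L, w.valuation L y ≤ 1) ∧ ∀ w ∈ S, w.valuation L y < 1 :=
    fun y => ⟨fun k => ⟨fun w => k.1 w trivial, k.2⟩, fun k => ⟨fun w _ => k.1 w, k.2⟩⟩
  have sB : St (aA r) B := fun g y hy =>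
    ⟨st_al (r := r) (S := Set.univ) (fun _ _ _ => trivial) (fun g w x hx => (val_mv (r g) w x).trans_le hx) g y hy.1,
      st_al sS (fun g w x hx => (val_mv (r g) w x).trans_lt hx) g y hy.2⟩
  have l1 : ∀ x ∈ B, ∃ z : 𝓞 L, (z : L) = x := fun x hx =>
    HeightOneSpectrum.mem_integers_of_valuation_le_one L x ((mB x).1 hx).1
  obtain ⟨i1, e1⟩ := lat_cnt r h hU sB l1 m0 fun z => (mB _).2 ⟨fun w => by
    rw [nsmul_eq_mul, map_mul]
    exact mul_le_one' (val_nat_le _ m) (w.valuation_le_one z), fun w hw => by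
    rw [nsmul_eq_mul, map_mul]
    exact (mul_le_of_le_one_right' (w.valuation_le_one z)).trans_lt (hm w hw)⟩
  have ne : ∀ y : B, 1 + p * y.1 ≠ 0 := fun y e => by
    obtain ⟨z, hz⟩ := l1 _ y.2
    have k : (p : 𝓞 L) * -z = 1 := RingOfIntegers.ext (by
      change (p : L) * -(z : L) = 1
      rw [hz]
      linear_combination -e)
    have := (IsUnit.of_mul_eq_one _ k).map (Algebra.norm ℤ)
    rw [← map_natCast (algebraMap ℤ (𝓞 L)), Algebra.norm_algebraMap, isUnit_pow_iff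
      Module.finrank_pos.ne', Int.isUnit_iff_natAbs_eq, Int.natAbs_natCast] at this
    exact pp.ne_one this
  let u : B → Additive Lˣ := fun y => Additive.ofMul (Units.mk0 _ (ne y))
  have eu : ∀ y, el (u y) = 1 + p * y.1 := fun _ => rfl
  have p0 : ∀ w : PL L, 0 < w.valuation L (p : L) := fun w => pow_one (w.valuation L (p : L)) ▸
    vp_pos w 1
  have uV : ∀ y, u y ∈ VV p S 1 := fun y w hw => by
    rw [mem_Vw, eu, add_sub_cancel_left, map_mul, pow_one]
    exact mul_lt_of_lt_one_right (p0 w) (((mB _).1 y.2).2 w hw)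
  have key : ∀ (x y : Additive Lˣ) (t : L), y ∈ VV p S 1 → el x - el y = p * t →
      (x - y ∈ VV p S 2 ↔ ∀ w ∈ S, w.valuation L t < w.valuation L p) := fun x y t hy e =>
    forall₂_congr fun w hw => by
      rw [sub_Vw, e, od_zero.1 (Vw_od (hy w hw)), mul_one, map_mul, sq]
      exact mul_lt_mul_iff_right₀ (p0 w)
  let q := QuotientAddGroup.mk' (VV p S 2)
  have q0 : ∀ m, q m = 0 ↔ m ∈ VV p S 2 := fun m => QuotientAddGroup.eq_zero_iff m
  have e2 : Ψ.sq (aL r) (VV p S 1) (VV p S 2) =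
      Ψ.sq ((aL r).quo _ (sV 2)) ((VV p S 1).map q) ⊥ :=
    trans' h q (sV 2) st_bot (st_quo (sV 2) (sV 1)) (sV 1) (fun _ _ _ => rfl)
      (fun m hm => ⟨m, hm, rfl⟩) (by
        rintro _ ⟨m, hm, rfl⟩
        exact ⟨m, hm, sub_self _⟩) (fun m _ => q0 m)
      (rel_mono (idx hS 2) le_rfl fun x hx w hw => Vw_od (hx w hw))
      (fun x hx w hw => ?_) fun u k x _ => by rw [tU hU u k, sub_self]; exact zero_mem _
  · rw [e2, ← e1]
    refine (trans h (AddMonoidHom.mk' (fun y => q (u y)) fun x y => ?_) (st_mu sB p) st_bot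
      (st_quo (sV 2) (sV 1)) sB (fun g y => sub_eq_zero.2 (congrArg q (el_inj ?_)))
      (fun y => ⟨_, uV y, rfl⟩) ?_ (fun y => ?_) i1 (fun m hm => ⟨m, hm, rfl⟩) fun u k x _ => by
        rw [show aA r u x = x by show r u x = x; rw [hU u k]; rfl, sub_self]
        exact zero_mem _).symm
    · rw [← map_add, ← sub_eq_zero, ← map_sub, q0,
        key _ _ (-(p * (x.1 * y.1))) (add_mem (uV x) (uV y)) (by
          rw [el_add, eu, eu, eu, AddSubgroup.coe_add]; ring)]
      intro w hw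
      rw [Valuation.map_neg, map_mul, map_mul]
      exact mul_lt_of_lt_one_right (p0 w)
        ((mul_le_of_le_one_left' (((mB _).1 x.2).1 w)).trans_lt (((mB _).1 y.2).2 w hw))
    · show 1 + p * r g y.1 = r g (1 + p * y.1)
      rw [map_add, map_mul, map_one, map_natCast]
    · rintro _ ⟨x, hx, rfl⟩
      have k : ∀ w ∈ S, w.valuation L ((el x - 1) / p) < 1 := fun w hw => by
        rw [map_div₀, div_lt_one₀ (p0 w), ← pow_one (w.valuation L (p : L))]
        exact hx w hw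
      obtain ⟨t, ht⟩ := apx_int hS (fun _ => (el x - 1) / p) (fun w hw => (k w hw).le)
        (p_ne (p := p))
      refine ⟨⟨t, (mB _).2 ⟨fun w => w.valuation_le_one t, fun w hw => ?_⟩⟩, ?_⟩
      · rw [← sub_add_cancel (t : L) ((el x - 1) / p)]
        exact (w.valuation L).map_add_lt ((ht w hw).trans_le (val_nat_le _ p)) (k w hw)
      · refine (map_sub q _ _).symm.trans ((q0 _).2 ((key _ _ _ hx ?_).2 ht))
        rw [eu, mul_sub, mul_div_cancel₀ _ p_ne]
        ring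
    · refine (q0 _).trans ?_
      rw [← sub_zero (u y), key _ _ y.1 (zero_mem _) (add_sub_cancel_left _ _)]
      refine ⟨fun k => ⟨y.1 / p, (mB _).2 ⟨fun w => ?_, fun w hw => ?_⟩, ?_⟩, ?_⟩
      · rw [map_div₀, div_le_one₀ (p0 w)]
        by_cases hw : w ∈ S
        · exact (k w hw).le
        · exact hp w hw ▸ ((mB _).1 y.2).1 w
      · rw [map_div₀, div_lt_one₀ (p0 w)]
        exact k w hw
      · exact (nsmul_eq_mul _ _).trans (mul_div_cancel₀ _ p_ne)
      · rintro ⟨t, ht, e⟩ w hw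
        rw [← e, nsmulAddMonoidHom_apply, nsmul_eq_mul, map_mul]
        exact mul_lt_of_lt_one_right (p0 w) (((mB _).1 ht).2 w hw)
  · exact (pow_iff M ((hx w hw).trans_le (vp_l M w))).2 (hx w hw)

include hS h hU in
/-- **the class of the semilocal multiplicative group modulo powers** -/
theorem loc_cnt (M : Mu p L) {ω : G →* (ZMod p)ˣ} (hω : ∀ u ∈ U, ω u = 1)
    (hz : ∀ g, r g M.ζ = M.ζ ^ (ω g : ZMod p).val) (hp : ∀ w ∉ S, w.valuation L (p : L) = 1) :
    Ψ.sq (aL r) ⊤ (mu p ⊤ ⊔ VV p S 2) = Ψ _ (fa (pS r sS) (1 : G →* (ZMod p)ˣ)) +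
      Ψ _ (fa (pS r sS) ω) + Ψ _ (fa (pL r) (1 : G →* (ZMod p)ˣ)) := by
  have sV : ∀ n, St (aL r) (VV p S n) := fun n => st_al sS (st_Vw n)
  have sE := st_EE sS
  have sT := st_mu (st_top (a := aL r)) p
  have lV : ∀ n, VV p S n ≤ EE S := fun n x hx w hw => Vw_od (hx w hw)
  have tu : ∀ {D : AddSubgroup (Additive Lˣ)} (u : G), u ∈ U → ∀ m, aL r u m - m ∈ D :=
    fun u k m => by rw [tU hU u k, sub_self]; exact zero_mem _
  have sat : ∀ x, p • x ∈ EE S → x ∈ EE S := fun x hx w hw =>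
    (smul_eq_zero.1 ((map_nsmul (od w) p x).symm.trans (hx w hw))).resolve_left M.prime.ne_zero
  have e1 := chain h (st_sup sT (sV 2)) (st_sup sE sT) st_top
    (sup_le le_sup_right ((lV 2).trans le_sup_left)) le_top (idx_top hS)
    (fun x _ => AddSubgroup.mem_sup_left ⟨x, trivial, rfl⟩) fun u k m _ => tu u k m
  have e2 : Ψ.sq (aL r) (EE S) (mu p (EE S) ⊔ VV p S 2) =
      Ψ.sq (aL r) (EE S ⊔ mu p ⊤) (mu p ⊤ ⊔ VV p S 2) :=
    trans' h (AddMonoidHom.id _) (st_sup (st_mu sE p) (sV 2)) (st_sup sT (sV 2)) (st_sup sE sT) sE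
      (fun _ _ _ => rfl) (fun m hm => AddSubgroup.mem_sup_left hm) (fun y hy => by
        obtain ⟨b, hb, t, ht, rfl⟩ := AddSubgroup.mem_sup.1 hy
        exact ⟨b, hb, AddSubgroup.mem_sup_left (by simpa using ht)⟩) (fun m hm => ⟨fun k => by
        obtain ⟨_, ⟨y, -, rfl⟩, v, hv, e⟩ := AddSubgroup.mem_sup.1 k
        refine AddSubgroup.mem_sup.2 ⟨_, ⟨y, sat y ?_, rfl⟩, v, hv, e⟩
        rw [show p • y = m - v from eq_sub_of_add_eq e]
        exact sub_mem hm (lV 2 hv), fun k => sup_le_sup_right (mu_mono p le_top) _ k⟩)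
      (rel_mono (idx hS 2) le_sup_right le_rfl)
      (fun m hm => AddSubgroup.mem_sup_left ⟨m, hm, rfl⟩) fun u k m _ => tu u k m
  have e3 := herb M.prime h (sV 2) sE (st_cm (sV 2) p) (lV 2) (idx hS 2) (tU hU)
    fun x => ⟨fun k => ⟨sat x (lV 2 k), k⟩, fun k => k.2⟩
  have e4 := chain h (sV 2) (sV 1) (st_cm (sV 2) p)
    (fun x hx w hw => (hx w hw).trans_le (pow_le_pow_right_of_le_one' (val_nat_le _ p) one_le_two))
    (fun x hx w hw => (pow_iff M ((hx w hw).trans_le (vp_l M w))).2 (hx w hw))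
    (rel_mono (idx hS 2) le_rfl fun x hx => sat x (lV 2 hx)) (fun _ k => k) fun u k m _ => tu u k m
  rw [c1 hS sS h hU, ← e2, e3, e4, c2 hS sS h hU M hω hz, c3 hS sS h hU M hp] at e1
  omega

end Lc

open Cal Gcl Lc in
theorem lcl (hF : FLD) (hK : KUM2) (hO : OKL) : LCL := by
  intro G _ _ _ _ ι p _ ω T Q hQ U h
  obtain ⟨L, _, _, M, j, r, dn, hj, -, hr, hz, h1, h2, h3, h4, h5, h6, h7, -⟩ :=
    hF G ι p ω T Q hQ U h
  obtain ⟨-, o2, -, -⟩ := hO G ι p ω T Q hQ U h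
  haveI := h.nor
  have hj' : ∀ g, ι g ∈ GK j ↔ g ∈ U := fun g => by
    rw [hj]; exact Subgroup.mem_map_iff_mem h.emb.injective
  have hs : ∀ x ∈ GK j, ∃ g, ι g = x := fun x hx => by
    rw [hj] at hx
    exact hx.imp fun g hg => hg.2
  have hU : ∀ u ∈ U, r u = 1 := fun u hu => AlgEquiv.ext fun x => j.injective (by
    rw [hr]; exact (hj' u).2 hu x)
  obtain ⟨fT, eT⟩ := sa_fu (p := p) h3 h4 (ov_stb ι T) (fun P k => k.imp fun _ a => a.2) o2.fin
  have hS : (SA dn (ov T)).Finite := Set.toFinite _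
  have sS := sa_st h4 (ov_stb ι T)
  let κ : Additive Lˣ →+ (ov T × G → ZMod p) := (rs p (pT ι T)).comp (ka U ι M hj')
  have k1 : ∀ b, κ b ∈ Lo p (pT ι T) U := fun b => rs_mem (ka_mem (A := Set.univ) hK
    h.emb.continuous h.opn hj' h1 h3 (fun _ _ _ => trivial) (fun _ _ => trivial)
    (fun _ _ ⟨_, _, _, k, _⟩ => (k trivial).elim) (fun _ ⟨_, _, _, k, _⟩ => (k trivial).elim)
    fun w hw => by
      obtain ⟨l, P, k, e⟩ := h2 w
      exact (hw ⟨l, P, k, trivial, e⟩).elim)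
  have k2 : ∀ b l (P : ov T) (k : Ov l P), (∀ g, κ b (P, g) = 0) ↔
      Additive.toMul b ∈ LS M ((dn l P k).valuation L) := fun b l P k => by
    obtain ⟨f, hf⟩ := Kum.ex M j (Additive.toMul b)
    rw [← kum3 p L M j l P _ k (h1 l P k) _ f hf]
    refine ⟨fun e x hx => ?_, fun e g => ?_⟩
    · obtain ⟨g, rfl⟩ := hs x hx.1
      rw [← ka_pos hj' hf ((hj' g).1 hx.1), ← e g]
      exact (rs_pos _ (Subtype.ext ((Pl.dec_iff _ _).1 hx.2))).symm
    · by_cases c : g ∈ U ∧ pT ι T g P = P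
      · exact (rs_pos _ c.2).trans ((ka_pos hj' hf c.1).trans
          (e _ ⟨(hj' g).2 c.1, (Pl.dec_iff _ _).2 (congrArg Subtype.val c.2)⟩))
      · exact (k1 b).2.1 P g c
  have k3 : ∀ b, κ b = 0 ↔ b ∈ mu p ⊤ ⊔ VV p (SA dn (ov T)) 2 := fun b => by
    rw [mem_lam M hS]
    refine ⟨?_, fun e => funext fun ⟨P, g⟩ => ?_⟩
    · rintro e _ ⟨l, P, k, hP, rfl⟩
      exact (k2 b l ⟨P, hP⟩ k).1 fun g => congrFun e _
    · obtain ⟨l, -, k⟩ := id P.2
      exact (k2 b l P k).2 (e _ ⟨l, P, k, P.2, rfl⟩) g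
  have k4 : ∀ F ∈ Lo p (pT ι T) U, ∃ b, κ b = F := fun F hF => by
    classical
    have e' : ∀ g, Function.invFun ι (ι g) = g := Function.leftInverse_invFun h.emb.injective
    have ex : ∀ w ∈ SA dn (ov T), ∃ (b : Additive Lˣ) (l : ℕ) (P : ov T) (k : Ov l P),
        dn l P k = w ∧ ∀ g, κ b (P, g) = F (P, g) := by
      rintro _ ⟨l, P, k, hP, rfl⟩
      obtain ⟨f1, f2, -, W, hW, f4⟩ := id hF
      obtain ⟨b, f, hf, e⟩ := kum4 p L M j l P (fun x => F (⟨P, hP⟩, Function.invFun ι x)) k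
        (ch_open (V := W.map ι) (fun x hx y hy => by
          obtain ⟨g, rfl⟩ := hs x hx.1
          obtain ⟨g', rfl⟩ := hs y hy.1
          rw [← map_mul, e', e', e']
          exact f1 _ g ((hj' g).1 hx.1) g' ((hj' g').1 hy.1)
            (Subtype.ext ((Pl.dec_iff _ _).1 hx.2)) (Subtype.ext ((Pl.dec_iff _ _).1 hy.2)))
          (h.emb.isOpenMap _ hW.opn) (by
            rintro _ ⟨w, hw, rfl⟩ -
            rw [e', f4 w hw]))
      refine ⟨Additive.ofMul b, l, ⟨P, hP⟩, k, rfl, fun g => ?_⟩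
      by_cases c : g ∈ U ∧ pT ι T g ⟨P, hP⟩ = ⟨P, hP⟩
      · refine (rs_pos _ c.2).trans ((ka_pos hj' (b := Additive.ofMul b) hf c.1).trans ?_)
        rw [e _ ⟨(hj' g).2 c.1, (Pl.dec_iff _ _).2 (congrArg Subtype.val c.2)⟩, e']
      · rw [(k1 _).2.1 _ g c, f2 _ g c]
    choose! b hb using ex
    obtain ⟨y, hy⟩ := apx_u (p := p) hS b 2
    refine ⟨y, funext fun ⟨P, g⟩ => ?_⟩
    obtain ⟨l, -, k⟩ := id P.2
    have hw : dn l P k ∈ SA dn (ov T) := ⟨l, P, k, P.2, rfl⟩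
    obtain ⟨l', P', k', e1, e2⟩ := hb _ hw
    obtain ⟨u, hu, e3⟩ := (h3 _ _ _ _ _ _).1 e1
    have e4 : (P, g) = pj (pT ι T) u (P', u⁻¹ * g * u) := by
      rw [pj_apply]
      exact Prod.ext (Subtype.ext e3.symm) (by group)
    rw [e4, (k1 y).2.2.1 u hu, hF.2.2.1 u hu, ← e2, ← sub_eq_zero, ← Pi.sub_apply, ← map_sub]
    refine (k2 _ l' P' k').2 ?_ _
    rw [e1]
    exact LS_of_close ((hy _ hw).trans_le (vp_lp M _))
  refine ⟨?_, fun Ψ a χ hχ => ?_⟩
  · have e : (⊤ : AddSubgroup (Additive Lˣ)).map κ = Lo p (pT ι T) U := by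
      ext f
      exact ⟨by rintro ⟨b, -, rfl⟩; exact k1 b, fun k => (k4 f k).imp fun b e => ⟨trivial, e⟩⟩
    rw [← e]
    refine Nat.finite_of_card_ne_zero (AddSubgroup.relIndex_ker ⊤ κ ▸ ?_)
    exact rel_mono (idx_top hS) (fun b hb => (k3 b).2 hb) le_rfl
  have a' := twA_add a hχ
  have e1 := loc_cnt hS sS a' hU M h.om hz fun w hw => by
    obtain ⟨l, P, k, rfl⟩ := h2 w
    refine le_antisymm (val_nat_le _ p) (not_lt.1 fun c => hw ⟨l, P, k, ⟨l, (h5 l P k).1 ⟨p, h.pT,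
      M.prime.ne_zero, ?_⟩, k⟩, rfl⟩)
    rwa [← map_natCast (algebraMap (𝓞 L) L), HeightOneSpectrum.valuation_lt_one_iff_mem] at c
  have e2 : (twA Ψ χ).sq (aL r) ⊤ (mu p ⊤ ⊔ VV p (SA dn (ov T)) 2) =
      (twA Ψ χ).sq (fa (pj (pT ι T)) ω) (Lo p (pT ι T) U) ⊥ :=
    trans' a' κ (st_sup (st_mu st_top p) (st_al sS (st_Vw 2))) st_bot (st_lo ω) st_top
      (fun g b _ => (congrArg (rs p (pT ι T)) (ka_aL hj' hr hz g b)).trans (rs_fa ω g _))
      (fun b _ => k1 b) (fun f hf => (k4 f hf).imp fun b e => ⟨trivial, sub_eq_zero.2 e⟩)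
      (fun b _ => k3 b) (idx_top hS) (fun x _ => AddSubgroup.mem_sup_left ⟨x, trivial, rfl⟩)
      fun u k m _ => by rw [tU hU u k, sub_self]; exact zero_mem _
  have e3 := (fu_eq a' (π := pE ι) (pL r) (fun Φ => Φ.comp j) h6
    (fun g Φ => RingHom.ext fun x => congrArg Φ (hr g⁻¹ x).symm) h7 (χ := 1) fun _ _ => rfl).1
  rw [e2, ← eT _ a' 1 fun _ _ => rfl, ← eT _ a' ω h.om, ← e3, twA_sq, twA_fu, twA_fu, twA_fu,
    show (1 : G →* (ZMod p)ˣ) * χ = χ from one_mul χ] at e1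
  exact e1

end Vale.Agent.P022K.GW
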