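import Vale.Agent.P022K.GW.Cor

/-!
# P022K, block GW: functoriality and exact sequences
-/

set_option linter.all false

noncomputable section

namespace Vale.Agent.P022K.GW

open Module

/-! ### linear algebra -/

section

variable {k A B C : Type} [Field k] [AddCommGroup A] [Module k A] [AddCommGroup B] [Module k B]
  [AddCommGroup C] [Module k C]

theorem fin_ex (i : A →ₗ[k] B) (q : B →ₗ[k] C) (h : ∀ b, q b = 0 → ∃ a, i a = b)
    [Module.Finite k A] [Module.Finite k C] : Module.Finite k B := by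
  have h1 : (LinearMap.ker q).FG := by
    have : Module.Finite k (LinearMap.range i) := inferInstance
    have hle : LinearMap.ker q ≤ LinearMap.range i := fun b hb => h b hb
    have : Module.Finite k (LinearMap.ker q) :=
      Module.Finite.of_injective (Submodule.inclusion hle) (Submodule.inclusion_injective hle)
    exact Module.Finite.iff_fg.1 this
  refine ⟨Submodule.fg_of_fg_map_of_fg_inf_ker q ?_ (by rwa [top_inf_eq])⟩
  exact Module.Finite.iff_fg.1 inferInstance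

theorem rk_ker_le (i : A →ₗ[k] B) (q : B →ₗ[k] C) (h : ∀ b, q b = 0 → ∃ a, i a = b)
    [Module.Finite k B] : finrank k (LinearMap.ker q) ≤ finrank k (LinearMap.range i) :=
  Submodule.finrank_mono fun b hb => h b hb

theorem rk_ran_le (i : A →ₗ[k] B) (q : B →ₗ[k] C) (h : ∀ a, q (i a) = 0)
    [Module.Finite k B] : finrank k (LinearMap.range i) ≤ finrank k (LinearMap.ker q) :=
  Submodule.finrank_mono (by rintro _ ⟨a, rfl⟩; exact h a)

theorem rk_ex_le (i : A →ₗ[k] B) (q : B →ₗ[k] C) (h : ∀ b, q b = 0 → ∃ a, i a = b)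
    [Module.Finite k A] [Module.Finite k C] : finrank k B ≤ finrank k A + finrank k C := by
  have := fin_ex i q h
  have e1 := q.finrank_range_add_finrank_ker
  have e2 := rk_ker_le i q h
  have e3 := i.finrank_range_le
  have e4 := (LinearMap.range q).finrank_le
  omega

theorem rk_ex (i : A →ₗ[k] B) (q : B →ₗ[k] C) (hi : Function.Injective i)
    (hq : Function.Surjective q) (h : ∀ b, q b = 0 ↔ ∃ a, i a = b) [Module.Finite k B] :
    finrank k B = finrank k A + finrank k C := by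
  have e1 := q.finrank_range_add_finrank_ker
  have e2 : LinearMap.ker q = LinearMap.range i := Submodule.ext h
  rw [e2, LinearMap.finrank_range_of_inj hi, LinearMap.range_eq_top.2 hq, finrank_top] at e1
  omega

/-- a splitting as vector spaces -/
theorem ex_split (i : A →ₗ[k] B) (q : B →ₗ[k] C) (hi : Function.Injective i)
    (hq : Function.Surjective q) : ∃ (r : B →ₗ[k] A) (s : C →ₗ[k] B),
      (∀ a, r (i a) = a) ∧ ∀ c, q (s c) = c := by
  obtain ⟨r, hr⟩ := i.exists_leftInverse_of_injective (LinearMap.ker_eq_bot.2 hi)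
  obtain ⟨s, hs⟩ := q.exists_rightInverse_of_surjective (LinearMap.range_eq_top.2 hq)
  exact ⟨r, s, LinearMap.congr_fun hr, LinearMap.congr_fun hs⟩

theorem bip (i : A →ₗ[k] B) (q : B →ₗ[k] C) (r : B →ₗ[k] A) (s : C →ₗ[k] B)
    (h1 : ∀ a, r (i a) = a) (h2 : ∀ c, q (s c) = c) (h3 : ∀ a, q (i a) = 0)
    (h4 : ∀ c, r (s c) = 0) (h5 : ∀ b, i (r b) + s (q b) = b) : Nonempty (B ≃ₗ[k] A × C) :=
  ⟨LinearEquiv.ofLinear (r.prod q) (i.coprod s)
    (LinearMap.ext fun x => Prod.ext (by simp [h1, h4]) (by simp [h2, h3]))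
    (LinearMap.ext fun b => by simp [h5])⟩

end

/-! ### functoriality -/

section

variable {G X : Type} [Group G] [TopologicalSpace G] [IsTopologicalGroup G]
  {π : G →* Equiv.Perm X} {I : Set G}

theorem A1.bin {V V' V'' : Type} {b : G → V} {b' : G → V'} (h : A1 I b) (h' : A1 I b')
    (t : V → V' → V'') : A1 I fun g => t (b g) (b' g) := by
  obtain ⟨W, hW, h⟩ := h
  obtain ⟨W', hW', h'⟩ := h'
  exact ⟨W ⊓ W', hW.inf hW', fun w hw g => by simp only [h w hw.1, h' w hw.2]⟩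

theorem A1.comp {V V' : Type} {b : G → V} (h : A1 I b) (t : V → V') : A1 I fun g => t (b g) :=
  h.bin h fun a _ => t a

theorem A1.mono {V : Type} {b : G → V} (h : A1 I b) {I' : Set G} (hI : I' ⊆ I) : A1 I' b := by
  obtain ⟨W, hW, h⟩ := h
  exact ⟨W, hW.mono hI, h⟩

theorem A1.res {V : Type} {b : G → V} (h : A1 I b) (B : Subgroup G) :
    A1 (B.subtype ⁻¹' I) fun g : B => b g := by
  obtain ⟨W, hW, h⟩ := h
  exact ⟨_, hW.res B, fun w hw g => h w hw g⟩

theorem A2.comp {V V' : Type} {z : G → G → V} (h : A2 I z) (t : V → V') :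
    A2 I fun g g' => t (z g g') := by
  obtain ⟨W, hW, h⟩ := h
  exact ⟨W, hW, fun w hw g g' => by simp only [h w hw g g', and_self]⟩

theorem S0.comp {V V' : Type} {a : X → V} (h : S0 π a) (t : V → V') : S0 π fun x => t (a x) := by
  obtain ⟨W, hW, h⟩ := h
  exact ⟨W, hW, fun w hw g => by simp only [h w hw g]⟩

theorem S1.comp {V V' : Type} {e : G → X → V} (h : S1 π e) (t : V → V') :
    S1 π fun g x => t (e g x) := by
  obtain ⟨W, hW, h⟩ := h
  exact ⟨W, hW, fun w hw g x => by simp only [h w hw g x, and_self]⟩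

variable {k V V' : Type} [Field k] [AddCommGroup V] [Module k V] [AddCommGroup V'] [Module k V']
  {σ : Representation k G V} {σ' : Representation k G V'}

theorem Un.a1 (h : Un I σ) : A1 I σ := by
  obtain ⟨W, hW, h⟩ := h
  exact ⟨W, hW, fun w hw g => by rw [map_mul, h w hw, mul_one]⟩

theorem coc_mul [Nonempty X] {a : X → V} {c : G → V} (e : ∀ g x, a (π g x) = c g + σ g (a x))
    (g h : G) : c (g * h) = c g + σ g (c h) := by
  obtain ⟨x⟩ := ‹Nonempty X›
  have e1 := e (g * h) x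
  rw [pi_mul, e, e, map_add, ap_mul, ← add_assoc] at e1
  exact (add_right_cancel e1).symm

theorem coc_one [Nonempty X] {a : X → V} {c : G → V} (e : ∀ g x, a (π g x) = c g + σ g (a x)) :
    c 1 = 0 := by
  obtain ⟨x⟩ := ‹Nonempty X›
  have e1 := e 1 x
  rw [pi_one, ap_one] at e1
  exact (add_eq_right.1 e1.symm)

theorem Zc.s0 (hσ : Un I σ) {a : X → V} (ha : a ∈ Zc π I σ) : S0 π a := by
  obtain ⟨c, ⟨W, hW, h⟩, e⟩ := ha
  obtain ⟨U, hU, u⟩ := hσ
  refine ⟨_, (hW.inf hU).emp, fun w hw x => ?_⟩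
  have : Nonempty X := ⟨x⟩
  rw [e, u w hw.2, ← one_mul w, h w hw.1, coc_one e, zero_add]; rfl

theorem Zc.cst (hσ : Un I σ) (v : V) : (fun _ => v) ∈ Zc π I σ :=
  ⟨fun g => v - σ g v, hσ.a1.comp fun s => v - s v, fun _ _ => (sub_add_cancel _ _).symm⟩

theorem B2_le (hσ : Un I σ) : B2 π I σ ≤ Z2 π I σ := by
  rintro e ⟨b, a, ⟨W, hW, h⟩, ⟨U, hU, u⟩, f⟩
  obtain ⟨T, hT, t⟩ := hσ
  refine ⟨⟨_, ((hW.inf hT).emp).inf hU, fun w hw g x => ⟨?_, ?_⟩⟩,
    fun g g' => b (g * g') - b g - σ g (b g'), ⟨_, hW.inf hT, fun w hw g g' => ⟨?_, ?_⟩⟩,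
    fun g g' x => ?_⟩
  · rw [f, f, h w hw.1.1, map_mul σ, t w hw.1.2, mul_one, mul_inv_rev, pi_mul,
      u _ (inv_mem hw.2)]
  · rw [f, f, u w hw.2, ← pi_mul, show g⁻¹ * w = g⁻¹ * w * g * g⁻¹ by group, pi_mul,
      u _ (hU.cj hw.2 g)]
  · show b (g * w * g') - b (g * w) - σ (g * w) (b g') = _
    rw [show g * w * g' = g * g' * (g'⁻¹ * w * g') by group, h _ (hW.cj hw.1 g'), h w hw.1,
      map_mul σ, t w hw.2, mul_one]
  · show b (g * (g' * w)) - b g - σ g (b (g' * w)) = _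
    rw [← mul_assoc, h w hw.1, h w hw.1]
  · simp only [f, map_sub, map_add, ap_mul, mul_inv_rev, pi_mul]
    abel

variable (t : V →ₗ[k] V') (ht : ∀ g v, t (σ g v) = σ' g (t v))

include ht

theorem Zc.map {a : X → V} (ha : a ∈ Zc π I σ) : (fun x => t (a x)) ∈ Zc π I σ' := by
  obtain ⟨c, h, e⟩ := ha
  exact ⟨_, h.comp t, fun g x => by simp only [e, map_add, ht]⟩

theorem Z2.map {e : G → X → V} (he : e ∈ Z2 π I σ) : (fun g x => t (e g x)) ∈ Z2 π I σ' := by
  obtain ⟨h1, z, h, e⟩ := he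
  exact ⟨h1.comp t, _, h.comp t, fun g g' x => by simp only [e, map_add, ht]⟩

theorem B2.map {e : G → X → V} (he : e ∈ B2 π I σ) : (fun g x => t (e g x)) ∈ B2 π I σ' := by
  obtain ⟨b, a, h1, h2, e⟩ := he
  exact ⟨_, _, h1.comp t, h2.comp t, fun g x => by simp only [e, map_add, map_sub, ht]⟩

variable (π I)

/-- the map on the tangent spaces -/
def zm : Zc π I σ →ₗ[k] Zc π I σ' := (t.compLeft X).restrict fun _ h => Zc.map t ht h

/-- the map on the two cocycles -/
def z2m : Z2 π I σ →ₗ[k] Z2 π I σ' :=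
  ((t.compLeft X).compLeft G).restrict fun _ h => Z2.map t ht h

/-- the map on the obstruction spaces -/
def hm : H2 π I σ →ₗ[k] H2 π I σ' :=
  Submodule.mapQ _ _ (z2m π I t ht) fun _ h => B2.map t ht h

theorem hm_mk (e : Z2 π I σ) :
    hm π I t ht (Submodule.Quotient.mk e) = Submodule.Quotient.mk (z2m π I t ht e) := rfl

end

section

variable {G k V V' Y : Type} [Group G] [Field k] [AddCommGroup V] [Module k V] [AddCommGroup V']
  [Module k V'] {σ : Representation k G V} {σ' : Representation k G V'}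

/-- the map on the equivariant functions -/
def fm (π : G →* Equiv.Perm Y) (t : V →ₗ[k] V') (ht : ∀ g v, t (σ g v) = σ' g (t v)) :
    Fx π σ →ₗ[k] Fx π σ' :=
  (t.compLeft Y).restrict fun f h g y => by
    show t (f _) = σ' g (t (f y))
    rw [h g y, ht]

/-- the orbits -/
def obs (π : G →* Equiv.Perm Y) : Setoid Y where
  r x y := ∃ g, π g x = y
  iseqv := ⟨fun x => ⟨1, pi_one π x⟩, fun ⟨g, h⟩ => ⟨g⁻¹, by rw [← h, pi_inv]⟩,
    fun ⟨g, h⟩ ⟨g', h'⟩ => ⟨g' * g, by rw [pi_mul, h, h']⟩⟩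

theorem obs_mk (π : G →* Equiv.Perm Y) (g : G) (y : Y) :
    Quotient.mk (obs π) (π g y) = Quotient.mk (obs π) y :=
  (Quotient.sound (show ∃ g', π g' y = π g y from ⟨g, rfl⟩)).symm

theorem obs_out (π : G →* Equiv.Perm Y) (y : Y) : ∃ g, π g (Quotient.mk (obs π) y).out = y :=
  Quotient.mk_out (s := obs π) y

theorem obs_fin {π : G →* Equiv.Perm Y} (h : ∃ s : Finset Y, ∀ x, ∃ y ∈ s, ∃ g, π g y = x) :
    Finite (Quotient (obs π)) := by
  obtain ⟨s, h⟩ := h
  refine Finite.of_surjective (fun y : s => Quotient.mk (obs π) y.1) fun o => ?_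
  obtain ⟨y, hy, e⟩ := h o.out
  exact ⟨⟨y, hy⟩, (Quotient.sound e).trans o.out_eq⟩

theorem fx_fin [Module.Finite k V] {π : G →* Equiv.Perm Y}
    (h : ∃ s : Finset Y, ∀ x, ∃ y ∈ s, ∃ g, π g y = x) (σ : Representation k G V) :
    Module.Finite k (Fx π σ) := by
  obtain ⟨s, h⟩ := h
  refine Module.Finite.of_injective
    ((LinearMap.funLeft k V (Subtype.val : s → Y)).comp (Fx π σ).subtype) ?_
  rw [injective_iff_map_eq_zero]
  intro f hf
  refine Subtype.ext (funext fun x => ?_)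
  obtain ⟨y, hy, g, rfl⟩ := h x
  have : f.1 y = 0 := congrFun hf ⟨y, hy⟩
  rw [f.2 g y, this, map_zero]; rfl

theorem card_dvd {H H' : Type} [Group H] [Group H'] (K : Subgroup G) (f : G →* H) (f' : G →* H')
    (h : f.ker ≤ f'.ker) : Nat.card (K.map f') ∣ Nat.card (K.map f) := by
  rw [← Subgroup.relIndex_ker, ← Subgroup.relIndex_ker]
  exact Subgroup.relIndex_dvd_of_le_left K h

theorem cast_ne {m n : ℕ} (h : m ∣ n) (hn : (n : k) ≠ 0) : (m : k) ≠ 0 := by
  obtain ⟨c, rfl⟩ := h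
  rw [Nat.cast_mul] at hn
  exact left_ne_zero_of_mul hn

theorem mem_ker_as {g : G} : g ∈ σ.asGroupHom.ker ↔ σ g = 1 := by
  rw [MonoidHom.mem_ker, Units.ext_iff, Representation.asGroupHom_apply, Units.val_one]

/-- averaging -/
theorem avg_lift (K : Subgroup G) (hK : ((Nat.card (K.map σ.asGroupHom) : ℕ) : k) ≠ 0)
    (q : V →ₗ[k] V') (hq : ∀ g v, q (σ g v) = σ' g (q v)) (v : V)
    (hv : ∀ g ∈ K, σ' g (q v) = q v) : ∃ v', q v' = q v ∧ ∀ g ∈ K, σ g v' = v' := by
  have : Finite (K.map σ.asGroupHom) := Nat.finite_of_card_ne_zero fun h => hK (by rw [h, Nat.cast_zero])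
  have := Fintype.ofFinite (K.map σ.asGroupHom)
  refine ⟨((Nat.card (K.map σ.asGroupHom) : ℕ) : k)⁻¹ •
    ∑ u : K.map σ.asGroupHom, (u.1 : V →ₗ[k] V) v, ?_, fun g hg => ?_⟩
  · have : ∀ u : K.map σ.asGroupHom, q ((u.1 : V →ₗ[k] V) v) = q v := by
      rintro ⟨_, g, hg, rfl⟩
      rw [← hv g hg, ← hq]; rfl
    rw [map_smul, map_sum]
    simp only [this, Finset.sum_const, Finset.card_univ]
    rw [← Nat.cast_smul_eq_nsmul k, smul_smul, ← Nat.card_eq_fintype_card, inv_mul_cancel₀ hK,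
      one_smul]
  · rw [map_smul, map_sum]
    congr 1
    exact Fintype.sum_equiv (Equiv.mulLeft (⟨σ.asGroupHom g, g, hg, rfl⟩ : K.map σ.asGroupHom))
      _ _ fun u => rfl

theorem Ex.tw {N M : Type} [AddCommGroup N] [Module k N] [AddCommGroup M] [Module k M]
    {ν : Representation k G N} {μ : Representation k G M} {i : N →ₗ[k] V} {q : V →ₗ[k] M}
    (h : Ex ν σ μ i q) (χ : G →* kˣ) : Ex (tw χ ν) (tw χ σ) (tw χ μ) i q :=
  ⟨h.inj, h.sur, h.ex, fun g x => by
    show i ((χ g : k) • ν g x) = (χ g : k) • σ g (i x)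
    rw [map_smul, h.ei], fun g v => by
    show q ((χ g : k) • σ g v) = (χ g : k) • μ g (q v)
    rw [map_smul, h.eq]⟩

theorem fo_unit : ∃ s : Finset Unit, ∀ x, ∃ y ∈ s, ∃ g, (1 : G →* Equiv.Perm Unit) g y = x :=
  ⟨{()}, fun _ => ⟨(), Finset.mem_singleton_self _, 1, rfl⟩⟩

end

theorem exf : EXF := by
  intro G k N V M Y _ _ _ _ _ _ _ _ _ π ν σ μ i q hf h
  have := Module.Finite.of_injective i h.inj
  have := Module.Finite.of_surjective q h.sur
  have := fx_fin hf ν
  have := fx_fin hf μ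
  have := fx_fin hf σ
  have hk : ∀ f, fm π q h.eq f = 0 ↔ ∃ a, fm π i h.ei a = f := fun f => by
    constructor
    · intro hf
      choose a ha using fun y => (h.ex (f.1 y)).1 (congrFun (congrArg Subtype.val hf) y)
      refine ⟨⟨a, fun g y => h.inj ?_⟩, Subtype.ext (funext ha)⟩
      rw [ha, h.ei, ha, f.2]
    · rintro ⟨a, rfl⟩
      exact Subtype.ext (funext fun y => (h.ex _).2 ⟨_, rfl⟩)
  refine ⟨this, rk_ex_le _ _ fun f => (hk f).1, fun hp => ⟨fun y => ?_, fun y => ?_, ?_⟩,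
    fun hp B y => ?_⟩
  · refine cast_ne (card_dvd _ _ _ fun g hg => ?_) (hp y)
    rw [mem_ker_as] at hg ⊢
    exact LinearMap.ext fun x => h.inj (by rw [h.ei, hg]; rfl)
  · refine cast_ne (card_dvd _ _ _ fun g hg => ?_) (hp y)
    rw [mem_ker_as] at hg ⊢
    refine LinearMap.ext fun x => ?_
    obtain ⟨v, rfl⟩ := h.sur x
    rw [← h.eq, hg]; rfl
  · refine rk_ex _ _ (fun a b e => Subtype.ext (funext fun y =>
      h.inj (congrFun (congrArg Subtype.val e) y))) (fun f => ?_) hk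
    have : ∀ y, ∃ v, q v = f.1 y ∧ ∀ g ∈ stb π y, σ g v = v := fun y => by
      obtain ⟨v, hv⟩ := h.sur (f.1 y)
      rw [← hv]
      refine avg_lift _ (hp y) q h.eq v fun g hg => ?_
      rw [hv, ← f.2, show π g y = y from hg]
    choose v hv hv' using this
    choose γ hγ using obs_out π
    refine ⟨⟨fun y => σ (γ y) (v (Quotient.mk (obs π) y).out), fun g y => ?_⟩,
      Subtype.ext (funext fun y => ?_)⟩
    · beta_reduce
      rw [obs_mk, ← ap_mul,
        show g * γ y = γ (π g y) * ((γ (π g y))⁻¹ * (g * γ y)) by group, ap_mul,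
        hv' _ (_ * _)]
      show π _ _ = _
      rw [pi_mul, pi_mul, hγ, map_inv, Equiv.Perm.inv_eq_iff_eq, ← obs_mk π g, hγ]
    · show q (σ _ _) = _
      rw [h.eq, hv, ← f.2, hγ]
  · refine cast_ne (Subgroup.card_dvd_of_le ?_) (hp y)
    rintro _ ⟨g, hg, rfl⟩
    exact ⟨g, hg, Units.ext rfl⟩

section

variable {G k N V M X : Type} [Group G] [TopologicalSpace G] [IsTopologicalGroup G] [Field k]
  [AddCommGroup N] [Module k N] [AddCommGroup V] [Module k V] [AddCommGroup M] [Module k M]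
  {π : G →* Equiv.Perm X} {I : Set G} {ν : Representation k G N} {σ : Representation k G V}
  {μ : Representation k G M} {i : N →ₗ[k] V} {q : V →ₗ[k] M}

theorem Ex.ir (h : Ex ν σ μ i q) {r : V →ₗ[k] N} (hr : ∀ a, r (i a) = a) {v : V} (hv : q v = 0) :
    i (r v) = v := by
  obtain ⟨a, rfl⟩ := (h.ex v).1 hv
  rw [hr]

theorem Ex.qi (h : Ex ν σ μ i q) (a : N) : q (i a) = 0 := (h.ex _).2 ⟨a, rfl⟩

theorem zc_ker (h : Ex ν σ μ i q) (a : Zc π I σ) (ha : zm π I q h.eq a = 0) :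
    ∃ b, zm π I i h.ei b = a := by
  obtain ⟨r, -, hr, -⟩ := ex_split i q h.inj h.sur
  have h0 : ∀ x, q (a.1 x) = 0 := congrFun (congrArg Subtype.val ha)
  obtain ⟨c, hc, e⟩ := a.2
  refine ⟨⟨fun x => r (a.1 x), _, hc.comp r, fun g x => h.inj ?_⟩,
    Subtype.ext (funext fun x => h.ir hr (h0 x))⟩
  have : q (c g) = 0 := by
    have := h0 (π g x)
    rwa [e, map_add, h.eq, h0, map_zero, add_zero] at this
  rw [map_add, h.ei, h.ir hr (h0 _), h.ir hr (h0 _), h.ir hr this, e]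

theorem z2_lift [Nonempty X] (h : Ex ν σ μ i q) {r : V →ₗ[k] N} (hr : ∀ a, r (i a) = a)
    {e : G → X → V} (he : e ∈ Z2 π I σ) (h0 : ∀ g x, q (e g x) = 0) :
    (fun g x => r (e g x)) ∈ Z2 π I ν := by
  obtain ⟨h1, z, h2, f⟩ := he
  refine ⟨h1.comp r, _, h2.comp r, fun g g' x => h.inj ?_⟩
  have : q (z g g') = 0 := by
    have := h0 (g * g') x
    rwa [f, map_add, map_add, h.eq, h0, h0, map_zero, add_zero, zero_add] at this
  rw [map_add, map_add, h.ei, h.ir hr (h0 _ _), h.ir hr (h0 _ _), h.ir hr (h0 _ _), h.ir hr this,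
    f]

theorem Ex.unq (h : Ex ν σ μ i q) (hσ : Un I σ) : Un I μ := by
  obtain ⟨W, hW, u⟩ := hσ
  refine ⟨W, hW, fun w hw => LinearMap.ext fun x => ?_⟩
  obtain ⟨v, rfl⟩ := h.sur x
  rw [← h.eq, u w hw]; rfl

theorem Ex.uns (h : Ex ν σ μ i q) (hσ : Un I σ) : Un I ν := by
  obtain ⟨W, hW, u⟩ := hσ
  exact ⟨W, hW, fun w hw => LinearMap.ext fun x => h.inj (by rw [h.ei, u w hw]; rfl)⟩

theorem h2_ker [Nonempty X] (h : Ex ν σ μ i q) (hσ : Un I σ) (a : H2 π I σ)
    (ha : hm π I q h.eq a = 0) : ∃ b, hm π I i h.ei b = a := by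
  obtain ⟨r, s, hr, hs⟩ := ex_split i q h.inj h.sur
  obtain ⟨e, rfl⟩ := Submodule.Quotient.mk_surjective _ a
  rw [hm_mk, Submodule.Quotient.mk_eq_zero] at ha
  obtain ⟨b, a, h1, h2, f⟩ := ha
  have hd : (fun g x => s (b g) + s (a x) - σ g (s (a (π g⁻¹ x)))) ∈ B2 π I σ :=
    ⟨_, _, h1.comp s, h2.comp s, fun _ _ => rfl⟩
  have h0 : ∀ g x, q ((e.1 - fun g x => s (b g) + s (a x) - σ g (s (a (π g⁻¹ x)))) g x) = 0 := by
    intro g x
    have : q (e.1 g x) = _ := f g x
    simp only [Pi.sub_apply, map_sub, map_add, h.eq, hs, this, sub_self]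
  refine ⟨Submodule.Quotient.mk ⟨_, z2_lift h hr (sub_mem e.2 (B2_le hσ hd)) h0⟩, ?_⟩
  rw [hm_mk, Submodule.Quotient.eq]
  have := neg_mem hd
  convert this using 1
  refine Iff.of_eq (congrArg (· ∈ B2 π I σ) (funext fun g => funext fun x => ?_))
  show i (r _) - e.1 g x = _
  rw [h.ir hr (h0 g x)]
  simp

end

theorem ext1 : EXT1 := by
  intro G k N V M X Q Y _ _ _ _ _ _ _ _ _ _ _ π πq πi I ω ν σ μ i q ho hq hi h hp ⟨f1, h1⟩ ⟨f2, h2⟩
  have e1 := rk_ex_le _ _ (zc_ker (π := π) (I := I) h)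
  have e2 := (exf G k N V M Y πi ν σ μ i q hi h).2.1
  have e3 := (exf G k N V M Unit 1 _ _ _ i q fo_unit (h.tw ω⁻¹)).2.1
  have e4 := ((exf G k N V M Q πq _ _ _ i q hq (h.tw ω⁻¹)).2.2.1 hp).2.2
  have e5 := rk_ex i q h.inj h.sur h.ex
  refine ⟨fin_ex _ _ (zc_ker h), ?_⟩
  unfold h0 at *
  omega

theorem ext2 : EXT2 := by
  intro G k N V M X Y _ _ _ _ _ _ _ _ _ _ _ _ π I ν σ μ i q ho hσ h f1 f2 f3 f4
  have := ho.ne
  obtain ⟨r, s, hr, hs⟩ := ex_split i q h.inj h.sur
  have f5 := fin_ex _ _ (zc_ker (π := π) (I := I) h)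
  have f6 := fin_ex _ _ (h2_ker (π := π) h hσ)
  refine ⟨f5, f6, ?_⟩
  let E : (X → M) →ₗ[k] G → X → V :=
    { toFun := fun a g x => σ g (s (a (π g⁻¹ x))) - s (μ g (a (π g⁻¹ x)))
      map_add' := fun a b => funext fun g => funext fun x => by
        simp only [Pi.add_apply, map_add]; abel
      map_smul' := fun c a => funext fun g => funext fun x => by
        simp only [Pi.smul_apply, map_smul, smul_sub, RingHom.id_apply] }
  have hE0 : ∀ a g x, q (E a g x) = 0 := fun a g x => by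
    show q (_ - _) = 0
    rw [map_sub, h.eq, hs, hs, sub_self]
  have hE : ∀ {a : X → M} {c : G → M}, (∀ g x, a (π g x) = c g + μ g (a x)) → ∀ g x,
      E a g x = s (c g) - s (a x) + σ g (s (a (π g⁻¹ x))) := fun {a c} e g x => by
    have e1 := e g (π g⁻¹ x)
    rw [pi_inv'] at e1
    show σ g (s _) - s _ = _
    rw [e1, map_add]; abel
  have hB : ∀ a ∈ Zc π I μ, E a ∈ B2 π I σ := fun a ha => by
    have h0 := Zc.s0 (h.unq hσ) ha
    obtain ⟨c, hc, e⟩ := ha
    refine ⟨_, _, hc.comp s, h0.comp fun m => -s m, fun g x => ?_⟩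
    rw [hE e, map_neg]; abel
  let δ : Zc π I μ →ₗ[k] H2 π I ν := (Submodule.mkQ _).comp
    ((((r.compLeft X).compLeft G).comp E).restrict fun a ha =>
      z2_lift h hr (B2_le hσ (hB a ha)) (hE0 a))
  have k1 : ∀ a, hm π I i h.ei (δ a) = 0 := fun a => by
    refine (Submodule.Quotient.mk_eq_zero _).2 ?_
    have := hB a.1 a.2
    convert this using 1
    exact Iff.of_eq (congrArg (· ∈ B2 π I σ) (funext fun g => funext fun x => h.ir hr (hE0 _ g x)))
  have k2 : ∀ a, δ a = 0 → ∃ b, zm π I q h.eq b = a := fun a ha => by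
    obtain ⟨b, a', h1, h2, f⟩ := (Submodule.Quotient.mk_eq_zero _).1 ha
    obtain ⟨c, hc, e⟩ := a.2
    refine ⟨⟨fun x => s (a.1 x) + i (a' x), _, hc.bin h1 fun u v => s u - i v, fun g x => ?_⟩,
      Subtype.ext (funext fun x => ?_)⟩
    · have e1 : i (r (E a.1 g (π g x))) = i _ := congrArg i (f g (π g x))
      rw [h.ir hr (hE0 _ _ _), hE e, map_sub, map_add, h.ei, pi_inv, ← sub_eq_zero] at e1
      beta_reduce
      rw [← sub_eq_zero, ← neg_eq_zero, ← e1, map_add]; abel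
    · show q (_ + _) = _
      rw [map_add, hs, h.qi, add_zero]
  have e1 := (zm π I q h.eq).finrank_range_add_finrank_ker
  have e2 := rk_ran_le (zm π I i h.ei) (zm π I q h.eq) fun a =>
    Subtype.ext (funext fun x => h.qi _)
  rw [LinearMap.finrank_range_of_inj fun a b e => Subtype.ext (funext fun y =>
      h.inj (congrFun (congrArg Subtype.val e) y))] at e2
  have e3 := δ.finrank_range_add_finrank_ker
  have e4 := rk_ker_le _ _ k2
  have e5 := rk_ran_le _ _ k1
  have e6 := (hm π I i h.ei).finrank_range_add_finrank_ker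
  have e7 := (hm π I q h.eq).finrank_range_add_finrank_ker
  have e8 := rk_ker_le _ _ (h2_ker (π := π) h hσ)
  have e9 := (LinearMap.range (hm π I q h.eq)).finrank_le
  omega

theorem spl : SPL := by
  intro G k N V M X _ _ _ _ _ _ _ _ _ _ π I ν σ μ i q r h hr he
  obtain ⟨-, s', -, hs'⟩ := ex_split i q h.inj h.sur
  let s : M →ₗ[k] V := s' - (i.comp r).comp s'
  have h2 : ∀ c, q (s c) = c := fun c => by
    show q (s' c - i (r (s' c))) = c
    rw [map_sub, hs', h.qi, sub_zero]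
  have h4 : ∀ c, r (s c) = 0 := fun c => by
    show r (s' c - i (r (s' c))) = 0
    rw [map_sub, hr, sub_self]
  have h5 : ∀ b, i (r b) + s (q b) = b := fun b => by
    have := h.ir hr (v := b - s (q b)) (by rw [map_sub, h2, sub_self])
    rw [map_sub, h4, sub_zero] at this
    rw [this, sub_add_cancel]
  have hs : ∀ g c, s (μ g c) = σ g (s c) := fun g c => by
    rw [← h5 (σ g (s c)), he, h4, map_zero, map_zero, zero_add, h.eq, h2]
  refine ⟨bip (zm π I i h.ei) (zm π I q h.eq) (zm π I r he) (zm π I s hs)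
      (fun a => Subtype.ext (funext fun x => hr _)) (fun a => Subtype.ext (funext fun x => h2 _))
      (fun a => Subtype.ext (funext fun x => h.qi _)) (fun a => Subtype.ext (funext fun x => h4 _))
      (fun a => Subtype.ext (funext fun x => h5 _)),
    bip (hm π I i h.ei) (hm π I q h.eq) (hm π I r he) (hm π I s hs) ?_ ?_ ?_ ?_ ?_, fun Y πy =>
    bip (fm πy i h.ei) (fm πy q h.eq) (fm πy r he) (fm πy s hs)
      (fun a => Subtype.ext (funext fun x => hr _)) (fun a => Subtype.ext (funext fun x => h2 _))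
      (fun a => Subtype.ext (funext fun x => h.qi _)) (fun a => Subtype.ext (funext fun x => h4 _))
      (fun a => Subtype.ext (funext fun x => h5 _))⟩
  all_goals
    intro a
    obtain ⟨e, rfl⟩ := Submodule.Quotient.mk_surjective _ a
    simp only [hm_mk]
  · exact congrArg _ (Subtype.ext (funext fun g => funext fun x => hr _))
  · exact congrArg _ (Subtype.ext (funext fun g => funext fun x => h2 _))
  · exact congrArg Submodule.Quotient.mk
      (Subtype.ext (funext fun g => funext fun x => h.qi _) : _ = (0 : Z2 π I μ))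
  · exact congrArg Submodule.Quotient.mk
      (Subtype.ext (funext fun g => funext fun x => h4 _) : _ = (0 : Z2 π I ν))
  · rw [← Submodule.Quotient.mk_add]
    exact congrArg _ (Subtype.ext (funext fun g => funext fun x => h5 _))

end Vale.Agent.P022K.GW
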