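import Vale.Agent.P022K.GW.Eul
import Vale.Agent.P022K.GW.Ext

/-!
# P022K, block GW: projective representations (rows `Z1C`, `PRJ1`, `PRJ2`)
-/

set_option linter.all false

noncomputable section

namespace Vale.Agent.P022K.GW

open Module Cal

namespace Pj

section

variable {G k N : Type} [Group G] [Field k] [AddCommGroup N] [Module k N] (p : ℕ) [Fact p.Prime]
  [CharP k p]

theorem sep0 (p : ℕ) [Fact p.Prime] [Module (ZMod p) N] {x y : N}
    (h : ∀ l : N →+ ZMod p, l x = l y) : x = y :=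
  sub_eq_zero.1 ((forall_dual_apply_eq_zero_iff (ZMod p) (x - y)).1 fun l => by
    rw [map_sub, sub_eq_zero]; exact h l.toAddMonoidHom)

/-- the coordinates separate the points -/
theorem sep (k : Type) [Field k] [Module k N] (p : ℕ) [Fact p.Prime] [CharP k p] {x y : N}
    (h : ∀ l : N →+ ZMod p, l x = l y) : x = y :=
  @sep0 N _ p _ (AddCommGroup.zmodModule fun v => by
    rw [← Nat.cast_smul_eq_nsmul k, CharP.cast_eq_zero, zero_smul]) x y h

theorem co_bot {S : Type} : Co k N (⊥ : AddSubgroup (S → ZMod p)) = ⊥ :=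
  eq_bot_iff.2 fun f h => funext fun s => sep k p fun l =>
    (congrFun (AddSubgroup.mem_bot.1 (h l)) s).trans (map_zero l).symm

theorem up_one : up (k := k) (1 : G →* (ZMod p)ˣ) = 1 := MonoidHom.ext fun g => by simp [up]

theorem up_inv (χ : G →* (ZMod p)ˣ) : up (k := k) χ⁻¹ = (up χ)⁻¹ :=
  MonoidHom.ext fun g => by simp [up]

theorem tw_one (ν : Representation k G N) : tw 1 ν = ν := MonoidHom.ext fun g => by simp [tw]

variable [TopologicalSpace G] [IsTopologicalGroup G] {I : Set G} {U : Subgroup G}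

theorem ad_fin {J : Type} [Finite J] (W : J → Subgroup G) (h : ∀ j, Ad I (W j)) : Ad I (⨅ j, W j) :=
  ⟨Subgroup.normal_iInf_normal fun j => (h j).nor, by
    rw [Subgroup.coe_iInf]; exact isOpen_iInter_of_finite fun j => (h j).opn,
    fun i hi => Subgroup.mem_iInf.2 fun j => (h j).inc i hi⟩

variable {X : Type} {π : G →* Equiv.Perm X} {ν : Representation k G N} {χ : G →* (ZMod p)ˣ}

/-- the equivariant characters which vanish on the stabilisers -/
theorem mem_ci [Finite k] [Module.Finite k N] {y : G → N} :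
    y ∈ Ci ν (cj G) χ (Kr p π I U) ⊥ ↔ (∀ g ∈ U, ∀ h ∈ U, y (g * h) = y g + y h) ∧
      (∀ g ∉ U, y g = 0) ∧ (∃ W, Ad I W ∧ ∀ w ∈ W, y w = 0) ∧
      (∀ g u, y (g * u * g⁻¹) = tw (up χ) ν g (y u)) ∧ ∀ x g, π g x = x → y g = 0 := by
  have : Finite N := Module.finite_of_finite k
  have : Finite (N →+ ZMod p) := DFunLike.finite _
  constructor
  · rintro ⟨a, b⟩
    choose W w1 w2 using fun l => (a l).1.2.2
    refine ⟨fun g hg h hh => sep k p fun l => by rw [map_add]; exact (a l).1.1 g hg h hh,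
      fun g hg => sep k p fun l => ((a l).1.2.1 g hg).trans (map_zero l).symm,
      ⟨_, ad_fin W w1, fun w hw => sep k p fun l =>
        (w2 l w (Subgroup.mem_iInf.1 hw l)).trans (map_zero l).symm⟩, fun g u => ?_,
      fun x g e => sep k p fun l => ((a l).2 x g e).trans (map_zero l).symm⟩
    have := b g
    rw [co_bot, Submodule.mem_bot] at this
    have := sub_eq_zero.1 (congrFun this (g * u * g⁻¹))
    rw [← this, cj_apply]
    congr 2
    group
  · rintro ⟨a, b, ⟨W, w1, w2⟩, c, d⟩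
    refine ⟨fun l => ⟨⟨fun g hg h hh => ?_, fun g hg => ?_, W, w1, fun w hw => ?_⟩,
      fun x g e => ?_⟩, fun g => ?_⟩
    · simp only [a g hg h hh, map_add]
    · simp only [b g hg, map_zero]
    · simp only [w2 w hw, map_zero]
    · simp only [d x g e, map_zero]
    · rw [co_bot, Submodule.mem_bot]
      funext s
      rw [← c, cj_apply, Pi.zero_apply, sub_eq_zero]
      congr 1
      group

theorem sq_kr (hF : FUN) [Finite k] [Module.Finite k N] [U.Normal] (h : Hig U ν)
    (hG : Finite (Gl p I U)) (hχ : ∀ u ∈ U, χ u = 1) :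
    Module.Finite k (Ci ν (cj G) χ (Kr p π I U) ⊥) ∧
      (psi ν).sq (fa (cj G) χ) (Kr p π I U) ⊥ = finrank k (Ci ν (cj G) χ (Kr p π I U) ⊥) := by
  obtain ⟨a, b⟩ := hF G k N p U ν h G (cj G) χ (Kr p π I U) ⊥ (st_kr χ) st_bot bot_le
    (Finite.of_injective _ (AddSubgroup.inclusion_injective
      (show Kr p π I U ≤ Gl p I U from fun _ x => x.1)))
    fun u hu f hf => by rw [gl_triv hχ hf.1 hu, sub_self]; exact zero_mem _
  rw [co_bot, finrank_bot, add_zero] at b
  exact ⟨Module.Finite.of_injective _ (Submodule.inclusion_injective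
    (show Ci ν (cj G) χ (Kr p π I U) ⊥ ≤ Co k N (Kr p π I U) from fun _ x => x.1)), b⟩

end

section

variable {G k N X : Type} [Group G] [Field k] [AddCommGroup N] [Module k N]
  {π : G →* Equiv.Perm X} {ν : Representation k G N} {U : Subgroup G} [Fintype (G ⧸ U)]
  {ε : N →ₗ[k] N}

/-- corestriction of framings -/
theorem cor0 (hU : ∀ u ∈ U, ν u = 1) {a : X → N} {y : G → N}
    (h : ∀ u ∈ U, ∀ x, a (π u x) = y u + a x) (g : G) (x : X) :
    ∑ t : G ⧸ U, ν t.out (ε (a (π t.out⁻¹ (π g x)))) =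
      ∑ t : G ⧸ U, ν (g • t).out (ε (y (be U g t))) +
        ν g (∑ t : G ⧸ U, ν t.out (ε (a (π t.out⁻¹ x)))) := by
  rw [map_sum, ← sum_sh U g fun t => ν t.out (ε (a (π t.out⁻¹ (π g x)))), ← Finset.sum_add_distrib]
  refine Finset.sum_congr rfl fun t _ => ?_
  rw [← ap_mul ν g, ← out_be, map_mul, hU _ (be U g t).2, mul_one, ← map_add, ← map_add,
    ← h _ (be U g t).2, ← pi_mul, ← pi_mul, be_coe]
  congr 5
  group

end

end Pj

open Pj

/-- **Z1C** -/
theorem z1c (hF : FUN) (hX : FXC) : Z1C := by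
  classical
  intro G k N X _ _ _ _ _ _ _ _ _ p _ _ π I U ν ho hU hν hG
  have := hU.nor
  obtain ⟨x₀⟩ := id ho.ne
  have := ho.ne
  obtain ⟨hu, ε, -, _, h1⟩ := id hν
  have h2 : ∀ v, ∑ y : G ⧸ U, ν y.out (ε (ν y.out⁻¹ v)) = v := fun v => by
    have := LinearMap.congr_fun h1 v
    simpa only [LinearMap.sum_apply, Module.End.mul_apply, Module.End.one_apply] using this
  have un : Un I ν := ⟨U, hU, hu⟩
  have a1 : ∀ u ∈ U, ∀ v, ν u v = v := fun u h v => by rw [hu u h]; rfl
  obtain ⟨f1, e1⟩ := sq_kr p (π := π) (χ := 1) hF hν hG fun _ _ => rfl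
  obtain ⟨e2, e3⟩ := hX G k N X p π U ν 1 ho.fin Subgroup.index_ne_zero_of_finite hν fun _ _ => rfl
  rw [up_one, tw_one] at e2 e3
  have f2 := fx_fin ho.fin ν
  let R : Zc π I ν →ₗ[k] Ci ν (cj G) (1 : G →* (ZMod p)ˣ) (Kr p π I U) ⊥ :=
    { toFun := fun a => ⟨fun g => if g ∈ U then a.1 (π g x₀) - a.1 x₀ else 0, by
        obtain ⟨c, ⟨W, w1, w2⟩, e⟩ := a.2
        have v : ∀ g ∈ U, a.1 (π g x₀) - a.1 x₀ = c g := fun g h => by
          rw [e, a1 g h, add_sub_cancel_right]
        refine (mem_ci p).2 ⟨fun g hg h hh => ?_, fun g hg => if_neg hg, ⟨W, w1, fun w hw => ?_⟩,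
          fun g u => ?_, fun x g z => ?_⟩
        · rw [if_pos hg, if_pos hh, if_pos (U.mul_mem hg hh), v g hg, v h hh, v _ (U.mul_mem hg hh),
            coc_mul e, a1 g hg]
        · split_ifs with z
          · rw [v w z, ← one_mul w, w2 w hw, coc_one e]
          · rfl
        · rw [up_one, tw_one]
          by_cases z : u ∈ U
          · have z' := hU.nor.conj_mem u z g
            have i := coc_mul e g g⁻¹
            rw [mul_inv_cancel, coc_one e] at i
            rw [if_pos z, if_pos z', v _ z, v _ z', coc_mul e, coc_mul e, ap_mul, a1 u z,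
              add_right_comm, ← i, zero_add]
          · rw [if_neg z, if_neg fun z' => z (by simpa [mul_assoc] using hU.cj z' g), map_zero]
        · split_ifs with z'
          · have := e g x
            rw [z, a1 g z'] at this
            rw [v g z', right_eq_add.1 this]
          · rfl⟩
      map_add' := fun a b => Subtype.ext (funext fun g => by
        simp only [Submodule.coe_add, Pi.add_apply]
        split_ifs
        · abel
        · exact (add_zero _).symm)
      map_smul' := fun r a => Subtype.ext (funext fun g => by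
        simp only [Submodule.coe_smul, Pi.smul_apply, RingHom.id_apply]
        split_ifs
        · exact (smul_sub _ _ _).symm
        · exact (smul_zero _).symm) }
  have hR : ∀ a, ∀ g ∈ U, (R a).1 g = a.1 (π g x₀) - a.1 x₀ := fun a g h => if_pos h
  have sR : Function.Surjective R := fun y => by
    obtain ⟨y1, y2, ⟨W, w1, w2⟩, y4, y5⟩ := (mem_ci p).1 y.2
    rw [up_one, tw_one] at y4
    choose s hs using obs_out (π.comp U.subtype)
    have ha : ∀ u ∈ U, ∀ x, y.1 (s (π u x)) = y.1 u + y.1 (s x) := fun u h x => by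
      have z := hs (π u x)
      rw [show Quotient.mk (obs (π.comp U.subtype)) (π u x) = _ from
        obs_mk (π.comp U.subtype) ⟨u, h⟩ x] at z
      have m := U.mul_mem h (s x).2
      have := y1 _ m _ (U.mul_mem (U.inv_mem m) (s (π u x)).2)
      rw [mul_inv_cancel_left, y5 (Quotient.mk (obs (π.comp U.subtype)) x).out (_⁻¹ * _) (by
        rw [pi_mul, show π (s (π u x)) _ = _ from z, map_inv, Equiv.Perm.inv_eq_iff_eq, pi_mul,
          show π (s x) _ = x from hs x]), add_zero] at this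
      rw [this, y1 u h _ (s x).2]
    have hc := cor0 (π := π) (ε := ε) hu (a := fun x => y.1 (s x)) ha
    have cU : ∀ w ∈ U, ∀ g : G, g⁻¹ * w * g ∈ U := fun w h g => hU.cj h g
    refine ⟨⟨fun x => ∑ t : G ⧸ U, ν t.out (ε (y.1 (s (π t.out⁻¹ x)))), _,
      ⟨_, w1.inf hU, fun w hw g => Finset.sum_congr rfl fun t _ => ?_⟩, hc⟩,
      Subtype.ext (funext fun g => ?_)⟩
    · rw [be_w (cU w hw.2), mul_smul, fix_quo (cU w hw.2), Subgroup.coe_mul,
        y1 _ (be U g t).2 _ (cU w hw.2 _), w2 _ (w1.cj hw.1 _), add_zero]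
    · by_cases z : g ∈ U
      · rw [hR _ g z]
        refine (sub_eq_iff_eq_add.2 ((hc g x₀).trans (by rw [a1 g z]))).trans ?_
        refine (Finset.sum_congr rfl fun t _ => ?_).trans (h2 _)
        rw [be_coe, fix_quo (cU g z), ← y4, inv_inv]
      · exact (if_neg z).trans (y2 g z).symm
  let φ : (N × Fx π ν) →ₗ[k] Zc π I ν :=
    LinearMap.codRestrict _ ((LinearMap.pi fun _ => LinearMap.id).coprod (Fx π ν).subtype)
      fun v => add_mem (Zc.cst un v.1)
        ⟨0, ⟨⊤, Ad.top I, fun _ _ _ => rfl⟩, fun g x => (v.2.2 g x).trans (zero_add _).symm⟩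
  have hφ : ∀ v x, (φ v).1 x = v.1 + v.2.1 x := fun _ _ => rfl
  have ex : ∀ a, R a = 0 ↔ ∃ v, φ v = a := fun a => by
    refine ⟨fun z => ?_, ?_⟩
    · obtain ⟨c, -, e⟩ := a.2
      have i : ∀ u ∈ U, ∀ x, a.1 (π u x) = (0 : G → N) u + a.1 x := fun u h x => by
        have := (hR a u h).symm.trans (congrFun (congrArg Subtype.val z) u)
        rw [e, a1 u h, add_sub_cancel_right] at this
        rw [e, a1 u h, this]
        rfl
      refine ⟨(-∑ t : G ⧸ U, ν t.out (ε (c t.out⁻¹)),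
        ⟨fun x => ∑ t : G ⧸ U, ν t.out (ε (a.1 (π t.out⁻¹ x))), fun g x => ?_⟩),
        Subtype.ext (funext fun x => ?_)⟩
      · simpa using cor0 (π := π) (ε := ε) hu i g x
      · simp only [hφ, e, map_add, Finset.sum_add_distrib, h2, neg_add_cancel_left]
    · rintro ⟨v, rfl⟩
      refine Subtype.ext (funext fun g => ?_)
      by_cases z : g ∈ U
      · rw [hR _ g z, hφ, hφ, v.2.2, a1 g z, sub_self]
        rfl
      · exact if_neg z
  let ψ : Fx (1 : G →* Equiv.Perm Unit) ν →ₗ[k] N × Fx π ν :=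
    { toFun := fun w => (-w.1 (), ⟨fun _ => w.1 (), fun g _ => w.2 g ()⟩)
      map_add' := fun a b => Prod.ext (neg_add _ _) rfl
      map_smul' := fun r a => Prod.ext (smul_neg r (a.1 ())).symm rfl }
  have kφ : LinearMap.ker φ = LinearMap.range ψ := Submodule.ext fun v => by
    refine ⟨fun z => ?_, ?_⟩
    · have z' : ∀ x, v.2.1 x = -v.1 := fun x => eq_neg_of_add_eq_zero_right
        ((hφ v x).symm.trans (congrFun (congrArg Subtype.val (LinearMap.mem_ker.1 z)) x))
      exact ⟨⟨fun _ => -v.1, fun g _ => (z' (π g x₀)).symm.trans ((v.2.2 g x₀).trans (by rw [z']))⟩,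
        Prod.ext (neg_neg _) (Subtype.ext (funext fun x => (z' x).symm))⟩
    · rintro ⟨w, rfl⟩
      exact Subtype.ext (funext fun x => neg_add_cancel _)
  have e4 := φ.finrank_range_add_finrank_ker
  rw [kφ, LinearMap.finrank_range_of_inj fun a b z => Subtype.ext (funext fun _ =>
    neg_injective (congrArg Prod.fst z))] at e4
  have f3 := fin_ex φ R fun a => (ex a).1
  have e5 := R.finrank_range_add_finrank_ker
  rw [LinearMap.range_eq_top.2 sR, finrank_top,
    show LinearMap.ker R = LinearMap.range φ from Submodule.ext ex] at e5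
  rw [Module.finrank_prod] at e4
  refine ⟨f3, ?_⟩
  rw [e1, e2, e3, h0]
  omega

/-- **PRJ1** -/
theorem prj1 (hP : PSI) (hF : FUN) (hX : FXC) (hZ : Z1C) : PRJ1 := by
  intro G k N X Q Y _ _ _ _ _ _ _ _ _ p _ _ π πq πi I I₀ ω U ν ho ho' fq fi hU le hω hν
  have := hU.nor
  have := fin_quo hU.opn
  have ix : U.index ≠ 0 := Subgroup.index_ne_zero_of_finite
  obtain ⟨p1, p2, p3⟩ := hP G k N p U ν hν
  obtain ⟨e1, -⟩ := hX G k N Y p πi U ν 1 fi ix hν fun _ _ => rfl
  obtain ⟨e2, e3⟩ := hX G k N Q p πq U ν ω⁻¹ fq ix hν (inv_triv hω)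
  rw [up_one, tw_one] at e1
  rw [up_inv] at e2 e3
  refine ⟨fun ⟨g1, _, h⟩ => ?_, fun ⟨g1, g2, h⟩ kl => ?_⟩
  · obtain ⟨f, z⟩ := hZ G k N X p π I U ν ho (hU.mono le) hν g1
    have := h _ p1
    exact ⟨f, by omega⟩
  · obtain ⟨f, z⟩ := hZ G k N X p π I U ν ho (hU.mono le) hν g1
    have := h _ _ p1 (hP G k _ p U _ p2).1 p3
    rw [(sq_kr p hF p2 g2 hω).2, show Ci ν.dual (cj G) ω (Kr p πq I₀ U) ⊥ = ⊥ from
      eq_bot_iff.2 fun y hy => let ⟨a, b, c, d, e⟩ := (mem_ci p).1 hy; kl y a b c d e,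
      finrank_bot] at this
    exact ⟨f, by omega⟩

/-- **PRJ2** -/
theorem prj2 (hP : PSI) (hX : FXC) (hZ : Z1C) (hA : H2U) (hB : H2L) : PRJ2 := by
  intro G k N X Y _ _ _ _ _ _ _ _ _ p _ _ π πi I ω U ν ho fi hU hω hν ⟨g1, g2, h⟩ sh
  have := hU.nor
  have := fin_quo hU.opn
  have ix : U.index ≠ 0 := Subgroup.index_ne_zero_of_finite
  obtain ⟨e1, -⟩ := hX G k N Y p πi U ν 1 fi ix hν fun _ _ => rfl
  obtain ⟨e2, e3⟩ := hX G k N Empty p 1 U ν ω⁻¹ ⟨∅, fun x => x.elim⟩ ix hν (inv_triv hω)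
  rw [up_one, tw_one] at e1
  rw [up_inv] at e3
  rw [finrank_zero_of_subsingleton] at e2
  obtain ⟨f, z⟩ := hZ G k N X p π I U ν ho hU hν g1
  obtain ⟨f', a⟩ := hA G k N X p π I U ν ho hU hν g2 sh
  have b := hB G k N X p π I U ν ho hU hν g2 f'
  have := h _ (hP G k N p U ν hν).1
  exact ⟨f, f', by omega⟩

end Vale.Agent.P022K.GW
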