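import Mathlib

/-!
# P022K, block GW: projective modules in the sense of Higman and lattices of finite index
-/

set_option linter.all false

noncomputable section

namespace Vale.Agent.P022K.GW.Hig

section

variable {R G W : Type} [CommRing R] [Group G] [AddCommGroup W] [Module R W]

theorem mul_ap (ρ : Representation R G W) (g h : G) (w : W) : ρ (g * h) w = ρ g (ρ h w) := by
  rw [map_mul]; rfl

theorem one_ap (ρ : Representation R G W) (w : W) : ρ 1 w = w := by rw [map_one]; rfl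

theorem inv_ap (ρ : Representation R G W) (g : G) (w : W) : ρ g⁻¹ (ρ g w) = w := by
  rw [← mul_ap, inv_mul_cancel, one_ap]

theorem ap_inv (ρ : Representation R G W) (g : G) (w : W) : ρ g (ρ g⁻¹ w) = w := by
  rw [← mul_ap, mul_inv_cancel, one_ap]

/-- sums on the cosets -/
theorem sum_out {M : Type} [AddCommMonoid M] (N : Subgroup G) [Fintype (G ⧸ N)] (t : G → M)
    (ht : ∀ g, ∀ n ∈ N, t (g * n) = t g) (h : G) :
    ∑ c : G ⧸ N, t (h * c.out) = ∑ c : G ⧸ N, t c.out := by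
  refine Fintype.sum_equiv (MulAction.toPerm h : Equiv.Perm (G ⧸ N)) _ _ fun c => ?_
  show _ = t (h • c).out
  have e : ((h * c.out : G) : G ⧸ N) = h • c := by
    conv_rhs => rw [← QuotientGroup.out_eq' c]
    rfl
  obtain ⟨n, hn⟩ := QuotientGroup.mk_out_eq_mul N (h * c.out)
  rw [← e, hn, ht _ _ n.2]

theorem sum_out' {M : Type} [AddCommMonoid M] (N : Subgroup G) [Fintype (G ⧸ N)] (hn : N.Normal)
    (t : G → M) (ht : ∀ g, ∀ n ∈ N, t (g * n) = t g) (h : G) :
    ∑ c : G ⧸ N, t (c.out * h) = ∑ c : G ⧸ N, t c.out := by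
  refine Fintype.sum_equiv (Equiv.mulRight (h : G ⧸ N)) _ _ fun c => ?_
  show _ = t (c * (h : G ⧸ N)).out
  have e : ((c.out * h : G) : G ⧸ N) = c * (h : G ⧸ N) := by
    rw [QuotientGroup.mk_mul, QuotientGroup.out_eq']
  obtain ⟨n, hn⟩ := QuotientGroup.mk_out_eq_mul N (c.out * h)
  rw [← e, hn, ht _ _ n.2]

end

section

variable {k G X : Type} [Field k] [Group G] [AddCommGroup X] [Module k X]

/-- `N` acts trivially and the module is projective for the quotient by `N` -/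
structure Hig (N : Subgroup G) [Fintype (G ⧸ N)] (σ : Representation k G X) : Prop where
  nrm : N.Normal
  triv : ∀ n ∈ N, ∀ x, σ n x = x
  avg : ∃ π : X →ₗ[k] X, ∀ x, ∑ c : G ⧸ N, σ c.out (π (σ c.out⁻¹ x)) = x

/-- the invariants -/
def Inv (σ : Representation k G X) : Submodule k X where
  carrier := {x | ∀ g, σ g x = x}
  add_mem' ha hb g := by rw [map_add, ha g, hb g]
  zero_mem' g := map_zero _
  smul_mem' r a ha g := by rw [map_smul, ha g]

variable {N : Subgroup G} [Fintype (G ⧸ N)] {σ : Representation k G X}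

/-- index prime to the characteristic -/
theorem Hig.of_index (hn : N.Normal) (h : ∀ n ∈ N, ∀ x, σ n x = x) (hi : (N.index : k) ≠ 0) :
    Hig N σ :=
  ⟨hn, h, (N.index : k)⁻¹ • LinearMap.id, fun x => by
    simp only [LinearMap.smul_apply, LinearMap.id_apply, map_smul, ap_inv, Finset.sum_const,
      Finset.card_univ]
    rw [← Nat.cast_smul_eq_nsmul k, smul_smul, ← Nat.card_eq_fintype_card, ← Subgroup.index,
      mul_inv_cancel₀ hi, one_smul]⟩

/-- the norm is invariant -/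
theorem nm_inv (hn : N.Normal) (h : ∀ n ∈ N, ∀ x, σ n x = x) (x : X) :
    ∑ c : G ⧸ N, σ c.out⁻¹ x ∈ Inv σ := fun g => by
  rw [map_sum, ← sum_out' N hn (fun a => σ a⁻¹ x) (fun a n hn' => by
    show σ (a * n)⁻¹ x = σ a⁻¹ x
    rw [mul_inv_rev, mul_ap, h _ (N.inv_mem hn')]) g⁻¹]
  exact Finset.sum_congr rfl fun c _ => by rw [mul_inv_rev, inv_inv, mul_ap]

/-- an equivariant bilinear action of the endomorphisms transports projectivity -/
theorem Hig.map (h : Hig N σ) {W : Type} [AddCommGroup W] [Module k W] {ρ : Representation k G W}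
    (hρ : ∀ n ∈ N, ∀ w, ρ n w = w) (Φ : (X →ₗ[k] X) →+ (W →ₗ[k] W))
    (h1 : ∀ w, Φ LinearMap.id w = w)
    (hΦ : ∀ g u w, Φ (σ g ∘ₗ u ∘ₗ σ g⁻¹) w = ρ g (Φ u (ρ g⁻¹ w))) : Hig N ρ := by
  obtain ⟨π, hπ⟩ := h.avg
  refine ⟨h.nrm, hρ, Φ π, fun w => ?_⟩
  have e : ∑ c : G ⧸ N, σ c.out ∘ₗ π ∘ₗ σ c.out⁻¹ = LinearMap.id := LinearMap.ext fun x => by
    rw [LinearMap.sum_apply]; exact hπ x
  conv_rhs => rw [← h1 w, ← e, map_sum, LinearMap.sum_apply]
  exact Finset.sum_congr rfl fun c _ => (hΦ _ _ _).symm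

/-- **The norm trick.** -/
theorem Hig.norm_l (h : Hig N σ) {W : Type} [AddCommGroup W] [Module k W]
    {ρ : Representation k G W} (hρ : ∀ n ∈ N, ∀ w, ρ n w = w) (B : X →ₗ[k] W →ₗ[k] k)
    (hB : ∀ g x w, B (σ g x) (ρ g w) = B x w) (hs : ∀ x, (∀ w, B x w = 0) → x = 0)
    [FiniteDimensional k (Inv ρ)] : Module.rank k (Inv σ) ≤ Module.rank k (Inv ρ) := by
  obtain ⟨π, hπ⟩ := h.avg
  let f : Inv σ →ₗ[k] Module.Dual k (Inv ρ) :=
    (B.domRestrict₂ (Inv ρ)) ∘ₗ π ∘ₗ (Inv σ).subtype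
  have hf : Function.Injective f := (injective_iff_map_eq_zero f).2 fun x hx => Subtype.ext <|
    hs _ fun w => by
      have e := LinearMap.congr_fun hx ⟨_, nm_inv h.nrm hρ w⟩
      change B (π x) (∑ c : G ⧸ N, ρ c.out⁻¹ w) = 0 at e
      rw [← hπ x, map_sum, LinearMap.sum_apply, ← e, map_sum]
      refine Finset.sum_congr rfl fun c _ => ?_
      rw [x.2, ← hB c.out⁻¹, inv_ap]
  refine (LinearMap.rank_le_of_injective f hf).trans ?_
  rw [← Module.finrank_eq_rank, ← Module.finrank_eq_rank, Subspace.dual_finrank_eq]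

theorem Hig.norm_r (h : Hig N σ) {W : Type} [AddCommGroup W] [Module k W]
    {ρ : Representation k G W} (B : X →ₗ[k] W →ₗ[k] k)
    (hB : ∀ g x w, B (σ g x) (ρ g w) = B x w) (hs : ∀ w, (∀ x, B x w = 0) → w = 0)
    [FiniteDimensional k (Inv σ)] : Module.rank k (Inv ρ) ≤ Module.rank k (Inv σ) := by
  obtain ⟨π, hπ⟩ := h.avg
  let f : Inv ρ →ₗ[k] Module.Dual k (Inv σ) :=
    ((B ∘ₗ π).flip.domRestrict₂ (Inv σ)) ∘ₗ (Inv ρ).subtype
  have hf : Function.Injective f := (injective_iff_map_eq_zero f).2 fun w hw => Subtype.ext <|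
    hs _ fun x => by
      have e := LinearMap.congr_fun hw ⟨_, nm_inv h.nrm h.triv x⟩
      change B (π (∑ c : G ⧸ N, σ c.out⁻¹ x)) w = 0 at e
      rw [← hπ x, map_sum, LinearMap.sum_apply, ← e, map_sum, map_sum, LinearMap.sum_apply]
      refine Finset.sum_congr rfl fun c _ => ?_
      rw [← hB c.out⁻¹, inv_ap, w.2]
  refine (LinearMap.rank_le_of_injective f hf).trans ?_
  rw [← Module.finrank_eq_rank, ← Module.finrank_eq_rank, Subspace.dual_finrank_eq]

end

/-! ### equivariant additive maps on subquotients -/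

section

variable {k G X Y : Type} [Field k] [Group G] [AddCommGroup X] [Module k X] [AddCommGroup Y]

/-- `A` is stable -/
def St (τ : Representation ℤ G Y) (A : AddSubgroup Y) : Prop := ∀ g, ∀ a ∈ A, τ g a ∈ A

/-- the equivariant additive maps from `A` to `X` which vanish on `B` -/
def Hq (σ : Representation k G X) (τ : Representation ℤ G Y) (A B : AddSubgroup Y) :
    Submodule k (Y → X) where
  carrier := {f | (∀ a ∈ A, ∀ b ∈ A, f (a + b) = f a + f b) ∧ (∀ y ∉ A, f y = 0) ∧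
    (∀ g, ∀ a ∈ A, f (τ g a) = σ g (f a)) ∧ ∀ b ∈ B, f b = 0}
  add_mem' {f f'} h h' := ⟨fun a ha b hb => by
      simp only [Pi.add_apply]; rw [h.1 a ha b hb, h'.1 a ha b hb]; abel,
    fun y hy => by rw [Pi.add_apply, h.2.1 y hy, h'.2.1 y hy, add_zero],
    fun g a ha => by simp only [Pi.add_apply]; rw [h.2.2.1 g a ha, h'.2.2.1 g a ha, map_add],
    fun b hb => by rw [Pi.add_apply, h.2.2.2 b hb, h'.2.2.2 b hb, add_zero]⟩
  zero_mem' := ⟨fun _ _ _ _ => by simp, fun _ _ => rfl, fun _ _ _ => by simp, fun _ _ => rfl⟩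
  smul_mem' r f h := ⟨fun a ha b hb => by simp only [Pi.smul_apply]; rw [h.1 a ha b hb, smul_add],
    fun y hy => by rw [Pi.smul_apply, h.2.1 y hy, smul_zero],
    fun g a ha => by simp only [Pi.smul_apply]; rw [h.2.2.1 g a ha, map_smul],
    fun b hb => by rw [Pi.smul_apply, h.2.2.2 b hb, smul_zero]⟩

/-- its dimension -/
def dq (σ : Representation k G X) (τ : Representation ℤ G Y) (A B : AddSubgroup Y) : Cardinal :=
  Module.rank k (Hq σ τ A B)

/-- the multiples of `n` -/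
def mu (n : ℕ) (A : AddSubgroup Y) : AddSubgroup Y := A.map (nsmulAddMonoidHom n)

/-- the elements killed by `n` -/
def tor (n : ℕ) (A : AddSubgroup Y) : AddSubgroup Y := A ⊓ (nsmulAddMonoidHom n).ker

theorem mem_mu {n : ℕ} {A : AddSubgroup Y} {y : Y} : y ∈ mu n A ↔ ∃ a ∈ A, n • a = y := Iff.rfl

theorem mem_tor {n : ℕ} {A : AddSubgroup Y} {y : Y} : y ∈ tor n A ↔ y ∈ A ∧ n • y = 0 := Iff.rfl

variable {σ : Representation k G X} {τ : Representation ℤ G Y} {A B C : AddSubgroup Y}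

theorem St.top : St τ ⊤ := fun _ _ _ => trivial

theorem St.bot : St τ ⊥ := fun g a ha => by rw [AddSubgroup.mem_bot.1 ha, map_zero]; exact zero_mem _

theorem St.mu (h : St τ A) (n : ℕ) : St τ (mu n A) := by
  rintro g _ ⟨a, ha, rfl⟩
  exact ⟨τ g a, h g a ha, (map_nsmul (τ g) n a).symm⟩

theorem St.tor (h : St τ A) (n : ℕ) : St τ (tor n A) := fun g a ha =>
  ⟨h g a ha.1, by
    show n • τ g a = 0
    rw [← map_nsmul, (mem_tor.1 ha).2, map_zero]⟩

theorem St.sup (h : St τ A) (h' : St τ B) : St τ (A ⊔ B) := fun g y hy => by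
  obtain ⟨a, ha, b, hb, rfl⟩ := AddSubgroup.mem_sup.1 hy
  rw [map_add]
  exact add_mem (AddSubgroup.mem_sup_left (h g a ha)) (AddSubgroup.mem_sup_right (h' g b hb))

theorem mu_le (n : ℕ) (A : AddSubgroup Y) : mu n A ≤ A := by
  rintro _ ⟨a, ha, rfl⟩
  exact A.nsmul_mem ha n

/-- the additive map on `A` -/
def hom {f : Y → X} (h : f ∈ Hq σ τ A B) : A →+ X :=
  AddMonoidHom.mk' (fun a => f a) fun a b => h.1 a a.2 b b.2

theorem Hq_zero {f : Y → X} (h : f ∈ Hq σ τ A B) : f 0 = 0 := h.2.2.2 0 B.zero_mem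

theorem Hq_nsmul {f : Y → X} (h : f ∈ Hq σ τ A B) {a : Y} (ha : a ∈ A) (n : ℕ) :
    f (n • a) = n • f a := map_nsmul (hom h) n ⟨a, ha⟩

theorem Hq_zsmul {f : Y → X} (h : f ∈ Hq σ τ A B) {a : Y} (ha : a ∈ A) (n : ℤ) :
    f (n • a) = n • f a := map_zsmul (hom h) n ⟨a, ha⟩

theorem Hq_sub {f : Y → X} (h : f ∈ Hq σ τ A B) {a b : Y} (ha : a ∈ A) (hb : b ∈ A) :
    f (a - b) = f a - f b := map_sub (hom h) ⟨a, ha⟩ ⟨b, hb⟩

theorem p_smul (p : ℕ) [CharP k p] (x : X) : p • x = 0 := by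
  rw [← Nat.cast_smul_eq_nsmul k, CharP.cast_eq_zero, zero_smul]

theorem ext0 (p : ℕ) [Fact p.Prime] {Q X : Type} [AddCommGroup Q] [AddCommGroup X]
    [Module (ZMod p) Q] [Module (ZMod p) X] (S : AddSubgroup Q) (l : S →+ X) :
    ∃ L : Q →+ X, ∀ s : S, L s = l s := by
  let q : Submodule (ZMod p) Q := AddSubgroup.toZModSubmodule p S
  let l1 : q →+ X :=
    AddMonoidHom.mk' (fun y : q => l ⟨y.1, y.2⟩) fun a b : q => l.map_add ⟨_, a.2⟩ ⟨_, b.2⟩
  obtain ⟨g, hg⟩ := LinearMap.exists_extend (l1.toZModLinearMap p)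
  exact ⟨g.toAddMonoidHom, fun s => DFunLike.congr_fun hg ⟨s.1, s.2⟩⟩

/-- extension of additive maps -/
theorem extend (k : Type) [Field k] [Module k X] (p : ℕ) [Fact p.Prime] [CharP k p] {A B : Type}
    [AddCommGroup A] [AddCommGroup B] (i : B →+ A) (l : B →+ X)
    (h : ∀ b a, i b = p • a → l b = 0) : ∃ L : A →+ X, ∀ b, L (i b) = l b := by
  let N : AddSubgroup A := (nsmulAddMonoidHom p : A →+ A).range
  let j : B →+ A ⧸ N := (QuotientAddGroup.mk' N).comp i
  have hk : j.rangeRestrict.ker ≤ l.ker := fun b hb => by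
    obtain ⟨a, ha⟩ := (QuotientAddGroup.eq_zero_iff _).1 (congrArg Subtype.val hb)
    exact h b a ha.symm
  let l0 := j.rangeRestrict.liftOfSurjective j.rangeRestrict_surjective ⟨l, hk⟩
  have h0 : ∀ b, l0 (j.rangeRestrict b) = l b := fun b =>
    j.rangeRestrict.liftOfRightInverse_comp_apply _ _ _ b
  obtain ⟨g, hg⟩ := @ext0 p _ (A ⧸ N) X _ _ (QuotientAddGroup.zmodModule fun x => ⟨x, rfl⟩)
    (AddCommGroup.zmodModule (p_smul (k := k) p)) j.range l0
  exact ⟨g.comp (QuotientAddGroup.mk' N), fun b => (hg ⟨j b, b, rfl⟩).trans (h0 b)⟩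

open Classical in
/-- cut a function to `B` -/
def cut (k : Type) [Field k] [Module k X] (B : AddSubgroup Y) : (Y → X) →ₗ[k] (Y → X) where
  toFun f y := if y ∈ B then f y else 0
  map_add' f g := funext fun y => by by_cases h : y ∈ B <;> simp [h]
  map_smul' r f := funext fun y => by by_cases h : y ∈ B <;> simp [h]

theorem cut_pos {f : Y → X} {y : Y} (h : y ∈ B) : cut k B f y = f y := if_pos h

theorem cut_neg {f : Y → X} {y : Y} (h : y ∉ B) : cut k B f y = 0 := if_neg h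

theorem rank_split {V W : Type} [AddCommGroup V] [Module k V] [AddCommGroup W] [Module k W]
    (f : V →ₗ[k] W) (Z : Submodule k V) : Module.rank k Z =
      Module.rank k (Z ⊓ LinearMap.ker f : Submodule k V) + Module.rank k (Z.map f) := by
  rw [← LinearMap.rank_range_add_rank_ker (f.domRestrict Z), LinearMap.range_domRestrict,
    LinearMap.ker_domRestrict, add_comm]
  congr 1
  rw [← Submodule.map_comap_subtype]
  exact (Submodule.equivMapOfInjective _ (Submodule.injective_subtype Z) _).rank_eq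

variable {N : Subgroup G} [Fintype (G ⧸ N)]

/-- **equivariant extension** -/
theorem ext_eqv (p : ℕ) [Fact p.Prime] [CharP k p] (h : Hig N σ) (hτ : ∀ n ∈ N, ∀ y, τ n y = y)
    (hA : St τ A) (hB : St τ B) (le : B ≤ A) {f : Y → X} (hf : f ∈ Hq σ τ B C)
    (h0 : ∀ a ∈ A, p • a ∈ B → f (p • a) = 0) (lc : C ≤ B) :
    ∃ F ∈ Hq σ τ A C, ∀ b ∈ B, F b = f b := by
  obtain ⟨π, hπ⟩ := h.avg
  obtain ⟨L, hL⟩ := extend k p (AddSubgroup.inclusion le) (hom hf) fun b a e => by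
    have e' : (b : Y) = p • (a : Y) := congrArg Subtype.val e
    show f b = 0
    rw [e']
    exact h0 a a.2 (e' ▸ b.2)
  let L' : Y → X := fun y => by classical exact if hy : y ∈ A then L ⟨y, hy⟩ else 0
  have l1 : ∀ y (hy : y ∈ A), L' y = L ⟨y, hy⟩ := fun y hy => dif_pos hy
  let F : Y → X := fun y => ∑ c : G ⧸ N, σ c.out (π (L' (τ c.out⁻¹ y)))
  have hF : ∀ b ∈ B, F b = f b := fun b hb => by
    refine Eq.trans (Finset.sum_congr rfl fun c _ => ?_) (hπ (f b))
    rw [l1 _ (le (hB _ b hb)), ← hf.2.2.1 _ b hb]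
    exact congrArg (fun x => σ c.out (π x)) (hL ⟨_, hB _ b hb⟩)
  refine ⟨cut k A F, ⟨fun a ha b hb => ?_, fun y hy => cut_neg hy, fun g a ha => ?_,
    fun c hc => ?_⟩, fun b hb => (cut_pos (le hb)).trans (hF b hb)⟩
  · rw [cut_pos ha, cut_pos hb, cut_pos (A.add_mem ha hb), ← Finset.sum_add_distrib]
    refine Finset.sum_congr rfl fun c _ => ?_
    rw [← map_add, ← map_add, l1 _ (hA _ a ha), l1 _ (hA _ b hb), l1 _ (hA _ _ (A.add_mem ha hb)),
      ← map_add]
    congr 4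
    exact map_add _ _ _
  · rw [cut_pos ha, cut_pos (hA g a ha), map_sum]
    show ∑ c : G ⧸ N, σ c.out (π (L' (τ c.out⁻¹ (τ g a)))) = _
    rw [← sum_out N (fun c => σ c (π (L' (τ c⁻¹ (τ g a))))) (fun c n hn => by
        show σ (c * n) (π (L' (τ (c * n)⁻¹ (τ g a)))) = _
        rw [mul_ap σ, h.triv n hn, mul_inv_rev, mul_ap τ, hτ _ (N.inv_mem hn)]) g]
    refine Finset.sum_congr rfl fun c _ => ?_
    rw [mul_ap σ, mul_inv_rev, mul_ap τ, inv_ap]
  · rw [cut_pos (le (lc hc)), hF c (lc hc), hf.2.2.2 c hc]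

/-- **additivity in towers** -/
theorem dq_add (p : ℕ) [Fact p.Prime] [CharP k p] (h : Hig N σ) (hτ : ∀ n ∈ N, ∀ y, τ n y = y)
    (hA : St τ A) (hB : St τ B) (le : B ≤ A) (lc : C ≤ B)
    (h0 : ∀ a ∈ A, p • a ∈ B → ∃ c ∈ C, ∃ b ∈ B, p • a = c + p • b) :
    dq σ τ A C = dq σ τ A B + dq σ τ B C := by
  have e1 : Hq σ τ A C ⊓ LinearMap.ker (cut k B) = Hq σ τ A B := by
    ext f
    constructor
    · rintro ⟨hf, hk⟩
      exact ⟨hf.1, hf.2.1, hf.2.2.1, fun b hb => (cut_pos hb).symm.trans (congrFun hk b)⟩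
    · intro hf
      refine ⟨⟨hf.1, hf.2.1, hf.2.2.1, fun c hc => hf.2.2.2 c (lc hc)⟩, funext fun y => ?_⟩
      by_cases hy : y ∈ B
      · exact (cut_pos hy).trans (hf.2.2.2 y hy)
      · exact cut_neg hy
  have e2 : (Hq σ τ A C).map (cut k B) = Hq σ τ B C := by
    ext f
    constructor
    · rintro ⟨f, hf, rfl⟩
      refine ⟨fun a ha b hb => ?_, fun y hy => cut_neg hy, fun g a ha => ?_, fun c hc => ?_⟩
      · rw [cut_pos ha, cut_pos hb, cut_pos (B.add_mem ha hb), hf.1 a (le ha) b (le hb)]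
      · rw [cut_pos ha, cut_pos (hB g a ha), hf.2.2.1 g a (le ha)]
      · rw [cut_pos (lc hc), hf.2.2.2 c hc]
    · intro hf
      obtain ⟨F, hF, e⟩ := ext_eqv p h hτ hA hB le hf (fun a ha hb => by
        obtain ⟨c, hc, b, hb', e⟩ := h0 a ha hb
        rw [e, hf.1 c (lc hc) _ (B.nsmul_mem hb' p), hf.2.2.2 c hc, Hq_nsmul hf hb',
          p_smul (k := k), add_zero]) lc
      refine ⟨F, hF, funext fun y => ?_⟩
      by_cases hy : y ∈ B
      · exact (cut_pos hy).trans (e y hy)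
      · exact (cut_neg hy).trans (hf.2.1 y hy).symm
  rw [dq, rank_split (cut k B), e1, e2]
  rfl

omit [Fintype (G ⧸ N)] in
/-- **transport** along an equivariant map which is onto modulo `B'` -/
theorem dq_map {Y' : Type} [AddCommGroup Y'] {τ' : Representation ℤ G Y'} {A' B' : AddSubgroup Y'}
    (φ : Y →+ Y') (hφ : ∀ g, ∀ a ∈ A, φ (τ g a) = τ' g (φ a)) (hA : St τ A) (hA' : St τ' A')
    (hB' : St τ' B') (le : B ≤ A) (le' : B' ≤ A') (h1 : ∀ a ∈ A, φ a ∈ A')
    (h2 : ∀ a ∈ A, φ a ∈ B' ↔ a ∈ B) (h3 : ∀ a' ∈ A', ∃ a ∈ A, a' - φ a ∈ B') :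
    dq σ τ' A' B' = dq σ τ A B := by
  let Φ : (Y' → X) →ₗ[k] (Y → X) := cut k A ∘ₗ LinearMap.funLeft k X φ
  have hΦ : ∀ f, ∀ a ∈ A, Φ f a = f (φ a) := fun f a ha => cut_pos (k := k) ha
  have e1 : Hq σ τ' A' B' ⊓ LinearMap.ker Φ = ⊥ := by
    rw [eq_bot_iff]
    rintro f ⟨hf, hk⟩
    refine funext fun y => ?_
    by_cases hy : y ∈ A'
    · obtain ⟨a, ha, e⟩ := h3 y hy
      have := hf.2.2.2 _ e
      rw [Hq_sub hf hy (h1 a ha), ← hΦ f a ha, show Φ f = 0 from hk] at this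
      simpa using this
    · exact hf.2.1 y hy
  have e2 : (Hq σ τ' A' B').map Φ = Hq σ τ A B := by
    ext f
    constructor
    · rintro ⟨f, hf, rfl⟩
      refine ⟨fun a ha b hb => ?_, fun y hy => cut_neg (k := k) hy, fun g a ha => ?_,
        fun c hc => ?_⟩
      · rw [hΦ f a ha, hΦ f b hb, hΦ f _ (A.add_mem ha hb), map_add, hf.1 _ (h1 a ha) _ (h1 b hb)]
      · rw [hΦ f a ha, hΦ f _ (hA g a ha), hφ g a ha, hf.2.2.1 g _ (h1 a ha)]
      · rw [hΦ f c (le hc), hf.2.2.2 _ ((h2 c (le hc)).2 hc)]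
    · intro hf
      choose! s s1 s2 using h3
      have key : ∀ a' ∈ A', ∀ a ∈ A, a' - φ a ∈ B' → f (s a') = f a := fun a' ha' a ha e => by
        have e' : φ (s a' - a) ∈ B' := by
          have := B'.sub_mem e (s2 a' ha')
          rwa [sub_sub_sub_cancel_left, ← map_sub] at this
        have := hf.2.2.2 _ ((h2 _ (A.sub_mem (s1 a' ha') ha)).1 e')
        rwa [Hq_sub hf (s1 a' ha') ha, sub_eq_zero] at this
      refine ⟨cut k A' fun y => f (s y), ⟨fun a ha b hb => ?_, fun y hy => cut_neg hy,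
        fun g a ha => ?_, fun c hc => ?_⟩, funext fun y => ?_⟩
      · rw [cut_pos ha, cut_pos hb, cut_pos (A'.add_mem ha hb), ← hf.1 _ (s1 a ha) _ (s1 b hb)]
        refine key _ (A'.add_mem ha hb) _ (A.add_mem (s1 a ha) (s1 b hb)) ?_
        rw [map_add, add_sub_add_comm]
        exact B'.add_mem (s2 a ha) (s2 b hb)
      · rw [cut_pos ha, cut_pos (hA' g a ha), ← hf.2.2.1 g _ (s1 a ha)]
        refine key _ (hA' g a ha) _ (hA g _ (s1 a ha)) ?_
        rw [hφ g _ (s1 a ha), ← map_sub]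
        exact hB' g _ (s2 a ha)
      · rw [cut_pos (le' hc), key c (le' hc) 0 A.zero_mem (by simpa using hc), Hq_zero hf]
      · by_cases hy : y ∈ A
        · rw [hΦ _ y hy, cut_pos (h1 y hy)]
          exact key _ (h1 y hy) y hy (by simp)
        · exact (cut_neg (k := k) hy).trans (hf.2.1 y hy).symm
  rw [dq, rank_split Φ, e1, e2, rank_bot, zero_add]
  rfl

/-- one step -/
theorem lat1 (p : ℕ) [Fact p.Prime] [CharP k p] (h : Hig N σ) (hτ : ∀ n ∈ N, ∀ y, τ n y = y)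
    (hA : St τ A) (hB : St τ B) (le : B ≤ A) (hp : ∀ a ∈ A, p • a ∈ B) :
    dq σ τ A ⊥ + dq σ τ (tor p B) ⊥ = dq σ τ B ⊥ + dq σ τ (tor p A) ⊥ := by
  have pm : ∀ {A : AddSubgroup Y}, dq σ τ A ⊥ = dq σ τ A (mu p A) := fun {A} => by
    have : Hq σ τ A ⊥ = Hq σ τ A (mu p A) := by
      ext f
      refine ⟨fun hf => ⟨hf.1, hf.2.1, hf.2.2.1, ?_⟩, fun hf => ⟨hf.1, hf.2.1, hf.2.2.1, ?_⟩⟩
      · rintro _ ⟨a, ha, rfl⟩
        exact (Hq_nsmul hf ha p).trans (p_smul (k := k) p _)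
      · intro b hb
        rw [AddSubgroup.mem_bot.1 hb, Hq_zero hf]
    rw [dq, this, dq]
  have lm : mu p A ≤ B := by
    rintro _ ⟨a, ha, rfl⟩
    exact hp a ha
  have lt : B ⊔ tor p A ≤ A := sup_le le inf_le_left
  have e1 := dq_add p h hτ hA hB le lm fun a ha _ => ⟨_, ⟨a, ha, rfl⟩, 0, zero_mem _, by simp⟩
  have e2 := dq_add (C := mu p B) p h hτ hB (hA.mu p) lm (AddSubgroup.map_mono le)
    fun a ha _ => ⟨_, ⟨a, ha, rfl⟩, 0, zero_mem _, by simp⟩
  have e3 : dq σ τ (mu p A) (mu p B) = dq σ τ A (B ⊔ tor p A) :=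
    dq_map (nsmulAddMonoidHom p) (fun g a _ => (map_nsmul (τ g) p a).symm) hA (hA.mu p) (hB.mu p)
      lt (AddSubgroup.map_mono le) (fun a ha => ⟨a, ha, rfl⟩) (fun a ha => ⟨by
        rintro ⟨b, hb, e⟩
        exact AddSubgroup.mem_sup.2 ⟨b, hb, a - b, mem_tor.2 ⟨A.sub_mem ha (le hb), by
          rw [nsmul_sub]; exact sub_eq_zero.2 e.symm⟩, by abel⟩, fun hh => by
        obtain ⟨b, hb, t, ht, rfl⟩ := AddSubgroup.mem_sup.1 hh
        exact ⟨b, hb, by
          show p • b = p • (b + t)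
          rw [nsmul_add, (mem_tor.1 ht).2, add_zero]⟩⟩) (by
        rintro _ ⟨a, ha, rfl⟩
        exact ⟨a, ha, by simp⟩)
  have e4 := dq_add p h hτ hA (hB.sup (hA.tor p)) lt le_sup_left
    fun a ha _ => ⟨_, hp a ha, 0, zero_mem _, by simp⟩
  have e5 : dq σ τ (B ⊔ tor p A) B = dq σ τ (tor p A) (tor p B) :=
    dq_map (AddMonoidHom.id Y) (fun _ _ _ => rfl) (hA.tor p) (hB.sup (hA.tor p)) hB
      (inf_le_inf_right _ le) le_sup_left (fun a ha => AddSubgroup.mem_sup_right ha)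
      (fun a ha => ⟨fun hb => ⟨hb, ha.2⟩, fun hb => hb.1⟩) fun y hy => by
        obtain ⟨b, hb, t, ht, rfl⟩ := AddSubgroup.mem_sup.1 hy
        exact ⟨t, ht, by simpa using hb⟩
  have e6 := dq_add p h hτ (hA.tor p) (hB.tor p) (inf_le_inf_right _ le) (bot_le (a := tor p B))
    fun a ha _ => ⟨0, zero_mem _, 0, zero_mem _, by simp [(mem_tor.1 ha).2]⟩
  rw [pm (A := A), pm (A := B), e1, e2, e3, e4, e5, e6]
  ring

omit [Fintype (G ⧸ N)] in
/-- index prime to `p` -/
theorem lat0 (p : ℕ) [Fact p.Prime] [CharP k p] (hA : St τ A) (hB : St τ B) (le : B ≤ A) {m : ℕ}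
    (hm : m.Coprime p) (hp : ∀ a ∈ A, m • a ∈ B) :
    dq σ τ A ⊥ = dq σ τ B ⊥ ∧ tor p A = tor p B := by
  obtain ⟨u, v, huv⟩ : IsCoprime (m : ℤ) (p : ℤ) := Nat.isCoprime_iff_coprime.2 hm
  have dec : ∀ a : Y, a = u • m • a + v • p • a := fun a => by
    rw [← natCast_zsmul, ← natCast_zsmul, smul_smul, smul_smul, ← add_smul, huv, one_smul]
  have pm : ∀ {A : AddSubgroup Y}, dq σ τ A ⊥ = dq σ τ A (mu p A) := fun {A} => by
    have : Hq σ τ A ⊥ = Hq σ τ A (mu p A) := by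
      ext f
      refine ⟨fun hf => ⟨hf.1, hf.2.1, hf.2.2.1, ?_⟩, fun hf => ⟨hf.1, hf.2.1, hf.2.2.1, ?_⟩⟩
      · rintro _ ⟨a, ha, rfl⟩
        exact (Hq_nsmul hf ha p).trans (p_smul (k := k) p _)
      · intro b hb
        rw [AddSubgroup.mem_bot.1 hb, Hq_zero hf]
    rw [dq, this, dq]
  refine ⟨?_, le_antisymm (fun a ha => ⟨?_, ha.2⟩) (inf_le_inf_right _ le)⟩
  · rw [pm (A := A), pm (A := B)]
    refine dq_map (AddMonoidHom.id Y) (fun _ _ _ => rfl) hB hA (hA.mu p) (mu_le p B) (mu_le p A)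
      (fun a ha => le ha) (fun b hb => ⟨?_, fun hh => AddSubgroup.map_mono le hh⟩) fun a ha => ?_
    · rintro ⟨a, ha, e⟩
      refine ⟨u • m • a + v • b, B.add_mem (B.zsmul_mem (hp a ha) u) (B.zsmul_mem hb v), ?_⟩
      have e' : p • a = b := e
      show p • (u • m • a + v • b) = b
      rw [← e', ← dec a]
    · refine ⟨u • m • a, B.zsmul_mem (hp a ha) u, v • a, A.zsmul_mem ha v, ?_⟩
      show p • v • a = a - u • m • a
      rw [eq_sub_iff_add_eq', smul_comm p]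
      exact (dec a).symm
  · rw [dec a, (mem_tor.1 ha).2, smul_zero, add_zero]
    exact B.zsmul_mem (hp a ha.1) u

omit [Fintype (G ⧸ N)] in
theorem dq_fin [FiniteDimensional k X] (h : (A : Set Y).Finite) : dq σ τ A B < Cardinal.aleph0 := by
  haveI := h.to_subtype
  let f : Hq σ τ A B →ₗ[k] (A → X) := LinearMap.funLeft k X Subtype.val ∘ₗ (Hq σ τ A B).subtype
  haveI : Module.Finite k (Hq σ τ A B) := Module.Finite.of_injective f fun a b e =>
    Subtype.ext (funext fun y => by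
      by_cases hy : y ∈ A
      · exact congrFun e ⟨y, hy⟩
      · rw [a.2.2.1 y hy, b.2.2.1 y hy])
  exact Module.rank_lt_aleph0 _ _

/-- **lattices of finite index** -/
theorem lat (p : ℕ) [Fact p.Prime] [CharP k p] [FiniteDimensional k X] (h : Hig N σ)
    (hτ : ∀ n ∈ N, ∀ y, τ n y = y) (hA : St τ A) (hB : St τ B) (le : B ≤ A) {n : ℕ} (hn : n ≠ 0)
    (hp : ∀ a ∈ A, n • a ∈ B) (ht : (tor p A : Set Y).Finite) :
    dq σ τ A ⊥ + dq σ τ (tor p B) ⊥ = dq σ τ B ⊥ + dq σ τ (tor p A) ⊥ := by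
  obtain ⟨i, m, hm, rfl⟩ := Nat.exists_eq_pow_mul_and_not_dvd hn p (Fact.out : p.Prime).ne_one
  have hm' : m.Coprime p := ((Nat.Prime.coprime_iff_not_dvd Fact.out).2 hm).symm
  clear hn
  induction i generalizing A with
  | zero =>
    obtain ⟨a, b⟩ := lat0 (σ := σ) p hA hB le hm' (by simpa using hp)
    rw [a, b]
  | succ i ih =>
    have l1 : B ⊔ mu p A ≤ A := sup_le le (mu_le p A)
    have s1 := hB.sup (hA.mu p)
    have f1 : (tor p (B ⊔ mu p A) : Set Y).Finite := ht.subset (inf_le_inf_right _ l1)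
    have e1 := lat1 p h hτ hA s1 l1 fun a ha => AddSubgroup.mem_sup_right ⟨a, ha, rfl⟩
    have e2 := ih s1 le_sup_left f1 fun y hy => by
      obtain ⟨b, hb, _, ⟨a, ha, rfl⟩, rfl⟩ := AddSubgroup.mem_sup.1 hy
      rw [nsmul_add]
      refine B.add_mem (B.nsmul_mem hb _) ?_
      have := hp a ha
      rwa [pow_succ, mul_right_comm, mul_smul] at this
    refine (Cardinal.add_right_inj_of_lt_aleph0 (dq_fin (σ := σ) (τ := τ) (B := ⊥) f1)).1 ?_
    rw [add_right_comm, e1, add_right_comm, e2, add_right_comm]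

/-- the equivariant functions on a `G` set -/
def Eqv (σ : Representation k G X) (I : Type) [MulAction G I] : Submodule k (I → X) where
  carrier := {f | ∀ (g : G) i, f (g • i) = σ g (f i)}
  add_mem' {a b} ha hb g i := by rw [Pi.add_apply, Pi.add_apply, ha g i, hb g i, map_add]
  zero_mem' g i := (map_zero _).symm
  smul_mem' r a ha g i := by rw [Pi.smul_apply, Pi.smul_apply, ha g i, map_smul]

/-- the permutation module -/
def pm (G I : Type) [Group G] [MulAction G I] : Representation ℤ G (I → ℤ) where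
  toFun g := LinearMap.funLeft ℤ ℤ fun i => g⁻¹ • i
  map_one' := LinearMap.ext fun a => funext fun i => by simp [LinearMap.funLeft_apply]
  map_mul' g h := LinearMap.ext fun a => funext fun i => by
    simp [LinearMap.funLeft_apply, mul_smul]

theorem pm_ap {I : Type} [MulAction G I] (g : G) (a : I → ℤ) (i : I) :
    pm G I g a i = a (g⁻¹ • i) := rfl

theorem sum_smul_idx {I M : Type} [Fintype I] [MulAction G I] [AddCommMonoid M] (g : G)
    (t : I → M) : ∑ i, t (g • i) = ∑ i, t i :=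
  Fintype.sum_equiv (MulAction.toPerm g : Equiv.Perm I) _ _ fun _ => rfl

omit [Fintype (G ⧸ N)] in
theorem dq_pm (I : Type) [Fintype I] [MulAction G I] :
    dq σ (pm G I) ⊤ ⊥ = Module.rank k (Eqv σ I) := by
  classical
  have sg : ∀ (g : G) (i : I), pm G I g (Pi.single i 1) = Pi.single (g • i) 1 := fun g i =>
    funext fun j => by simp only [pm_ap, Pi.single_apply, inv_smul_eq_iff]
  let Φ : ((I → ℤ) → X) →ₗ[k] (I → X) := LinearMap.funLeft k X fun i => Pi.single i 1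
  have ex : ∀ f (hf : f ∈ Hq σ (pm G I) ⊤ ⊥) (a : I → ℤ), f a = ∑ i, a i • Φ f i := fun f hf a => by
    let f' : (I → ℤ) →+ X := AddMonoidHom.mk' f fun a b => hf.1 a trivial b trivial
    show f' a = _
    conv_lhs => rw [← Finset.univ_sum_single a, map_sum]
    refine Finset.sum_congr rfl fun i _ => ?_
    rw [show Pi.single i (a i) = a i • (Pi.single i 1 : I → ℤ) by simp [← Pi.single_smul],
      map_zsmul]
    rfl
  have e1 : Hq σ (pm G I) ⊤ ⊥ ⊓ LinearMap.ker Φ = ⊥ := by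
    rw [eq_bot_iff]
    rintro f ⟨hf, hk⟩
    refine funext fun a => ?_
    rw [ex f hf, show Φ f = 0 from hk]
    simp
  have e2 : (Hq σ (pm G I) ⊤ ⊥).map Φ = Eqv σ I := by
    ext f
    constructor
    · rintro ⟨f, hf, rfl⟩ g i
      show f _ = σ g (f _)
      rw [← hf.2.2.1 g _ trivial, sg]
    · intro hf
      refine ⟨fun a => ∑ i, a i • f i, ⟨fun a _ b _ => ?_, fun y hy => absurd trivial hy,
        fun g a _ => ?_, fun b hb => ?_⟩, funext fun i => ?_⟩
      · simp only [Pi.add_apply, add_smul, Finset.sum_add_distrib]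
      · show ∑ i, a (g⁻¹ • i) • f i = σ g (∑ i, a i • f i)
        rw [← sum_smul_idx g, map_sum]
        exact Finset.sum_congr rfl fun i _ => by rw [inv_smul_smul, hf g i, map_zsmul]
      · simp [AddSubgroup.mem_bot.1 hb]
      · show ∑ j, (Pi.single i 1 : I → ℤ) j • f j = f i
        simp [Pi.single_apply]
  rw [dq, rank_split Φ, e1, e2, rank_bot, zero_add]

omit [Fintype (G ⧸ N)] in
theorem dq_triv : dq σ (Representation.trivial ℤ G ℤ) ⊤ ⊥ = Module.rank k (Inv σ) := by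
  let Φ : (ℤ → X) →ₗ[k] X := LinearMap.proj 1
  have e1 : Hq σ (Representation.trivial ℤ G ℤ) ⊤ ⊥ ⊓ LinearMap.ker Φ = ⊥ := by
    rw [eq_bot_iff]
    rintro f ⟨hf, hk⟩
    refine funext fun a => ?_
    have := Hq_zsmul hf (a := 1) trivial a
    rw [show f 1 = 0 from hk] at this
    simpa using this
  have e2 : (Hq σ (Representation.trivial ℤ G ℤ) ⊤ ⊥).map Φ = Inv σ := by
    ext x
    constructor
    · rintro ⟨f, hf, rfl⟩ g
      exact (hf.2.2.1 g 1 trivial).symm
    · intro hx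
      exact ⟨fun a => a • x, ⟨fun a _ b _ => add_smul a b x, fun y hy => absurd trivial hy,
        fun g a _ => by rw [map_zsmul, hx g]; rfl, fun b hb => by
          simp [AddSubgroup.mem_bot.1 hb]⟩, one_smul ℤ x⟩
  rw [dq, rank_split Φ, e1, e2, rank_bot, zero_add]

omit [Fintype (G ⧸ N)] in
theorem dq_bot : dq σ τ ⊥ ⊥ = 0 := by
  have : Hq σ τ ⊥ ⊥ = ⊥ := by
    rw [eq_bot_iff]
    intro f hf
    refine funext fun y => ?_
    by_cases hy : y ∈ (⊥ : AddSubgroup Y)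
    · exact hf.2.2.2 y hy
    · exact hf.2.1 y hy
  rw [dq, this, rank_bot]

/-- **an equivariant family with one relation** -/
theorem perm (p : ℕ) [Fact p.Prime] [CharP k p] [FiniteDimensional k X] (h : Hig N σ)
    (hτ : ∀ n ∈ N, ∀ y, τ n y = y) {I : Type} [Fintype I] [MulAction G I]
    (hI : ∀ n ∈ N, ∀ i : I, n • i = i) (y : I → Y) (hy : ∀ (g : G) i, y (g • i) = τ g (y i))
    (e : I → ℤ) (he : ∑ i, e i ≠ 0)
    (hr : ∀ a : I → ℤ, ∑ i, a i • y i = 0 ↔ ∃ c : ℤ, a = c • e) {n : ℕ} (hn : n ≠ 0)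
    (hf : ∀ z, ∃ a : I → ℤ, ∑ i, a i • y i = n • z) (ht : (tor p (⊤ : AddSubgroup Y) : Set Y).Finite) :
    dq σ τ ⊤ ⊥ + Module.rank k (Inv σ) = Module.rank k (Eqv σ I) + dq σ τ (tor p ⊤) ⊥ := by
  let φ : (I → ℤ) →+ Y := AddMonoidHom.mk' (fun a => ∑ i, a i • y i) fun a b => by
    simp only [Pi.add_apply, add_smul, Finset.sum_add_distrib]
  let s : (I → ℤ) →+ ℤ := AddMonoidHom.mk' (fun a => ∑ i, a i) fun a b => by
    simp only [Pi.add_apply, Finset.sum_add_distrib]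
  have hφ : ∀ g a, φ (pm G I g a) = τ g (φ a) := fun g a => by
    show ∑ i, a (g⁻¹ • i) • y i = τ g (∑ i, a i • y i)
    rw [← sum_smul_idx g, map_sum]
    exact Finset.sum_congr rfl fun i _ => by rw [inv_smul_smul, hy g i, map_zsmul]
  have hs : ∀ g a, s (pm G I g a) = s a := fun g a => sum_smul_idx g⁻¹ a
  have s0 : St (pm G I) s.ker := fun g a ha => (hs g a).trans ha
  have s1 : St τ (s.ker.map φ) := by
    rintro g _ ⟨a, ha, rfl⟩
    exact ⟨_, s0 g a ha, hφ g a⟩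
  have inj : ∀ a ∈ s.ker, φ a = 0 → a = 0 := fun a ha e0 => by
    obtain ⟨c, rfl⟩ := (hr a).1 e0
    have : s (c • e) = 0 := ha
    rw [map_zsmul, smul_eq_mul] at this
    rw [(mul_eq_zero.1 this).resolve_right he, zero_smul]
  have p0 : p ≠ 0 := (Fact.out : p.Prime).ne_zero
  have t0 : tor p (s.ker.map φ) = ⊥ := by
    rw [eq_bot_iff]
    rintro _ ⟨⟨a, ha, rfl⟩, e0⟩
    have := inj (p • a) (s.ker.nsmul_mem ha p) (by rw [map_nsmul]; exact e0)
    rw [(smul_eq_zero.1 this).resolve_left p0, map_zero]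
    exact zero_mem _
  have e1 := lat p h hτ St.top s1 le_top (n := (s e).natAbs * n)
    (mul_ne_zero (Int.natAbs_ne_zero.2 he) hn) (fun z _ => by
      obtain ⟨a, ha⟩ := hf z
      have k1 : s e • n • z ∈ s.ker.map φ := ⟨s e • a - s a • e, by
        show s _ = 0
        rw [map_sub, map_zsmul, map_zsmul, smul_eq_mul, smul_eq_mul, mul_comm, sub_self], by
        rw [map_sub, map_zsmul, map_zsmul, show φ e = 0 from (hr e).2 ⟨1, (one_smul _ _).symm⟩,
          smul_zero, sub_zero, show φ a = n • z from ha]⟩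
      rw [mul_smul, ← natCast_zsmul]
      rcases Int.natAbs_eq (s e) with c | c
      · rwa [← c]
      · rw [c, neg_smul] at k1
        exact neg_mem_iff.1 k1) ht
  have e2 : dq σ τ (s.ker.map φ) ⊥ = dq σ (pm G I) s.ker ⊥ :=
    dq_map φ (fun g a _ => hφ g a) s0 s1 St.bot bot_le bot_le (fun a ha => ⟨a, ha, rfl⟩)
      (fun a ha => ⟨fun e0 => inj a ha e0, fun e0 => by
        rw [AddSubgroup.mem_bot.1 e0, map_zero]; exact zero_mem _⟩) (by
        rintro _ ⟨a, ha, rfl⟩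
        exact ⟨a, ha, by simp⟩)
  have e3 := dq_add (τ := pm G I) (C := ⊥) p h (fun n hn a => funext fun i => by
    rw [pm_ap, hI _ (N.inv_mem hn)]) St.top s0 le_top bot_le fun a _ ha =>
      ⟨0, zero_mem _, a, by
        have : s (p • a) = 0 := ha
        rw [map_nsmul] at this
        exact (smul_eq_zero.1 this).resolve_left p0, (zero_add _).symm⟩
  have e4 : dq σ (Representation.trivial ℤ G ℤ) ⊤ ⊥ = dq σ (pm G I) ⊤ s.ker :=
    dq_map s (fun g a _ => hs g a) St.top St.top St.bot le_top bot_le (fun _ _ => trivial)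
      (fun a _ => Iff.rfl) fun c _ => by
        classical
        obtain ⟨i, -, -⟩ := Finset.exists_ne_zero_of_sum_ne_zero he
        refine ⟨Pi.single i c, trivial, ?_⟩
        show c - ∑ j, (Pi.single i c : I → ℤ) j = 0
        simp
  rw [t0, dq_bot, add_zero] at e1
  rw [e1, e2, ← dq_pm, e3, ← e4, dq_triv]
  ring

end

end Vale.Agent.P022K.GW.Hig
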