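import Vale.Agent.P022K.GW.Eul
import Vale.Agent.P022K.GW.Hig

/-!
# P022K, block GW: the additive function of a projective representation (rows `PSI`, `FUN`, `FXC`)
-/

set_option linter.all false

noncomputable section

namespace Vale.Agent.P022K.GW

open Module TensorProduct

namespace Psi

open Cal

variable {G k N : Type} [Group G] [Field k] [AddCommGroup N] [Module k N] {U : Subgroup G}
  {ν : Representation k G N}

theorem hig_of [U.Normal] (h : Hig U ν) : ∃ _ : Fintype (G ⧸ U), Hig.Hig U ν := by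
  obtain ⟨h1, ε, -, i, h2⟩ := h
  exact ⟨i, inferInstance, fun n hn x => by rw [h1 n hn]; rfl, ε, fun x => by
    have := LinearMap.congr_fun h2 x
    rwa [LinearMap.sum_apply] at this⟩

theorem of_hig [Fintype (G ⧸ U)] (h : Hig.Hig U ν) : Hig U ν := by
  obtain ⟨ε, hε⟩ := h.avg
  have e : ∀ u ∈ U, ν u = 1 := fun u hu => LinearMap.ext (h.triv u hu)
  exact ⟨e, ε, fun b hb => by rw [e b hb, one_mul, mul_one], inferInstance,
    LinearMap.ext fun x => by rw [LinearMap.sum_apply]; exact hε x⟩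

theorem hig_dual [Fintype (G ⧸ U)] (h : Hig.Hig U ν) : Hig.Hig U ν.dual :=
  h.map (fun n hn w => LinearMap.ext fun x => congrArg w (h.triv _ (U.inv_mem hn) x))
    (AddMonoidHom.mk' (fun u : N →ₗ[k] N => u.dualMap) fun u v : N →ₗ[k] N =>
      LinearMap.ext fun w => LinearMap.ext fun x => map_add w (u x) (v x)) (fun _ => rfl) fun g u w => LinearMap.ext fun x => by
    show w (ν g (u (ν g⁻¹ x))) = w (ν g⁻¹⁻¹ (u (ν g⁻¹ x)))
    rw [inv_inv]

/-- twists by characters -/
theorem hig_tw [Fintype (G ⧸ U)] (h : Hig.Hig U ν) {χ : G →* kˣ} (hχ : ∀ u ∈ U, χ u = 1) :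
    Hig.Hig U (tw χ ν) :=
  h.map (fun n hn w => by
      show (χ n : k) • ν n w = w
      rw [hχ n hn, Units.val_one, one_smul, h.triv n hn]) (AddMonoidHom.id _) (fun _ => rfl)
    fun g u w => by
      show ν g (u (ν g⁻¹ w)) = (χ g : k) • ν g (u ((χ g⁻¹ : k) • ν g⁻¹ w))
      rw [map_smul, map_smul, smul_smul, map_inv χ, Units.mul_inv, one_smul]

/-- exactness of the invariants -/
theorem inv_ex [Fintype (G ⧸ U)] {W₁ W W₂ : Type} [AddCommGroup W₁] [Module k W₁] [AddCommGroup W]
    [Module k W] [AddCommGroup W₂] [Module k W₂] [Module.Finite k W] {ρ₁ : Representation k G W₁}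
    {ρ : Representation k G W} {ρ₂ : Representation k G W₂} {i : W₁ →ₗ[k] W} {q : W →ₗ[k] W₂}
    (e : Ex ρ₁ ρ ρ₂ i q) (h : Hig.Hig U ρ₂) (ht : ∀ u ∈ U, ∀ w, ρ u w = w) :
    finrank k (Hig.Inv ρ) = finrank k (Hig.Inv ρ₁) + finrank k (Hig.Inv ρ₂) := by
  have e1 : Hig.Inv ρ ⊓ LinearMap.ker q = (Hig.Inv ρ₁).map i := by
    ext w
    constructor
    · rintro ⟨a, b⟩
      obtain ⟨x, rfl⟩ := (e.ex w).1 b
      exact ⟨x, fun g => e.inj (by rw [e.ei, a g]), rfl⟩
    · rintro ⟨x, hx, rfl⟩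
      exact ⟨fun g => by rw [← e.ei, hx g], (e.ex _).2 ⟨x, rfl⟩⟩
  have e2 : (Hig.Inv ρ).map q = Hig.Inv ρ₂ := by
    ext c
    constructor
    · rintro ⟨w, hw, rfl⟩ g
      rw [← e.eq, hw g]
    · intro hc
      obtain ⟨π, hπ⟩ := h.avg
      obtain ⟨b, hb⟩ := e.sur (π c)
      refine ⟨∑ x : G ⧸ U, ρ x.out b, fun g => ?_, ?_⟩
      · rw [map_sum, ← Hig.sum_out U (fun x => ρ x b) (fun x n hn => by
          show ρ (x * n) b = ρ x b
          rw [Hig.mul_ap, ht n hn]) g]
        exact Finset.sum_congr rfl fun x _ => (Hig.mul_ap _ _ _ _).symm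
      · rw [map_sum, ← hπ c]
        exact Finset.sum_congr rfl fun x _ => by rw [e.eq, hb, hc]
  have r := Hig.rank_split q (Hig.Inv ρ)
  rw [e1, e2, ← (Submodule.equivMapOfInjective i e.inj _).rank_eq] at r
  haveI := Module.Finite.of_injective i e.inj
  haveI := Module.Finite.of_surjective q e.sur
  rw [← finrank_eq_rank, ← finrank_eq_rank, ← finrank_eq_rank] at r
  exact_mod_cast r

section

variable {M M' : Type} [AddCommGroup M] [AddCommGroup M']

/-- the tensor product -/
def tn (ν : Representation k G N) (a : Ac G M) : Representation k G (N ⊗[ℤ] M) where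
  toFun g := AlgebraTensorModule.map (ν g) (AddMonoidHom.toIntLinearMap (a g : M →+ M))
  map_one' := AlgebraTensorModule.ext fun n m => by rw [map_one, map_one]; rfl
  map_mul' g h := AlgebraTensorModule.ext fun n m => by rw [map_mul, map_mul]; rfl

theorem tn_ap (a : Ac G M) (g : G) (n : N) (m : M) : tn ν a g (n ⊗ₜ m) = ν g n ⊗ₜ a g m := rfl

theorem psi_eq (a : Ac G M) : psi ν M a = finrank k (Hig.Inv (tn ν a)) := by
  have : (⨅ g : G, LinearMap.ker (AlgebraTensorModule.map (ν g)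
      (AddMonoidHom.toIntLinearMap (a g : M →+ M)) - LinearMap.id) : Submodule k (N ⊗[ℤ] M)) =
      Hig.Inv (tn ν a) := by
    ext x
    simp only [Submodule.mem_iInf, LinearMap.mem_ker, LinearMap.sub_apply, sub_eq_zero]
    rfl
  rw [psi, this]

variable (k N) in
/-- functoriality -/
def lt (f : M →+ M') : N ⊗[ℤ] M →ₗ[k] N ⊗[ℤ] M' :=
  AlgebraTensorModule.map LinearMap.id f.toIntLinearMap

theorem lt_ap (f : M →+ M') (n : N) (m : M) : lt k N f (n ⊗ₜ m) = n ⊗ₜ f m := rfl

theorem lt_eq (f : M →+ M') (x : N ⊗[ℤ] M) : lt k N f x = LinearMap.lTensor N f.toIntLinearMap x :=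
  rfl

theorem lt_tn {a : Ac G M} {a' : Ac G M'} {f : M →+ M'} (h : ∀ g m, f (a g m) = a' g (f m)) (g : G)
    (x : N ⊗[ℤ] M) : lt k N f (tn ν a g x) = tn ν a' g (lt k N f x) := by
  induction x with
  | zero => simp
  | tmul n m => rw [tn_ap, lt_ap, lt_ap, tn_ap, h]
  | add x y hx hy => simp only [map_add, hx, hy]

theorem fin_tn [Module.Finite k N] [Finite M] : Module.Finite k (N ⊗[ℤ] M) := by
  haveI := Fintype.ofFinite M
  let f : (M → N) →ₗ[k] N ⊗[ℤ] M :=
    ∑ m : M, ((AlgebraTensorModule.mk ℤ k N M).flip m).restrictScalars k ∘ₗ LinearMap.proj m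
  have hf : ∀ c, f c = ∑ m, c m ⊗ₜ m := fun c => by rw [LinearMap.sum_apply]; rfl
  refine Module.Finite.of_surjective f fun x => ?_
  induction x with
  | zero => exact ⟨0, map_zero _⟩
  | tmul n m =>
    classical
    refine ⟨Pi.single m n, ?_⟩
    rw [hf, Finset.sum_eq_single m (fun b _ hb => by rw [Pi.single_eq_of_ne hb, zero_tmul])
      (fun h => absurd (Finset.mem_univ _) h), Pi.single_eq_same]
  | add x y hx hy =>
    obtain ⟨c, rfl⟩ := hx
    obtain ⟨d, rfl⟩ := hy
    exact ⟨c + d, map_add _ _ _⟩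

theorem tn_triv {a : Ac G M} (h : ∀ u ∈ U, ∀ n, ν u n = n) (ha : ∀ u ∈ U, ∀ m, a u m = m) :
    ∀ u ∈ U, ∀ x, tn ν a u x = x := fun u hu x => by
  induction x with
  | zero => simp
  | tmul n m => rw [tn_ap, h u hu, ha u hu]
  | add x y hx hy => rw [map_add, hx, hy]

theorem hig_tn [Fintype (G ⧸ U)] (h : Hig.Hig U ν) {a : Ac G M} (ha : ∀ u ∈ U, ∀ m, a u m = m) :
    Hig.Hig U (tn ν a) :=
  h.map (tn_triv h.triv ha) (AlgebraTensorModule.rTensor ℤ M).toAddMonoidHom
    (fun w => LinearMap.congr_fun AlgebraTensorModule.map_id w) fun g u w => by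
    induction w with
    | zero => simp
    | tmul n m =>
      show ν g (u (ν g⁻¹ n)) ⊗ₜ m = ν g (u (ν g⁻¹ n)) ⊗ₜ (a g * a g⁻¹) m
      rw [← map_mul, mul_inv_cancel, map_one]; rfl
    | add x y hx hy => simp only [map_add, hx, hy]

variable {p : ℕ} [Fact p.Prime] [CharP k p]

theorem val_smul (z : ZMod p) (n : N) : z.val • n = ZMod.castHom (dvd_refl p) k z • n := by
  rw [← Nat.cast_smul_eq_nsmul k, ZMod.castHom_apply, ZMod.natCast_val]

theorem val_add (h : ∀ m : M, p • m = 0) (a b : ZMod p) (m : M) :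
    (a + b).val • m = a.val • m + b.val • m := by
  rw [ZMod.val_add, ← add_smul]
  conv_rhs => rw [← Nat.mod_add_div (a.val + b.val) p, add_smul, mul_smul, h, add_zero]

variable (k N) in
/-- contraction with a functional on the second factor -/
def ct (l : M →+ ZMod p) : N ⊗[ℤ] M →ₗ[k] N :=
  AlgebraTensorModule.lift
    { toFun := fun n => (AddMonoidHom.mk' (fun m => ZMod.castHom (dvd_refl p) k (l m) • n)
        fun m m' => by rw [map_add, map_add, add_smul]).toIntLinearMap
      map_add' := fun n n' => LinearMap.ext fun m => smul_add _ n n'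
      map_smul' := fun c n => LinearMap.ext fun m => smul_comm _ c n }

theorem ct_ap (l : M →+ ZMod p) (n : N) (m : M) :
    ct k N l (n ⊗ₜ m) = ZMod.castHom (dvd_refl p) k (l m) • n := rfl

theorem ct_sep {J : Type} [Fintype J] (e : J → M) (l : J → M →+ ZMod p)
    (h : ∀ m, ∑ i, (l i m).val • e i = m) (x : N ⊗[ℤ] M) : ∑ i, ct k N (l i) x ⊗ₜ e i = x := by
  induction x with
  | zero => simp
  | tmul n m =>
    conv_rhs => rw [← h m, tmul_sum]
    refine Finset.sum_congr rfl fun i _ => ?_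
    rw [ct_ap, ← val_smul, ← natCast_zsmul, ← natCast_zsmul, smul_tmul]
  | add x y hx hy => simp only [map_add, add_tmul, Finset.sum_add_distrib, hx, hy]

/-- contraction with a functional on the first factor -/
def co (h : ∀ m : M, p • m = 0) (l : N →+ ZMod p) : N ⊗[ℤ] M →+ M :=
  TensorProduct.liftAddHom (AddMonoidHom.mk' (fun n => nsmulAddMonoidHom (l n).val) fun n n' =>
    AddMonoidHom.ext fun m => by rw [map_add]; exact val_add h _ _ m) fun r n m => by
      rw [map_zsmul, map_zsmul]; rfl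

omit [CharP k p] in
theorem co_ap (h : ∀ m : M, p • m = 0) (l : N →+ ZMod p) (n : N) (m : M) :
    co h l (n ⊗ₜ m) = (l n).val • m := rfl

omit [CharP k p] in
theorem co_sep (h : ∀ m : M, p • m = 0) {J : Type} [Fintype J] (e : J → N) (l : J → N →+ ZMod p)
    (hn : ∀ n, ∑ i, (l i n).val • e i = n) (x : N ⊗[ℤ] M) : ∑ i, e i ⊗ₜ co h (l i) x = x := by
  induction x with
  | zero => simp
  | tmul n m =>
    conv_rhs => rw [← hn n, sum_tmul]
    refine Finset.sum_congr rfl fun i _ => ?_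
    rw [co_ap, ← natCast_zsmul, ← natCast_zsmul, smul_tmul]
  | add x y hx hy => simp only [map_add, tmul_add, Finset.sum_add_distrib, hx, hy]

omit [CharP k p] in
theorem co_lt (h : ∀ m : M, p • m = 0) (h' : ∀ m : M', p • m = 0) (l : N →+ ZMod p) (f : M →+ M')
    (x : N ⊗[ℤ] M) : co h' l (LinearMap.lTensor N f.toIntLinearMap x) = f (co h l x) := by
  induction x with
  | zero => simp
  | tmul n m => exact (map_nsmul f _ m).symm
  | add x y hx hy => simp only [map_add, hx, hy]

omit [CharP k p] in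
theorem frame0 [Finite M] [Module (ZMod p) M] [Module (ZMod p) M'] (β : M →+ M' →+ ZMod p)
    (h : ∀ x, (∀ y, β x y = 0) → x = 0) :
    ∃ (n : ℕ) (e : Fin n → M) (b : Fin n → M'), ∀ m, ∑ i, (β m (b i)).val • e i = m := by
  let B : M →ₗ[ZMod p] M' →ₗ[ZMod p] ZMod p :=
    (AddMonoidHom.mk' (fun x => (β x).toZModLinearMap p) fun x y => LinearMap.ext fun z =>
      DFunLike.congr_fun (map_add β x y) z).toZModLinearMap p
  have hs : Function.Surjective B.flip := LinearMap.flip_surjective_iff₁.2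
    ((injective_iff_map_eq_zero B).2 fun x hx => h x fun y => LinearMap.congr_fun hx y)
  let e := Module.finBasis (ZMod p) M
  choose b hb using fun i => hs (e.coord i)
  refine ⟨_, e, b, fun m => Eq.trans (Finset.sum_congr rfl fun i _ => ?_) (e.sum_repr m)⟩
  rw [show β m (b i) = e.repr m i from LinearMap.congr_fun (hb i) m,
    ← Nat.cast_smul_eq_nsmul (ZMod p), ZMod.natCast_zmod_val]

omit [CharP k p] in
/-- dual frames for a pairing without left kernel -/
theorem frame [Finite M] (hM : ∀ m : M, p • m = 0) (hM' : ∀ m : M', p • m = 0)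
    (β : M →+ M' →+ ZMod p) (h : ∀ x, (∀ y, β x y = 0) → x = 0) :
    ∃ (n : ℕ) (e : Fin n → M) (b : Fin n → M'), ∀ m, ∑ i, (β m (b i)).val • e i = m :=
  @frame0 M M' _ _ p _ _ (AddCommGroup.zmodModule hM) (AddCommGroup.zmodModule hM') β h

omit [CharP k p] in
theorem sep0 [Module (ZMod p) M] (x : M) (h : ∀ l : M →+ ZMod p, l x = 0) : x = 0 :=
  (Module.forall_dual_apply_eq_zero_iff (ZMod p) x).1 fun l => h l.toAddMonoidHom

omit [CharP k p] in
theorem sep (hM : ∀ m : M, p • m = 0) (x : M) (h : ∀ l : M →+ ZMod p, l x = 0) : x = 0 :=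
  @sep0 M _ p _ (AddCommGroup.zmodModule hM) x h

omit [CharP k p] in
/-- coordinates -/
theorem frame' [Finite M] (hM : ∀ m : M, p • m = 0) :
    ∃ (n : ℕ) (e : Fin n → M) (l : Fin n → M →+ ZMod p), ∀ m, ∑ i, (l i m).val • e i = m :=
  frame hM (fun l => AddMonoidHom.ext fun m => by simp) AddMonoidHom.eval (sep hM)

end

variable {p : ℕ} [Fact p.Prime] [CharP k p]

theorem add [Module.Finite k N] [Fintype (G ⧸ U)] (h : Hig.Hig U ν) : (psi ν).Add p U := by
  intro A B C _ _ _ a b c i q hb hi hq he ei eq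
  haveI := hb.fin
  haveI : Finite A := Finite.of_injective i hi
  haveI := fin_tn (k := k) (N := N) (M := B)
  have tA : ∀ m : A, p • m = 0 := fun m => hi (by rw [map_nsmul, hb.tor, map_zero])
  have uC : ∀ u ∈ U, ∀ m, c u m = m := fun u hu m => by
    obtain ⟨y, rfl⟩ := hq m
    rw [← eq, hb.trv u hu]
  rw [psi_eq, psi_eq, psi_eq]
  refine inv_ex (i := lt k N i) (q := lt k N q) ⟨?_, LinearMap.lTensor_surjective N hq,
    fun v => lTensor_exact N (f := i.toIntLinearMap) (g := q.toIntLinearMap) he hq v,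
    lt_tn ei, lt_tn eq⟩ (hig_tn h uC) (tn_triv h.triv hb.trv)
  obtain ⟨n, e, l, hl⟩ := frame' tA
  have ex : ∀ j, ∃ L : B →+ ZMod p, ∀ x, L (i x) = l j x := fun j =>
    Hig.extend (ZMod p) p i (l j) fun x y k => by
      rw [hb.tor, ← map_zero i] at k
      rw [hi k, map_zero]
  choose L hL using ex
  refine (injective_iff_map_eq_zero _).2 fun x hx => ?_
  have key : ∀ j x, ct k N (L j) (lt k N i x) = ct k N (l j) x := fun j x => by
    induction x with
    | zero => simp
    | tmul n m => rw [lt_ap, ct_ap, ct_ap, hL]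
    | add x y hx hy => simp only [map_add, hx, hy]
  rw [← ct_sep (k := k) e l hl x]
  exact Finset.sum_eq_zero fun j _ => by rw [← key, hx, map_zero, zero_tmul]

theorem du [Module.Finite k N] [Fintype (G ⧸ U)] (h : Hig.Hig U ν) :
    (psi ν).Du (psi ν.dual) p U := by
  intro A B _ _ a b β ha hb inv l1 l2
  haveI := ha.fin
  haveI := hb.fin
  haveI := fin_tn (k := k) (N := N) (M := A)
  haveI := fin_tn (k := k) (N := Module.Dual k N) (M := B)
  let P : Module.Dual k N ⊗[ℤ] B →ₗ[k] N ⊗[ℤ] A →ₗ[k] k := AlgebraTensorModule.lift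
    { toFun := fun f => (AddMonoidHom.mk' (fun y => f ∘ₗ ct k N (β.flip y)) fun y y' =>
        AlgebraTensorModule.ext fun n m => by
          simp only [LinearMap.comp_apply, LinearMap.add_apply, ct_ap, AddMonoidHom.flip_apply,
            map_add, add_smul, AddMonoidHom.add_apply]).toIntLinearMap
      map_add' := fun f f' => LinearMap.ext fun y => LinearMap.add_comp _ _ _
      map_smul' := fun c f => LinearMap.ext fun y => LinearMap.smul_comp _ _ _ }
  have p1 : ∀ f y x, P (f ⊗ₜ y) x = f (ct k N (β.flip y) x) := fun _ _ _ => rfl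
  have p2 : ∀ y n m, P y (n ⊗ₜ m) = ct k _ (β m) y n := fun y n m => by
    induction y with
    | zero => simp
    | tmul f y => rw [p1, ct_ap, ct_ap, map_smul]; rfl
    | add x y hx hy => simp only [map_add, LinearMap.add_apply, hx, hy]
  have pi : ∀ g x y, P.flip (tn ν a g x) (tn ν.dual b g y) = P.flip x y := fun g x y => by
    induction x with
    | zero => simp
    | add x y hx hy => simp only [map_add, LinearMap.add_apply, hx, hy]
    | tmul n m =>
      induction y with
      | zero => simp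
      | add x y hx hy => simp only [map_add, hx, hy]
      | tmul f y =>
        rw [tn_ap, tn_ap, LinearMap.flip_apply, LinearMap.flip_apply, p1, p1, ct_ap, ct_ap,
          map_smul, map_smul, AddMonoidHom.flip_apply, AddMonoidHom.flip_apply, inv]
        exact congrArg (fun z => _ • f z) (Hig.inv_ap ν g n)
  obtain ⟨n1, e1, b1, f1⟩ := frame ha.tor hb.tor β l1
  obtain ⟨n2, e2, b2, f2⟩ := frame hb.tor ha.tor β.flip l2
  have r1 := (hig_tn h ha.trv).norm_l (tn_triv (hig_dual h).triv hb.trv) P.flip pi fun x hx => by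
    rw [← ct_sep (k := k) e1 (fun i => β.flip (b1 i)) f1 x]
    refine Finset.sum_eq_zero fun i _ => ?_
    rw [(Module.forall_dual_apply_eq_zero_iff k _).1 fun f => (p1 f _ x).symm.trans
      (hx (f ⊗ₜ b1 i)),
      zero_tmul]
  have r2 := (hig_tn h ha.trv).norm_r (ρ := tn ν.dual b) P.flip pi fun y hy => by
    rw [← ct_sep (k := k) e2 (fun i => β (b2 i)) f2 y]
    refine Finset.sum_eq_zero fun i _ => ?_
    rw [show ct k _ (β (b2 i)) y = 0 from LinearMap.ext fun n => (p2 y n _).symm.trans (hy _),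
      zero_tmul]
  rw [psi_eq, psi_eq, finrank, finrank, le_antisymm r1 r2]

section

variable {S : Type} {π : G →* Equiv.Perm S} {χ : G →* (ZMod p)ˣ} {A A' : AddSubgroup (S → ZMod p)}

variable (k N A) in
/-- tensors as functions -/
def th : N ⊗[ℤ] A →ₗ[k] (S → N) :=
  LinearMap.pi fun s => ct k N ((Pi.evalAddMonoidHom (fun _ : S => ZMod p) s).comp A.subtype)

theorem th_ap (n : N) (a : A) (s : S) :
    th k N A (n ⊗ₜ a) s = ZMod.castHom (dvd_refl p) k (a.1 s) • n := rfl

theorem tA (a : A) : p • a = 0 := Subtype.ext (p_fun a.1)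

theorem th_co (l : N →+ ZMod p) (x : N ⊗[ℤ] A) : (fun s => l (th k N A x s)) = (co tA l x).1 := by
  funext s
  induction x with
  | zero => simp
  | tmul n a =>
    rw [th_ap, ← val_smul, map_nsmul, co_ap]
    show _ = (l n).val • a.1 s
    rw [nsmul_eq_mul, nsmul_eq_mul, ZMod.natCast_zmod_val, ZMod.natCast_zmod_val, mul_comm]
  | add x y hx hy => simp only [map_add, Pi.add_apply, hx, hy, AddSubgroup.coe_add]

theorem th_tn (hA : St (fa π χ) A) (g : G) (x : N ⊗[ℤ] A) (s : S) :
    th k N A (tn ν ((fa π χ).sub A hA) g x) s = tw (up χ) ν g (th k N A x (π g⁻¹ s)) := by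
  induction x with
  | zero => simp
  | tmul n a =>
    rw [tn_ap, th_ap, th_ap, map_smul]
    show ZMod.castHom _ k ((χ g : ZMod p) * a.1 (π g⁻¹ s)) • ν g n =
      _ • ZMod.castHom (dvd_refl p) k (χ g : ZMod p) • ν g n
    rw [map_mul, mul_comm, mul_smul]
  | add x y hx hy => simp only [map_add, Pi.add_apply, hx, hy]

theorem fun_eq [Finite k] [Module.Finite k N] (hA : St (fa π χ) A) (hA' : St (fa π χ) A')
    (le : A' ≤ A) (hf : Finite A) : Module.Finite k (Co k N A) ∧
    (psi ν).sq (fa π χ) A A' + finrank k (Co k N A') = finrank k (Ci ν π χ A A') := by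
  haveI : Finite N := Module.finite_of_finite k
  haveI := fin_tn (k := k) (N := N) (M := A)
  obtain ⟨n, e, l, hl⟩ := frame' (Hig.p_smul (k := k) (X := N) p)
  have tQ : ∀ m : A ⧸ A'.addSubgroupOf A, p • m = 0 := fun m =>
    QuotientAddGroup.induction_on m fun m => by rw [← QuotientAddGroup.mk_nsmul, tA]; rfl
  let q : N ⊗[ℤ] A →ₗ[k] N ⊗[ℤ] (A ⧸ A'.addSubgroupOf A) := lt k N (QuotientAddGroup.mk' _)
  have inj : Function.Injective (th k N A) := (injective_iff_map_eq_zero _).2 fun x hx => by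
    rw [← co_sep tA e l hl x]
    refine Finset.sum_eq_zero fun i _ => ?_
    rw [show co tA (l i) x = 0 from Subtype.ext (by
      rw [← th_co (k := k), hx]; exact funext fun _ => map_zero _), tmul_zero]
  have mem : ∀ x, th k N A x ∈ Co k N A := fun x l => by rw [th_co]; exact (co tA l x).2
  have sur : ∀ f ∈ Co k N A, ∃ x, th k N A x = f := fun f hf =>
    ⟨∑ i, e i ⊗ₜ (⟨_, hf (l i)⟩ : A), funext fun s => by
      rw [map_sum, Finset.sum_apply, ← hl (f s)]
      exact Finset.sum_congr rfl fun i _ => by rw [th_ap, val_smul (k := k)]⟩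
  have ker : ∀ x, q x = 0 ↔ th k N A x ∈ Co k N A' := fun x => by
    have c : ∀ l : N →+ ZMod p, co tQ l (q x) = 0 ↔ (fun s => l (th k N A x s)) ∈ A' := fun l => by
      rw [th_co, lt_eq, co_lt tA]
      exact QuotientAddGroup.eq_zero_iff _
    refine ⟨fun h l => (c l).1 (by rw [h, map_zero]), fun h => ?_⟩
    rw [← co_sep tQ e l hl (q x)]
    exact Finset.sum_eq_zero fun i _ => by rw [(c _).2 (h _), tmul_zero]
  have eqv := lt_tn (ν := ν) (a := (fa π χ).sub A hA) (a' := aq (fa π χ) hA hA')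
    (f := QuotientAddGroup.mk' _) fun _ _ => rfl
  let P := (Hig.Inv (tn ν (aq (fa π χ) hA hA'))).comap q
  have hP : ∀ x, x ∈ P ↔ th k N A x ∈ Ci ν π χ A A' := fun x => by
    refine Iff.trans (forall_congr' fun g => ?_) (and_iff_right (mem x)).symm
    rw [← eqv, ← sub_eq_zero, ← map_sub]
    refine (ker _).trans (iff_of_eq (congrArg (· ∈ Co k N A') (funext fun s => ?_)))
    rw [map_sub, Pi.sub_apply, th_tn]
  have e1 : P.map (th k N A) = Ci ν π χ A A' := by
    ext f
    refine ⟨by rintro ⟨x, hx, rfl⟩; exact (hP x).1 hx, fun hf => ?_⟩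
    obtain ⟨x, rfl⟩ := sur f hf.1
    exact ⟨x, (hP x).2 hf, rfl⟩
  have e2 : (P ⊓ LinearMap.ker q).map (th k N A) = Co k N A' := by
    ext f
    refine ⟨by rintro ⟨x, hx, rfl⟩; exact (ker x).1 hx.2, fun hf => ?_⟩
    obtain ⟨x, rfl⟩ := sur f fun l => le (hf l)
    have := (ker x).2 hf
    exact ⟨x, ⟨Submodule.mem_comap.2 (by rw [this]; exact zero_mem _), this⟩, rfl⟩
  have qs : Function.Surjective q := LinearMap.lTensor_surjective N
    (g := (QuotientAddGroup.mk' (A'.addSubgroupOf A)).toIntLinearMap) QuotientAddGroup.mk_surjective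
  have e3 : P.map q = Hig.Inv (tn ν (aq (fa π χ) hA hA')) :=
    Submodule.map_comap_eq_of_surjective qs _
  have e4 : LinearMap.range (th k N A) = Co k N A := by
    ext f
    exact ⟨by rintro ⟨x, rfl⟩; exact mem x, sur f⟩
  refine ⟨e4 ▸ inferInstance, ?_⟩
  have r := Hig.rank_split q P
  rw [← finrank_eq_rank, ← finrank_eq_rank, ← finrank_eq_rank, e3] at r
  rw [sq_eq hA hA', psi_eq, ← e1, ← e2, ← (Submodule.equivMapOfInjective _ inj _).finrank_eq,
    ← (Submodule.equivMapOfInjective _ inj _).finrank_eq, add_comm]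
  exact_mod_cast r.symm

theorem co_bot : Co k N (⊥ : AddSubgroup (S → ZMod p)) = ⊥ := by
  rw [eq_bot_iff]
  exact fun f hf => funext fun s => sep (Hig.p_smul (k := k) p) _ fun l =>
    congrFun (AddSubgroup.mem_bot.1 (hf l)) s

theorem fu_fx [Finite k] [Module.Finite k N] [U.Normal] (hf : Fo π) (hi : U.index ≠ 0)
    (h : ∀ u ∈ U, ν u = 1) (hχ : ∀ u ∈ U, χ u = 1) :
    (psi ν).fu π U χ = finrank k (Fx π (tw (up χ) ν)) := by
  obtain ⟨I, _, π', d, d1, d2, d3⟩ := ex_orb hi hf
  have f1 := (fu_eq (Ψ := fun _ _ _ => 0) (fun _ _ _ _ _ _ _ _ _ _ _ _ _ _ _ _ _ => rfl) π' d d1 d2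
    d3 hχ).2.1
  have e := (fun_eq (ν := ν) (st_fu χ) st_bot bot_le f1).2
  have e' : Ci ν π χ (Fu p π U) ⊥ = Fx π (tw (up χ) ν) := by
    ext f
    constructor
    · rintro ⟨-, b⟩ g y
      have := b g
      rw [co_bot] at this
      have := congrFun (Submodule.mem_bot k |>.1 this) (π g y)
      rw [pi_inv] at this
      exact (sub_eq_zero.1 this).symm
    · intro b
      refine ⟨fun l u hu y => congrArg l ?_, fun g => ?_⟩
      · rw [b u y]
        show ZMod.castHom (dvd_refl p) k (χ u : ZMod p) • ν u (f y) = f y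
        rw [hχ u hu, h u hu, Units.val_one, map_one, one_smul]; rfl
      · rw [co_bot]
        exact funext fun s => by rw [← b g, pi_inv', sub_self]; rfl
  rw [co_bot, finrank_bot, add_zero, e'] at e
  exact e

end

end Psi

theorem pSI : PSI := fun _ _ _ _ _ _ _ _ _ _ _ _ _ _ h => by
  obtain ⟨_, h⟩ := Psi.hig_of h
  exact ⟨Psi.add h, Psi.of_hig (Psi.hig_dual h), Psi.du h⟩

theorem fUN : FUN := fun _ _ _ _ _ _ _ _ _ _ _ _ _ _ _ _ _ _ _ _ _ hA hA' le hf _ =>
  Psi.fun_eq hA hA' le hf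

theorem fxc : FXC := fun G _ _ _ _ _ _ _ _ _ p _ _ _ U _ ν χ hf hi h hχ => by
  refine ⟨Psi.fu_fx hf hi h.1 hχ, ?_⟩
  have e : Fu p (1 : G →* Equiv.Perm Unit) U = ⊤ := eq_top_iff.2 fun _ _ _ _ _ => rfl
  rw [AF.ch, ← e]
  exact Psi.fu_fx ⟨{()}, fun _ => ⟨(), Finset.mem_singleton_self _, 1, rfl⟩⟩ hi h.1 hχ

end Vale.Agent.P022K.GW
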