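import Vale.Agent.P022K.GW.Pl

/-!
# P022K, block GW: no class of degree two is trivial at all places above `T` (row `SHA2`)
-/

set_option linter.all false

noncomputable section

namespace Vale.Agent.P022K.GW

open NumberField
open scoped Pointwise
open Vale.Agent.P022
open Vale.Agent.P027M.S (Inert)
open Vale.Agent.P022D.W (dec)
open Vale.Agent.P022E.GW (Ov Ch Cb)

/-- removal of the ramification outside a big set of primes -/
def FIXQ : Prop := ∀ (p : ℕ) [Fact p.Prime] (H : Subgroup GQ) (T : Finset ℕ) (w : GQ → ZMod p),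
  p ≠ 2 → (∀ h ∈ H, ∀ x : Qb, x ^ p = 1 → h x = x) → P022E.GW.Bg H T → p ∈ T →
  (∀ l ∈ T, l.Prime) → (∃ U : Subgroup GQ, IsOpen (U : Set GQ) ∧ ∀ σ ∈ H ⊓ U, w σ = 0) →
  (∀ l ∉ T, ∀ P : Id, Ov l P → ∀ i ∈ H, Inert P i →
    (∀ i' ∈ H, Inert P i' → w (i * i') = w i + w i') ∧ ∀ g ∈ H, w (g * i * g⁻¹) = w i) →
  ∃ b : GQ → ZMod p, Ch H b ∧ ∀ l ∉ T, ∀ P : Id, Ov l P → ∀ i ∈ H, Inert P i → b i = w i

namespace Sh2

variable {G V : Type} [Group G] [TopologicalSpace G] [IsTopologicalGroup G]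

theorem a1_lc {I : Set G} {b : G → V} (h : A1 I b) : IsLocallyConstant b := by
  obtain ⟨W, hW, h⟩ := h
  refine (IsLocallyConstant.iff_exists_open _).2 fun g => ⟨(fun x => g⁻¹ * x) ⁻¹' W,
    hW.opn.preimage (by fun_prop), by simp, fun x hx => ?_⟩
  rw [← h _ hx g, mul_inv_cancel_left]

theorem a2_lc {I : Set G} {z : G → G → V} (h : A2 I z) :
    IsLocallyConstant fun q : G × G => z q.1 q.2 := by
  obtain ⟨W, hW, h⟩ := h
  refine (IsLocallyConstant.iff_exists_open _).2 fun g =>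
    ⟨(fun x => g.1⁻¹ * x.1) ⁻¹' W ∩ (fun x => g.2⁻¹ * x.2) ⁻¹' W,
    (hW.opn.preimage (by fun_prop)).inter (hW.opn.preimage (by fun_prop)), by simp,
    fun x hx => ?_⟩
  rw [← (h _ hx.1 g.1 g.2).1, ← (h _ hx.2 _ g.2).2, mul_inv_cancel_left, mul_inv_cancel_left]

theorem core_open [CompactSpace G] {W : Subgroup G} (hW : IsOpen (W : Set G)) :
    IsOpen (W.normalCore : Set G) := by
  haveI : Finite (G ⧸ W) := W.quotient_finite_of_isOpen hW
  haveI : W.FiniteIndex := Subgroup.finiteIndex_of_finite_quotient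
  exact W.normalCore.isOpen_of_isClosed_of_finiteIndex
    (W.normalCore_isClosed (W.isClosed_of_isOpen hW))

/-- a locally constant function on a subgroup is constant on the trace of an open subgroup -/
theorem ex_open (H : Subgroup GQ) {c : H → V} (hc : IsLocallyConstant c) :
    ∃ W : Subgroup GQ, IsOpen (W : Set GQ) ∧ W.Normal ∧ ∀ g : H, g.1 ∈ W → c g = c 1 := by
  have := H443.galQb
  obtain ⟨S, hS, hsub⟩ := (mem_nhds_subtype _ _ _).1 (hc.eventually_eq 1)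
  obtain ⟨O, hO, ho, h1O⟩ := mem_nhds_iff.1 hS
  obtain ⟨W, hW⟩ := ProfiniteGrp.exist_openNormalSubgroup_sub_open_nhds_of_one ho h1O
  exact ⟨W.toSubgroup, W.isOpen', W.isNormal', fun v hv => hsub (show v.1 ∈ S from hO (hW hv))⟩

end Sh2

open Sh2

theorem sha2 (hH : HASP) (hN : UNRP) (hF : FIXQ) : SHA2 := by
  classical
  intro G _ _ _ _ ι p _ ω T Q hQ U H z hz hA hl
  have lz := a2_lc hA
  obtain ⟨W, hW, hA⟩ := hA
  let κ : GQ → G := Function.invFun ι
  have κι : ∀ g, κ (ι g) = g := Function.leftInverse_invFun H.emb.injective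
  have ικ : ∀ g ∈ U.map ι, ι (κ g) = g := by
    rintro _ ⟨u, -, rfl⟩; rw [κι]
  have κU : ∀ g ∈ U.map ι, κ g ∈ U := by
    rintro _ ⟨u, hu, rfl⟩; rwa [κι]
  have κm : ∀ g ∈ U.map ι, ∀ h ∈ U.map ι, κ (g * h) = κ g * κ h := by
    rintro _ ⟨u, -, rfl⟩ _ ⟨v, -, rfl⟩; rw [← map_mul, κι, κι, κι]
  have κc : ∀ A : Subgroup GQ, A ≤ U.map ι → Continuous fun g : A => κ g := fun A h =>
    H.emb.isInducing.continuous_iff.2 (continuous_subtype_val.congr fun g => (ικ _ (h g.2)).symm)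
  have Z : ∀ A : Subgroup GQ, A ≤ U.map ι → P022E.GW.Z2 A fun g h => z (κ g) (κ h) :=
    fun A h => ⟨lz.comp_continuous (f := fun q : A × A => (κ q.1, κ q.2))
      (((κc A h).comp continuous_fst).prodMk ((κc A h).comp continuous_snd)), fun a b c => by
        simp only [P022E.GW.rs, Subgroup.coe_mul, κm _ (h a.2) _ (h b.2), κm _ (h b.2) _ (h c.2)]
        exact hz _ (κU _ (h a.2)) _ (κU _ (h b.2)) _ (κU _ (h c.2))⟩
  have oH := Pl.map_open ι H.emb H.opn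
  have fx : ∀ h ∈ U.map ι, ∀ x : Qb, x ^ p = 1 → h x = x := by
    rintro _ ⟨u, hu, rfl⟩ x hx
    rw [H.cy u x hx, H.om u hu, Units.val_one, ZMod.val_one, pow_one]
  have iW : ∀ l ∉ T, ∀ P : Id, Ov l P → ∀ i ∈ U.map ι, Inert P i → κ i ∈ W :=
    fun l hl P hP i hi h => hW.inc _ ⟨l, P, hP, fun ⟨l', a, b⟩ => hl (Pl.ov_uniq hP b ▸ a),
      by rwa [ικ i hi]⟩
  obtain ⟨c, lc, hc⟩ := hH p (U.map ι) (fun g h => z (κ g) (κ h)) H.odd oH fx (Z _ le_rfl)
    fun l P hP => by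
      by_cases hT : l ∈ T
      · obtain ⟨e, he, h⟩ := hl ⟨P, l, hT, hP⟩
        have st : ∀ a : (U.map ι ⊓ dec P : Subgroup GQ),
            pT ι T (κ a) ⟨P, l, hT, hP⟩ = ⟨P, l, hT, hP⟩ := fun a =>
          Subtype.ext (by rw [pm_coe, ικ _ a.2.1]; exact (Pl.dec_iff _ _).1 a.2.2)
        refine ⟨fun a => e (κ a), (a1_lc he).comp_continuous (κc _ inf_le_left), fun a b => ?_⟩
        simp only [P022E.GW.rs, Subgroup.coe_mul, κm _ a.2.1 _ b.2.1]
        exact h _ (κU _ a.2.1) _ (κU _ b.2.1) (st a) (st b)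
      · refine hN p _ l P _ oH hP (Z _ inf_le_left) fun g hg h hh i hi k => ?_
        simp only [κm _ hg.1 _ hi, κm _ hh.1 _ hi]
        exact hA _ (iW l hT P hP i hi k) _ _
  have z1 : ∀ g ∈ U, ∀ w ∈ W, z g w = z 1 1 ∧ z w g = z 1 1 := fun g hg w hw => by
    have a := hz g hg 1 U.one_mem 1 U.one_mem
    have b := hz 1 U.one_mem 1 U.one_mem g hg
    have a' := (hA w hw g 1).2
    have b' := (hA w hw 1 g).1
    simp only [mul_one, one_mul] at a b a' b'
    exact ⟨by linear_combination a' - a, by linear_combination b' + b⟩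
  let w : GQ → ZMod p := fun g => if h : g ∈ U.map ι then c ⟨g, h⟩ + z 1 1 else 0
  have hw : ∀ g : U.map ι, w g = c g + z 1 1 := fun g => dif_pos g.2
  have wm : ∀ g ∈ U.map ι, ∀ h ∈ U.map ι, w (g * h) = w g + w h + z (κ g) (κ h) - z 1 1 :=
    fun g hg h hh => by
      have := hc ⟨g, hg⟩ ⟨h, hh⟩
      rw [hw ⟨g, hg⟩, hw ⟨h, hh⟩, hw ⟨g * h, mul_mem hg hh⟩]
      simp only [P022E.GW.rs] at this
      linear_combination this
  have κ1 : κ 1 = 1 := by rw [← map_one ι, κι]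
  have w1 : w 1 = 0 := by
    have := wm 1 (one_mem _) 1 (one_mem _)
    rw [mul_one, κ1] at this
    linear_combination -this
  obtain ⟨b, hb, hbw⟩ := hF p (U.map ι) T w H.odd fx H.big H.pT H.pr (by
    obtain ⟨N, oN, -, h⟩ := ex_open _ lc
    exact ⟨N, oN, fun σ hσ => by rw [hw ⟨σ, hσ.1⟩, h ⟨σ, hσ.1⟩ hσ.2, ← hw 1]; exact w1⟩)
    fun l hl P hP i hi k => ⟨fun i' hi' k' => by
      rw [wm _ hi _ hi', (z1 _ (κU _ hi) _ (iW l hl P hP i' hi' k')).1, add_sub_cancel_right],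
      fun g hg => by
        have m := mul_mem (mul_mem hg hi) (inv_mem hg)
        have a := wm _ m _ hg
        have e : κ (g * i * g⁻¹) = κ g * κ i * (κ g)⁻¹ := by
          rw [eq_mul_inv_iff_mul_eq, ← κm _ m _ hg, ← κm _ hg _ hi, inv_mul_cancel_right]
        rw [inv_mul_cancel_right, wm _ hg _ hi, (z1 _ (κU _ hg) _ (iW l hl P hP i hi k)).1, e,
          (z1 _ (κU _ hg) _ (hW.nor.conj_mem _ (iW l hl P hP i hi k) _)).2] at a
        linear_combination -a⟩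
  let f : G → ZMod p := fun g => w (ι g) - b (ι g)
  have fm : ∀ g ∈ U, ∀ h ∈ U, f (g * h) = f g + f h + z g h - z 1 1 := fun g hg h hh => by
    have a := hb.2 ⟨ι g, g, hg, rfl⟩ ⟨ι h, h, hh, rfl⟩
    simp only [f, map_mul, wm _ ⟨g, hg, rfl⟩ _ ⟨h, hh, rfl⟩, κι]
    linear_combination -a
  have f1 : f 1 = 0 := by
    have := fm 1 U.one_mem 1 U.one_mem
    rw [mul_one] at this
    linear_combination -this
  let N : Subgroup G :=
    { carrier := {g | g ∈ U ∧ g ∈ W ∧ f g = 0}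
      mul_mem' := fun {x y} hx hy => ⟨mul_mem hx.1 hy.1, mul_mem hx.2.1 hy.2.1, by
        rw [fm _ hx.1 _ hy.1, hx.2.2, hy.2.2, (z1 _ hx.1 _ hy.2.1).1]; ring⟩
      one_mem' := ⟨U.one_mem, W.one_mem, f1⟩
      inv_mem' := fun {x} hx => ⟨inv_mem hx.1, inv_mem hx.2.1, by
        have := fm _ hx.1 _ (inv_mem hx.1)
        rw [mul_inv_cancel, f1, hx.2.2, (z1 _ hx.1 _ (inv_mem hx.2.1)).1] at this
        linear_combination -this⟩ }
  have oN : IsOpen (N : Set G) := by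
    have cι : Continuous fun u : U => (⟨ι u, u, u.2, rfl⟩ : U.map ι) :=
      (H.emb.continuous.comp continuous_subtype_val).subtype_mk _
    have lf : IsLocallyConstant fun u : U => f u := by
      have := ((lc.comp (· + z 1 1)).sub hb.1).comp_continuous cι
      refine Eq.mp (congrArg _ (funext fun u => ?_)) this
      exact congrArg (· - b (ι u)) (hw ⟨ι u, u, u.2, rfl⟩).symm
    have := (H.opn.isOpenMap_subtype_val _ (lf.isOpen_fiber 0)).inter hW.opn
    refine Eq.mp (congrArg _ (Set.ext fun g => ⟨?_, ?_⟩)) this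
    · rintro ⟨⟨u, hu, rfl⟩, h⟩
      exact ⟨u.2, h, hu⟩
    · rintro ⟨a, b, c⟩
      exact ⟨⟨⟨g, a⟩, c, rfl⟩, b⟩
  have hI := (okl G ι p ω T Q hQ U H).2.2.1
  refine ⟨fun g => if g ∈ U then f g - z 1 1 else 0, ⟨N.normalCore, ⟨inferInstance, core_open oN,
    fun i hi g => ?_⟩, fun n hn g => ?_⟩, fun g hg h hh => ?_⟩
  · have hi' := Pl.in_cj ι (ov_stb ι T) g i hi
    refine ⟨hI.inc _ hi', hW.inc _ hi', sub_eq_zero.2 ?_⟩
    obtain ⟨l, P, h1, h2, h3⟩ := hi'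
    exact (hbw l (fun k => h2 ⟨l, k, h1⟩) P h1 _ ⟨_, hI.inc _ ⟨l, P, h1, h2, h3⟩, rfl⟩ h3).symm
  · have hn' := N.normalCore_le hn
    by_cases hg : g ∈ U
    · simp only [if_pos hg, if_pos (mul_mem hg hn'.1), fm _ hg _ hn'.1, hn'.2.2,
        (z1 _ hg _ hn'.2.1).1]
      ring
    · simp only [if_neg hg, if_neg fun k => hg ((U.mul_mem_cancel_right hn'.1).1 k)]
  · simp only [if_pos hg, if_pos hh, if_pos (mul_mem hg hh), fm _ hg _ hh]
    ring

end Vale.Agent.P022K.GW
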