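import Vale.Agent.P022K.GW.Gcl
import Vale.Agent.P022K.GW.Sha2
import Vale.Agent.P022E.GW.Fix

/-!
# P022K, block GW: tame ramification of Kummer characters (rows `KUM2`, `FIXQ`)
-/

set_option linter.all false

noncomputable section

namespace Vale.Agent.P022K.GW

open NumberField IsDedekindDomain
open scoped Pointwise
open Vale.Agent.P022 Vale.Agent.P022.C Vale.Agent.P022.H916 Vale.Agent.P022.H443
open Vale.Agent.P022E.GW (Ov Ch)
open Vale.Agent.P011.ArP (Mu Pw)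
open Vale.Agent.P027M.S (Inert)
open Vale.Agent.P027M.S.Cls (ordv_mul ordv_zpow ordv_pow val_eq ordv_of)
open Vale.Agent.P022E.GW.Kc (stab_open nat_mem ex_above ex_below prime_mem not_ov)

namespace Tam

variable {p : ℕ} [Fact p.Prime]

/-- a root of unity of order `p` which is congruent to one -/
theorem root_one {P : Id} (hp : (p : 𝓞 Qb) ∉ P) {x : 𝓞 Qb} (hx : x ^ p = 1) (h : x - 1 ∈ P) :
    x = 1 := by
  by_contra ne
  have e : ∑ i ∈ Finset.range p, x ^ i = 0 := by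
    have := geom_sum_mul x p
    rw [hx, sub_self] at this
    exact (mul_eq_zero.1 this).resolve_right (sub_ne_zero.2 ne)
  have k : ∑ i ∈ Finset.range p, (x ^ i - 1) ∈ P := P.sum_mem fun i _ => by
    obtain ⟨c, hc⟩ := sub_one_dvd_pow_sub_one x i
    rw [hc]
    exact P.mul_mem_right _ h
  rw [Finset.sum_sub_distrib, e, zero_sub, neg_mem_iff] at k
  exact hp (by simpa using k)

/-- the roots of units are fixed by inertia -/
theorem unit {P : Id} (hP : P.IsPrime) (hp : (p : 𝓞 Qb) ∉ P) {c : 𝓞 Qb} (hc : c ∉ P) {β x : Qb}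
    (hβ : β ^ p = c) (hx : x ^ p = 1) {g : GQ} (hg : Inert P g) (e : g β = x * β) : x = 1 := by
  have p0 := (Fact.out : p.Prime).pos
  obtain ⟨B, rfl⟩ : ∃ B : 𝓞 Qb, (B : Qb) = β :=
    ⟨⟨β, IsIntegral.of_pow p0 (by rw [hβ]; exact c.2)⟩, rfl⟩
  obtain ⟨X, rfl⟩ : ∃ X : 𝓞 Qb, (X : Qb) = x :=
    ⟨⟨x, IsIntegral.of_pow p0 (by rw [hx]; exact isIntegral_one)⟩, rfl⟩
  have e1 : B ^ p = c := RingOfIntegers.ext hβ
  have e2 : g • B = X * B := RingOfIntegers.ext e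
  have e3 := hg B
  rw [e2, show X * B - B = (X - 1) * B by ring] at e3
  have := root_one hp (x := X) (RingOfIntegers.ext hx)
    ((hP.mem_or_mem e3).resolve_right fun k => hc (e1 ▸ P.pow_mem_of_mem k p p0))
  rw [this]
  rfl

variable {L : Type} [Field L] [NumberField L] {M : Mu p L} {j : L →+* Qb} {P : Id}
  {w : HeightOneSpectrum (𝓞 L)}

theorem km_pw {b : Lˣ} {f : GQ → ZMod p} (h : Km M j b f) (z : Lˣ) : Km M j (b * z ^ p) f := by
  obtain ⟨β, h1, h2⟩ := h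
  refine ⟨β * j z, by rw [mul_pow, h1, Units.val_mul, map_mul, Units.val_pow_eq_pow_val, map_pow],
    fun g hg => ?_⟩
  rw [map_mul, h2 g hg, hg, mul_assoc]

theorem km_pow {b : Lˣ} {f : GQ → ZMod p} (h : Km M j b f) (n : ℕ) :
    Km M j (b ^ n) fun g => n * f g := by
  induction n with
  | zero => exact ⟨1, by simp, fun g _ => by simp⟩
  | succ n ih =>
    rw [pow_succ]
    exact Kum.congr (Kum.mul ih h) fun g _ => by rw [Pi.add_apply]; push_cast; ring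

theorem ex_unif (w : HeightOneSpectrum (𝓞 L)) : ∃ π : Lˣ, ordv w (π : L) = 1 := by
  obtain ⟨π, hπ⟩ := w.valuation_exists_uniformizer L
  have π0 : π ≠ 0 := by
    rintro rfl
    rw [map_zero] at hπ
    exact WithZero.exp_ne_zero hπ.symm
  exact ⟨Units.mk0 π π0, ordv_of hπ⟩

/-- order divisible by `p`: unramified -/
theorem unr (hP : P.IsPrime) (hp : (p : 𝓞 Qb) ∉ P) (hw : below j P = w.asIdeal) {b : Lˣ}
    {f : GQ → ZMod p} (h : Km M j b f) (hd : (p : ℤ) ∣ ordv w (b : L)) {g : GQ} (hg : g ∈ GK j)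
    (hi : Inert P g) : f g = 0 := by
  obtain ⟨k, hk⟩ := hd
  obtain ⟨π, hπ⟩ := ex_unif w
  have y1 : w.valuation L (b * (π ^ (-k)) ^ p : Lˣ) = 1 := by
    rw [val_eq w (Units.ne_zero _), Units.val_mul, Units.val_pow_eq_pow_val,
      ordv_mul w b.ne_zero (pow_ne_zero _ (Units.ne_zero _)), ordv_pow w (Units.ne_zero _),
      Units.val_zpow_eq_zpow_val, ordv_zpow w π.ne_zero, hπ, hk]
    simp
  obtain ⟨n, d, hn⟩ := w.exists_primeCompl_mul_eq_of_integer _ y1.le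
  have dv : w.valuation L (algebraMap (𝓞 L) L d) = 1 := by
    rw [HeightOneSpectrum.valuation_of_algebraMap]
    exact (HeightOneSpectrum.intValuation_eq_one_iff).2 d.2
  have nv : n ∉ w.asIdeal := by
    have := congrArg (w.valuation L) hn
    rw [map_mul, y1, dv, one_mul, HeightOneSpectrum.valuation_of_algebraMap] at this
    exact (HeightOneSpectrum.intValuation_eq_one_iff).1 this.symm
  have d0 : algebraMap (𝓞 L) L d ≠ 0 := by
    intro e
    rw [e] at dv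
    simp at dv
  have hc : RingOfIntegers.mapRingHom j (n * d ^ (p - 1)) ∉ P := fun e => by
    have : n * (d : 𝓞 L) ^ (p - 1) ∈ w.asIdeal := hw.le e
    rcases w.isPrime.mem_or_mem this with a | a
    · exact nv a
    · exact d.2 (w.isPrime.mem_of_pow_mem _ a)
  obtain ⟨β, h1, h2⟩ := km_pw (km_pw h (π ^ (-k))) (Units.mk0 _ d0)
  have z := (Kum.prim M j).pow_eq_one
  refine Kum.pw_inj (Kum.prim M j) ((unit hP hp hc (h1.trans ?_) ?_ hi (h2 g hg)).trans ?_)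
  · change _ = j (algebraMap (𝓞 L) L (n * d ^ (p - 1)))
    rw [map_mul (algebraMap (𝓞 L) L), ← hn, map_pow (algebraMap (𝓞 L) L), mul_assoc (_ : L),
      ← pow_succ', Nat.sub_add_cancel (Fact.out : p.Prime).pos]
    rfl
  · rw [← pow_mul, mul_comm, pow_mul, z, one_pow]
  · simp

/-- unramified: order divisible by `p` -/
theorem dvd (hP : P.IsPrime) (hw : below j P = w.asIdeal) {b : Lˣ} {f : GQ → ZMod p}
    (h : Km M j b f) (h0 : ∀ g ∈ GK j, Inert P g → f g = 0) : (p : ℤ) ∣ ordv w (b : L) := by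
  obtain ⟨β, h1, h2⟩ := h
  have hnm : ∀ g ∈ GK j, ∀ u ∈ GK j ⊓ MulAction.stabilizer GQ β,
      g * u * g⁻¹ ∈ GK j ⊓ MulAction.stabilizer GQ β := by
    intro g hg u hu
    refine ⟨(GK j).mul_mem ((GK j).mul_mem hg hu.1) ((GK j).inv_mem hg), ?_⟩
    have u1 : u β = β := hu.2
    have u2 : u (g⁻¹ β) = g⁻¹ β := by
      rw [h2 _ ((GK j).inv_mem hg), map_mul, map_pow, hu.1, u1]
    show (g * u * g⁻¹) β = β
    rw [AlgEquiv.mul_apply, AlgEquiv.mul_apply, u2, ← AlgEquiv.mul_apply, mul_inv_cancel]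
    rfl
  obtain ⟨K, _, _, _, _, jK, ρ, D, hK, hker⟩ := exists_fld j (GK j ⊓ MulAction.stabilizer GQ β)
    ((isOpen_GK j).inter (stab_open β)) inf_le_left hnm
  obtain ⟨b', hb'⟩ : ∃ b', jK b' = β := fixed jK fun g =>
    (show (g : GQ) ∈ GK j ⊓ MulAction.stabilizer GQ β from hK ▸ g.2).2
  have hne : below jK P ≠ ⊥ := fun h0 => w.ne_bot (by
    rw [← hw, ← D.below_comap P, h0]
    exact Ideal.comap_bot_of_injective _ (FaithfulSMul.algebraMap_injective _ _))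
  let v' : HeightOneSpectrum (𝓞 K) := ⟨below jK P, Ideal.IsPrime.comap _, hne⟩
  have hin : ∀ g : GK j, (∀ x : 𝓞 Qb, (g : GQ) • x - x ∈ P) → ρ g = 1 := fun g hg =>
    (hker g).2 ⟨g.2, show (g : GQ) β = β by rw [h2 g g.2, h0 g g.2 hg]; simp⟩
  have key := H269.UNRV L K w v' ((D.below_comap P).trans hw)
    (fun g hg => D.inertia_eq_bot hP hin hg) b
  have b0 : b' ≠ 0 := by
    rintro rfl
    exact Kum.root_ne h1 (by rw [← hb', map_zero])
  have e : algebraMap L K b = b' ^ p := jK.injective (by rw [map_pow, hb', h1, D.comp])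
  rw [e, ordv_pow v' b0] at key
  exact ⟨_, key.symm⟩

/-- **the tame characters form a line** -/
theorem two (hP : P.IsPrime) (hp : (p : 𝓞 Qb) ∉ P) (hw : below j P = w.asIdeal) {b b' : Lˣ}
    {f f' : GQ → ZMod p} (h : Km M j b f) (h' : Km M j b' f') {g : GQ} (hg : g ∈ GK j)
    (hi : Inert P g) : (ordv w (b' : L) : ZMod p) * f g = (ordv w (b : L) : ZMod p) * f' g := by
  have := unr hP hp hw (Kum.mul (km_pow h (ordv w (b' : L) : ZMod p).val)
    (km_pow h' (-(ordv w (b : L) : ZMod p)).val)) (by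
      rw [← ZMod.intCast_zmod_eq_zero_iff_dvd, Units.val_mul, Units.val_pow_eq_pow_val,
        Units.val_pow_eq_pow_val, ordv_mul w (pow_ne_zero _ b.ne_zero) (pow_ne_zero _ b'.ne_zero),
        ordv_pow w b.ne_zero, ordv_pow w b'.ne_zero]
      push_cast
      rw [ZMod.natCast_zmod_val, ZMod.natCast_zmod_val]
      ring) hg hi
  rw [Pi.add_apply, ZMod.natCast_zmod_val, ZMod.natCast_zmod_val] at this
  linear_combination this

theorem ex_tau (hP : P.IsPrime) (hw : below j P = w.asIdeal) {π : Lˣ} {f : GQ → ZMod p}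
    (h : Km M j π f) (hπ : ordv w (π : L) = 1) : ∃ τ ∈ GK j, Inert P τ ∧ f τ = 1 := by
  obtain ⟨i, a, b, c⟩ : ∃ i ∈ GK j, Inert P i ∧ f i ≠ 0 := by
    by_contra c
    push Not at c
    have := dvd hP hw h c
    rw [hπ] at this
    exact (Fact.out : p.Prime).one_lt.ne' (by exact_mod_cast Int.eq_one_of_dvd_one (by simp) this)
  refine ⟨i ^ (f i)⁻¹.val, (GK j).pow_mem a _, (inP P).pow_mem b _, ?_⟩
  rw [Kum.ch_pow (fun g hg g' hg' => (Kum.ch h).2 ⟨g, hg⟩ ⟨g', hg'⟩) a, ZMod.natCast_zmod_val,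
    inv_mul_cancel₀ c]

theorem p_not {l : ℕ} (h : Ov l P) (hl : l ≠ p) : (p : 𝓞 Qb) ∉ P := fun k =>
  hl (Pl.ov_uniq h ⟨Fact.out, h.2.1, k⟩)

omit M in
/-- the root of unity of a field whose group fixes the roots of unity -/
theorem ex_mu (hp : p ≠ 2) {ζ : Qb} (hζ : IsPrimitiveRoot ζ p) (h : ∀ g ∈ GK j, g ζ = ζ) :
    ∃ M : Mu p L, j M.ζ = ζ := by
  obtain ⟨y, rfl⟩ := fixed j (x := ζ) fun g => h g g.2
  exact ⟨⟨y, hζ.of_map_of_injective j.injective, Fact.out, hp⟩, rfl⟩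

/-- a character of the inertia group is a multiple of the character of a uniformiser -/
theorem line {l : ℕ} (hP : Ov l P) (hl : l ≠ p) (hw : below j P = w.asIdeal) {π : Lˣ}
    {f : GQ → ZMod p} (h : Km M j π f) (hπ : ordv w (π : L) = 1) {φ : GQ → ZMod p}
    (hφ : Ch (GK j ⊓ inP P) φ) : ∃ c : ZMod p, ∀ g ∈ GK j, Inert P g → φ g = c * f g := by
  obtain ⟨τ, t1, t2, t3⟩ := ex_tau hP.2.1 hw h hπ
  obtain ⟨β, b0, hβ⟩ := Kum.surj' (Δ := GK j ⊓ inP P) (Kum.prim M j) (fun g hg => hg.1 M.ζ)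
    ((isClosed_GK j).inter (isClosed_inP P)) hφ
  obtain ⟨K, _, _, k, hk⟩ := P022E.GW.Hy.ex_fld (U := GK j ⊓ MulAction.stabilizer GQ (β ^ p))
    ((isOpen_GK j).inter (stab_open _))
  have m1 : ∀ g ∈ GK k, g ∈ GK j ⊓ MulAction.stabilizer GQ (β ^ p) := fun g hg => hk ▸ hg
  have m2 : ∀ g ∈ GK j, Inert P g → g ∈ GK k := fun g a b => hk ▸ ⟨a, show g (β ^ p) = β ^ p by
    rw [map_pow, hβ g ⟨a, b⟩, mul_pow, ← pow_mul, mul_comm _ p, pow_mul,
      (Kum.prim M j).pow_eq_one, one_pow, one_mul]⟩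
  obtain ⟨N, hN⟩ := ex_mu (j := k) M.odd (Kum.prim M j) fun g hg => (m1 g hg).1 _
  obtain ⟨y, hy⟩ := fixed k (x := β ^ p) fun g => (m1 g g.2).2
  obtain ⟨x, hx⟩ := fixed k (x := j π) fun g => (m1 g g.2).1 _
  have y0 : y ≠ 0 := (map_ne_zero k).1 (hy ▸ pow_ne_zero _ b0)
  have x0 : x ≠ 0 := (map_ne_zero k).1 (hx ▸ (map_ne_zero j).2 π.ne_zero)
  obtain ⟨f', hf'⟩ := Kum.ex N k (Units.mk0 y y0)
  have hf : Km N k (Units.mk0 x x0) f := by
    obtain ⟨γ, c1, c2⟩ := h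
    exact ⟨γ, c1.trans hx.symm, fun g hg => by rw [hN, c2 g (m1 g hg).1]⟩
  obtain ⟨v, hv, -⟩ := ex_below k hP.1.ne_zero hP.2.1 hP.2.2
  have e : ∀ g ∈ GK j, Inert P g → φ g = f' g := fun g a b =>
    Kum.pw_inj (Kum.prim M j) (mul_right_cancel₀ b0 (by
      rw [← hβ g ⟨a, b⟩, ← hN]
      exact Kum.law hf' hy.symm (m2 g a b)))
  have q := fun g a b => two hP.2.1 (p_not hP hl) hv hf' hf (m2 g a b) b
  have o : (ordv v x : ZMod p) ≠ 0 := fun c => by
    have := unr hP.2.1 (p_not hP hl) hv hf ((ZMod.intCast_zmod_eq_zero_iff_dvd _ _).1 c)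
      (m2 τ t1 t2) t2
    rw [t3] at this
    exact one_ne_zero this
  refine ⟨(ordv v x : ZMod p)⁻¹ * (ordv v y : ZMod p), fun g a b => ?_⟩
  rw [e g a b, mul_assoc, eq_inv_mul_iff_mul_eq₀ o]
  exact q g a b

end Tam

open Tam

theorem kum2 : KUM2 := by
  intro p _ L _ _ M j l P w hP hl hw
  obtain ⟨π, hπ⟩ := ex_unif w
  obtain ⟨f', hf'⟩ := Kum.ex M j π
  obtain ⟨τ, t1, t2, t3⟩ := ex_tau hP.2.1 hw hf' hπ
  refine ⟨τ, t1, t2, fun b f h => ?_⟩
  have q := fun g a b => two (g := g) hP.2.1 (p_not hP hl) hw h hf' a b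
  simp only [hπ, Int.cast_one, one_mul] at q
  have e := q τ t1 t2
  rw [t3, mul_one] at e
  exact ⟨e, fun c i a b => by rw [q i a b, ← e, c, zero_mul]⟩

theorem fixq : FIXQ := by
  classical
  rintro p _ H T w h2 hμ ⟨L, _, _, j, rfl, hB⟩ hp hT ⟨U, hU, hU0⟩ hw
  have p0 := (Fact.out : p.Prime)
  haveI : NeZero (p : Qb) := ⟨Nat.cast_ne_zero.2 p0.ne_zero⟩
  obtain ⟨ζ, hζ⟩ := HasEnoughRootsOfUnity.exists_primitiveRoot Qb p
  obtain ⟨M, -⟩ := ex_mu (j := j) h2 hζ fun g hg => hμ g hg ζ hζ.pow_eq_one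
  obtain ⟨n, n0, hn⟩ := P022E.GW.Fx2.fin_ram U hU
  have fin : {v : Gcl.PL L | (n : 𝓞 L) ∈ v.asIdeal ∧ v ∉ P022D.Sel.ov L T}.Finite :=
    (Ideal.finite_factors (I := Ideal.span {(n : 𝓞 L)}) (by simpa using n0)).subset fun v hv =>
      Ideal.dvd_span_singleton.2 hv.1
  choose Pv p1 p2 using ex_above j
  have hB' : ∀ v : Gcl.PL L, ∃ π : Lˣ, v ∉ P022D.Sel.ov L T → ordv v (π : L) = 1 ∧
      ∀ v' ∉ P022D.Sel.ov L T, v' ≠ v → ordv v' (π : L) = 0 := fun v => by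
    by_cases hv : v ∈ P022D.Sel.ov L T
    · exact ⟨1, fun c => absurd hv c⟩
    · obtain ⟨y, y0, h⟩ := hB v hv
      exact ⟨Units.mk0 y y0, fun _ => h⟩
  choose π o using hB'
  choose f hf using fun v => Kum.ex M j (π v)
  have k : ∀ v : Gcl.PL L, v ∉ P022D.Sel.ov L T → ∃ c : ZMod p, ∀ g ∈ GK j, Inert (Pv v) g →
      w g = c * f v g := fun v hv => by
    obtain ⟨l, hl, m⟩ := prime_mem v
    have lT : l ∉ T := fun k => hv ⟨l, k, hl.ne_zero, m⟩
    have hO : Ov l (Pv v) := ⟨hl, p1 v, (nat_mem j (p2 v) l).1 m⟩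
    exact line hO (fun e => lT (e ▸ hp)) (p2 v) (hf v) (o v hv).1 (Gcl.ch_open
      (fun a p b q => (hw l lT _ hO a p.1 p.2).1 b q.1 q.2) hU fun g a b => hU0 g ⟨b.1, a⟩)
  choose! c hc using k
  have ad := fun v g hg g' hg' => (Kum.ch (hf v)).2 ⟨g, hg⟩ ⟨g', hg'⟩
  refine ⟨fun g => ∑ v ∈ fin.toFinset, c v * f v g, ?_, ?_⟩
  · have e : (fun x : GK j => ∑ v ∈ fin.toFinset, c v * f v x) =
        ∑ v ∈ fin.toFinset, c v • fun x : GK j => f v x := by
      funext x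
      simp [Finset.sum_apply]
    show _ ∈ P022D.L2c.Hm (ZMod p) (GK j)
    rw [e]
    exact Submodule.sum_mem _ fun v _ => Submodule.smul_mem _ _ (Kum.ch (hf v))
  · intro l lT P hO i hi hI
    obtain ⟨v, hv, m⟩ := ex_below j hO.1.ne_zero hO.2.1 hO.2.2
    have ov := not_ov (fun l h => Or.inr (hT l h)) hO.1 lT m
    have z : ∀ v' ∈ fin.toFinset, v' ≠ v → c v' * f v' i = 0 := fun v' a b => by
      have a' := (fin.mem_toFinset.1 a).2
      rw [unr hO.2.1 (p_not hO fun e => lT (e ▸ hp)) hv (hf v')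
        (by rw [(o v' a').2 v ov b.symm]; exact dvd_zero _) hi hI, mul_zero]
    by_cases hS : v ∈ fin.toFinset
    · show ∑ v ∈ fin.toFinset, _ = _
      rw [Finset.sum_eq_single_of_mem v hS z]
      obtain ⟨g, rfl⟩ := exists_smul j (p1 v) hO.2.1 ((p2 v).trans hv.symm)
      have g1 := (GK j).inv_mem g.2
      have e1 := (hw l lT _ hO i hi hI).2 _ g1
      rw [inv_inv] at e1
      have e2 : f v ((g : GQ)⁻¹ * i * g) = f v i := by
        have a := ad v _ ((GK j).mul_mem g1 hi) _ g.2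
        have b := ad v _ g1 _ hi
        have d := Kum.ch_inv (ad v) g.2
        simp only [Subgroup.coe_mul] at a b
        rw [a, b, d]
        ring
      rw [← e1, hc v ov _ ((GK j).mul_mem ((GK j).mul_mem g1 hi) g.2)
        (P022E.GW.Fx2.inert_conj hI), e2]
    · show ∑ v ∈ fin.toFinset, _ = _
      rw [Finset.sum_eq_zero fun v' a => z v' a fun e => hS (e ▸ a)]
      refine (hU0 i ⟨hi, hn P hO.2.1 (fun e => hS (fin.mem_toFinset.2 ⟨?_, ov⟩)) i hI⟩).symm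
      exact (nat_mem j hv n).2 e

end Vale.Agent.P022K.GW
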