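import Vale.Agent.P022K.GW.Two
import Vale.Agent.P022K.GW.Lcl
import Vale.Agent.P022K.GW.Rec
import Vale.Agent.P022K.GW.Prj
import Vale.Agent.P022K.GW.Psi
import Vale.Agent.P022K.GW.H2
import Vale.Agent.P022K.GW.Has
import Vale.Agent.P022K.GW.Inf
import Vale.Agent.P022K.GW.Unr
import Vale.Agent.P022K.GW.Sha2
import Vale.Agent.P022K.GW.Tam

/-!
# P022K, block GW: the outputs without hypotheses
-/

namespace Vale.Agent.P022K.GW

theorem gcl' : GCL := gcl fld kum2 okl

theorem lcl' : LCL := lcl fld kum2 okl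

theorem eul' : EUL := eul gcl' lcl' inf

theorem reci' : RECI := reci gcl' (tam kum3) sha1 okl inf

theorem sha2' : SHA2 := sha2 hasp unrp fixq

theorem z1c' : Z1C := z1c fUN fxc

theorem prj1' : PRJ1 := prj1 pSI fUN fxc z1c'

theorem prj2' : PRJ2 := prj2 pSI fxc z1c' (h2u fUN) (h2l fUN)

/-- **auxiliary primes** -/
theorem two' : TWO := two eul' reci' prj1'

/-- **the bound for the obstructions** -/
theorem obo' : OBO := obo eul' sha2' prj2'

end Vale.Agent.P022K.GW
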