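import Vale.Agent.P022K.GW.Abs

/-!
# P022K, block GW: corestriction of framed cochains, the lemma of Shapiro
-/

set_option linter.all false

noncomputable section

namespace Vale.Agent.P022K.GW

open Module

section

variable {G : Type} [Group G] [TopologicalSpace G] [IsTopologicalGroup G]

theorem Ad.mono {I I' : Set G} {W : Subgroup G} (h : Ad I W) (hI : I' ⊆ I) : Ad I' W :=
  ⟨h.nor, h.opn, fun i hi => h.inc i (hI hi)⟩

theorem Ad.emp {I : Set G} {W : Subgroup G} (h : Ad I W) : Ad (∅ : Set G) W :=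
  h.mono (Set.empty_subset _)

theorem Ad.cj {I : Set G} {W : Subgroup G} (h : Ad I W) {w : G} (hw : w ∈ W) (g : G) :
    g⁻¹ * w * g ∈ W := by
  simpa using h.nor.conj_mem w hw g⁻¹

theorem Ad.res {I : Set G} {W : Subgroup G} (h : Ad I W) (B : Subgroup G) :
    Ad (B.subtype ⁻¹' I) (W.subgroupOf B) :=
  ⟨by have := h.nor; infer_instance, h.opn.preimage continuous_subtype_val,
    fun i hi => h.inc i hi⟩

theorem Ad.res0 {W : Subgroup G} (h : Ad (∅ : Set G) W) (B : Subgroup G) :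
    Ad (∅ : Set B) (W.subgroupOf B) := h.res B

/-- the normal core of an open subgroup which contains `I` -/
theorem ad_core [CompactSpace G] {I : Set G} (hI : ∀ g, ∀ i ∈ I, g * i * g⁻¹ ∈ I)
    {W : Subgroup G} (hW : IsOpen (W : Set G)) (h : ∀ i ∈ I, i ∈ W) : Ad I W.normalCore := by
  have := W.quotient_finite_of_isOpen hW
  have : W.FiniteIndex := Subgroup.finiteIndex_of_finite_quotient
  exact ⟨inferInstance, Subgroup.isOpen_of_isClosed_of_finiteIndex _
    (W.normalCore_isClosed (W.isClosed_of_isOpen hW)), fun i hi g => h _ (hI g i hi)⟩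

/-- an admissible subgroup of `G` inside an admissible subgroup of `B` -/
theorem ad_up [CompactSpace G] {I : Set G} (hI : ∀ g, ∀ i ∈ I, g * i * g⁻¹ ∈ I) {B : Subgroup G}
    (hB : IsOpen (B : Set G)) (h : ∀ i ∈ I, i ∈ B) {W : Subgroup B}
    (hW : Ad (B.subtype ⁻¹' I) W) : ∃ W' : Subgroup G, Ad I W' ∧
      ∀ w ∈ W', ∀ g : G, ∃ hm : g⁻¹ * w * g ∈ B, (⟨_, hm⟩ : B) ∈ W := by
  have ho : IsOpen ((W.map B.subtype : Subgroup G) : Set G) :=
    hB.isOpenMap_subtype_val _ hW.opn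
  have k := ad_core hI ho fun i hi => ⟨⟨i, h i hi⟩, hW.inc _ hi, rfl⟩
  refine ⟨_, k, fun w hw g => ?_⟩
  obtain ⟨b, hb, e⟩ := (W.map B.subtype).normalCore_le (k.cj hw g)
  refine ⟨e ▸ b.2, ?_⟩
  have : (⟨g⁻¹ * w * g, e ▸ b.2⟩ : B) = b := Subtype.ext e.symm
  rwa [this]

theorem fin_quo [CompactSpace G] {B : Subgroup G} (hB : IsOpen (B : Set G)) : Finite (G ⧸ B) :=
  B.quotient_finite_of_isOpen hB

theorem cpt_sub [CompactSpace G] {B : Subgroup G} (hB : IsOpen (B : Set G)) : CompactSpace B :=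
  isCompact_iff_compactSpace.1 (B.isClosed_of_isOpen hB).isCompact

end

section

variable {G k V X : Type} [Group G] [Field k] [AddCommGroup V] [Module k V]

theorem ap_mul (σ : Representation k G V) (g h : G) (v : V) : σ (g * h) v = σ g (σ h v) := by
  rw [map_mul]; rfl

theorem ap_one (σ : Representation k G V) (v : V) : σ 1 v = v := by
  rw [map_one]; rfl

theorem pi_mul (π : G →* Equiv.Perm X) (g h : G) (x : X) : π (g * h) x = π g (π h x) := by
  rw [map_mul]; rfl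

theorem pi_one (π : G →* Equiv.Perm X) (x : X) : π 1 x = x := by
  rw [map_one]; rfl

theorem pi_inv (π : G →* Equiv.Perm X) (g : G) (x : X) : π g⁻¹ (π g x) = x := by
  rw [← pi_mul, inv_mul_cancel, pi_one]

theorem pi_inv' (π : G →* Equiv.Perm X) (g : G) (x : X) : π g (π g⁻¹ x) = x := by
  rw [← pi_mul, mul_inv_cancel, pi_one]

theorem ap_inv (σ : Representation k G V) (g : G) (v : V) : σ g⁻¹ (σ g v) = v := by
  rw [← ap_mul, inv_mul_cancel, ap_one]

theorem ap_inv' (σ : Representation k G V) (g : G) (v : V) : σ g (σ g⁻¹ v) = v := by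
  rw [← ap_mul, mul_inv_cancel, ap_one]

theorem be_mem (B : Subgroup G) (g : G) (y : G ⧸ B) : (g • y).out⁻¹ * g * y.out ∈ B := by
  rw [mul_assoc, ← QuotientGroup.eq, QuotientGroup.out_eq']
  exact (MulAction.Quotient.mk_smul_out B g y).symm

/-- the transfer cocycle -/
def be (B : Subgroup G) (g : G) (y : G ⧸ B) : B := ⟨(g • y).out⁻¹ * g * y.out, be_mem B g y⟩

theorem be_coe (B : Subgroup G) (g : G) (y : G ⧸ B) :
    (be B g y : G) = (g • y).out⁻¹ * g * y.out := rfl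

theorem be_mul (B : Subgroup G) (g h : G) (y : G ⧸ B) :
    be B (g * h) y = be B g (h • y) * be B h y :=
  Subtype.ext (by simp only [be_coe, Subgroup.coe_mul, mul_smul]; group)

theorem out_be (B : Subgroup G) (g : G) (y : G ⧸ B) :
    (g • y).out * be B g y = g * y.out := by rw [be_coe]; group

theorem fix_quo {B : Subgroup G} {w : G} (hw : ∀ g : G, g⁻¹ * w * g ∈ B) (y : G ⧸ B) :
    w • y = y := by
  rw [← QuotientGroup.out_eq' y, MulAction.Quotient.smul_mk, QuotientGroup.eq, smul_eq_mul]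
  have := B.inv_mem (hw y.out)
  rwa [show (y.out⁻¹ * w * y.out)⁻¹ = (w * y.out)⁻¹ * y.out by group] at this

theorem be_w {B : Subgroup G} {w : G} (hw : ∀ g : G, g⁻¹ * w * g ∈ B) (g : G) (y : G ⧸ B) :
    be B (g * w) y = be B g y * ⟨y.out⁻¹ * w * y.out, hw _⟩ := by
  rw [be_mul, fix_quo hw]
  congr 1
  exact Subtype.ext (by rw [be_coe, fix_quo hw])

variable (π : G →* Equiv.Perm X) (σ : Representation k G V) (B : Subgroup G) [Fintype (G ⧸ B)]

/-- corestriction of local cochains -/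
def cor (e : B → X → V) : G → X → V := fun g x =>
  ∑ y : G ⧸ B, σ (g • y).out (e (be B g y) (π (g • y).out⁻¹ x))

theorem sum_sh (g : G) (f : G ⧸ B → V) : ∑ y : G ⧸ B, f (g • y) = ∑ y, f y :=
  Equiv.sum_comp (MulAction.toPerm g) f

variable {π σ B}

/-- the corestriction of a cocycle is a cocycle -/
theorem cor_coc {e : B → X → V}
    (he : ∀ g h x, e (g * h) x = e g x + σ g (e h (π (g⁻¹ : B) x))) (g h : G) (x : X) :
    cor π σ B e (g * h) x = cor π σ B e g x + σ g (cor π σ B e h (π g⁻¹ x)) := by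
  unfold cor
  rw [map_sum, ← sum_sh B h fun y => σ (g • y).out (e (be B g y) (π (g • y).out⁻¹ x)),
    ← Finset.sum_add_distrib]
  refine Finset.sum_congr rfl fun y _ => ?_
  rw [be_mul, he, map_add, mul_smul, ← ap_mul, out_be, ap_mul, ← pi_mul, ← pi_mul]
  congr 5
  rw [Subgroup.coe_inv, be_coe]; group

/-- the value on an element of the core -/
theorem cor_core (e : B → X → V) {w : G} (hw : ∀ g : G, g⁻¹ * w * g ∈ B) (x : X) :
    cor π σ B e w x = ∑ y : G ⧸ B, σ y.out (e ⟨y.out⁻¹ * w * y.out, hw _⟩ (π y.out⁻¹ x)) := by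
  refine Finset.sum_congr rfl fun y _ => ?_
  have : be B w y = ⟨y.out⁻¹ * w * y.out, hw _⟩ := Subtype.ext (by rw [be_coe, fix_quo hw])
  rw [this, fix_quo hw]

theorem tr_sh {ε : V →ₗ[k] V} (hε : ∀ b ∈ B, σ b * ε = ε * σ b) (g : G) (y : G ⧸ B) (v : V) :
    σ (g • y).out (ε (σ (g • y).out⁻¹ (σ g v))) = σ g (σ y.out (ε (σ y.out⁻¹ v))) := by
  have h := LinearMap.congr_fun (hε _ (be B g y).2) (σ y.out⁻¹ v)
  simp only [Module.End.mul_apply] at h
  rw [← ap_mul σ g, ← out_be, ap_mul, h, ← ap_mul σ (be B g y : G), ← ap_mul σ _ g, be_coe]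
  congr 3
  group

variable [TopologicalSpace G] [IsTopologicalGroup G] [CompactSpace G] {I : Set G}

theorem cor_S1 (hB : IsOpen (B : Set G)) {e : B → X → V} (he : S1 (π.comp B.subtype) e) :
    S1 π (cor π σ B e) := by
  obtain ⟨W, hW, h⟩ := he
  obtain ⟨W', hW', k⟩ := ad_up (I := ∅) (fun _ _ h => h.elim) hB (fun _ h => h.elim) hW
  refine ⟨W', hW', fun w hw g x => ⟨?_, ?_⟩⟩
  · have hw' : ∀ g : G, g⁻¹ * w * g ∈ B := fun g => (k w hw g).1
    refine Finset.sum_congr rfl fun y _ => ?_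
    rw [be_w hw', mul_smul, fix_quo hw', (h _ (k w hw y.out).2 _ _).1]
  · refine Finset.sum_congr rfl fun y _ => ?_
    have e1 := (h _ (k w hw (g • y).out).2 (be B g y) (π (g • y).out⁻¹ x)).2
    rw [← e1]
    congr 2
    show _ = π ((g • y).out⁻¹ * w * (g • y).out) _
    rw [← pi_mul, ← pi_mul]
    congr 2
    group

/-- the corestriction of a smooth cocycle -/
theorem cor_Z2 (hB : IsOpen (B : Set G)) {e : B → X → V} (h1 : S1 (π.comp B.subtype) e)
    (he : ∀ g h x, e (g * h) x = e g x + σ g (e h (π (g⁻¹ : B) x))) : cor π σ B e ∈ Z2 π I σ :=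
  ⟨cor_S1 hB h1, 0, ⟨⊤, Ad.top I, fun _ _ _ _ => ⟨rfl, rfl⟩⟩, fun g h x => by
    rw [cor_coc he]; simp⟩

/-- the corestriction of a coboundary -/
theorem cor_B2 (hI : ∀ g, ∀ i ∈ I, g * i * g⁻¹ ∈ I) (hB : IsOpen (B : Set G))
    (hIB : ∀ i ∈ I, i ∈ B) {e : B → X → V}
    (he : e ∈ B2 (π.comp B.subtype) (B.subtype ⁻¹' I) (σ.comp B.subtype)) :
    cor π σ B e ∈ B2 π I σ := by
  obtain ⟨b, a, ⟨W, hW, h⟩, ⟨U, hU, u⟩, f⟩ := he
  obtain ⟨W', hW', k⟩ := ad_up hI hB hIB hW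
  obtain ⟨U', hU', k'⟩ := ad_up (I := ∅) (fun _ _ h => h.elim) hB (fun _ h => h.elim) hU
  refine ⟨fun g => ∑ y : G ⧸ B, σ (g • y).out (b (be B g y)),
    fun x => ∑ y : G ⧸ B, σ y.out (a (π y.out⁻¹ x)), ⟨W', hW', fun w hw g => ?_⟩,
    ⟨U', hU', fun w hw x => ?_⟩, fun g x => ?_⟩
  · have hw' : ∀ g : G, g⁻¹ * w * g ∈ B := fun g => (k w hw g).1
    refine Finset.sum_congr rfl fun y _ => ?_
    rw [be_w hw', mul_smul, fix_quo hw', h _ (k w hw y.out).2]
  · refine Finset.sum_congr rfl fun y _ => ?_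
    rw [← u _ (k' w hw y.out).2 (π y.out⁻¹ x)]
    congr 2
    show _ = π (y.out⁻¹ * w * y.out) _
    rw [← pi_mul, ← pi_mul]
    congr 2
    group
  · unfold cor
    beta_reduce
    rw [← sum_sh B g fun y => σ y.out (a (π y.out⁻¹ x)), map_sum, ← Finset.sum_add_distrib,
      ← Finset.sum_sub_distrib]
    refine Finset.sum_congr rfl fun y _ => ?_
    rw [f, map_sub, map_add]
    congr 1
    show σ _ (σ (be B g y : G) (a (π ((be B g y)⁻¹ : B) _))) = _
    rw [← ap_mul, out_be, ap_mul, ← pi_mul, ← pi_mul]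
    congr 5
    rw [Subgroup.coe_inv, be_coe]; group

/-- corestriction after restriction -/
theorem cor_res (hI : ∀ g, ∀ i ∈ I, g * i * g⁻¹ ∈ I) (hB : IsOpen (B : Set G))
    (hIB : ∀ i ∈ I, i ∈ B) {ε : V →ₗ[k] V} (hε : ∀ b ∈ B, σ b * ε = ε * σ b)
    (h1 : ∑ y : G ⧸ B, σ y.out * ε * σ y.out⁻¹ = 1) {e : G → X → V} (he : e ∈ Z2 π I σ) :
    cor π σ B (fun g x => ε (e g x)) - e ∈ B2 π I σ := by
  obtain ⟨⟨U, hU, u⟩, z, ⟨W, hW, h⟩, f⟩ := he
  have hc := ad_core hI hB hIB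
  have h2 : ∀ v, ∑ y : G ⧸ B, σ y.out (ε (σ y.out⁻¹ v)) = v := fun v => by
    have := LinearMap.congr_fun h1 v
    simpa only [LinearMap.sum_apply, Module.End.mul_apply, Module.End.one_apply] using this
  refine ⟨fun g => ∑ y : G ⧸ B, σ (g • y).out (ε (σ (g • y).out⁻¹
      (z g y.out - z (g • y).out (be B g y)))),
    fun x => -∑ y : G ⧸ B, σ y.out (ε (σ y.out⁻¹ (e y.out x))),
    ⟨_, hW.inf hc, fun w hw g => ?_⟩, ⟨U, hU, fun w hw x => ?_⟩, fun g x => ?_⟩
  · have hw' : ∀ g : G, g⁻¹ * w * g ∈ B := fun g => B.normalCore_le (hc.cj hw.2 g)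
    refine Finset.sum_congr rfl fun y _ => ?_
    rw [be_w hw', mul_smul, fix_quo hw', (h w hw.1 _ _).1, Subgroup.coe_mul,
      (h _ (hW.cj hw.1 y.out) _ _).2]
  · simp only [(u w hw _ _).2]
  · have k : ∀ y : G ⧸ B, e (be B g y) (π (g • y).out⁻¹ x) = σ (g • y).out⁻¹
        (e g x + σ g (e y.out (π g⁻¹ x)) - e (g • y).out x +
          (z g y.out - z (g • y).out (be B g y))) := fun y => by
      have e1 := f (g • y).out (be B g y) x
      rw [out_be, f] at e1
      rw [← ap_inv σ (g • y).out (e (be B g y) (π (g • y).out⁻¹ x))]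
      congr 1
      rw [← sub_eq_zero] at e1 ⊢
      rw [← neg_eq_zero, ← e1]
      abel
    show cor π σ B (fun g x => ε (e g x)) g x - e g x = _
    unfold cor
    simp only [k, map_add, map_sub, Finset.sum_add_distrib, Finset.sum_sub_distrib, map_neg,
      map_sum, tr_sh hε]
    rw [sum_sh B g fun y => σ y.out (ε (σ y.out⁻¹ (e g x))), h2,
      sum_sh B g fun y => σ y.out (ε (σ y.out⁻¹ (e y.out x)))]
    abel

end

theorem cOR : COR := by
  intro G k V X _ _ _ _ _ _ _ π I σ B ε ho _ hB hIB ⟨hε, _, h1⟩ e he h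
  have k1 := cor_B2 ho.cj hB hIB h
  have k2 := cor_res ho.cj hB hIB hε h1 he
  simpa using sub_mem k1 k2

end Vale.Agent.P022K.GW
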