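import Vale.Agent.P022K.GW.Gcl

/-!
# P022K, block GW: the count and the bound given by reciprocity (rows `EUL`, `RECI`)
-/

set_option linter.all false

noncomputable section

namespace Vale.Agent.P022K.GW

open Vale.Agent.P022

namespace Cal

variable {G : Type} [Group G] {p : ℕ} [Fact p.Prime] {U : Subgroup G} {Ψ Ψ' : AF G}

section

variable {M : Type} [AddCommGroup M] {a : Ac G M} {A B : AddSubgroup M}

theorem sq_sub (h : Ψ.Add p U) [Subsingleton M] : Ψ.sq a B A = 0 := by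
  have e : ∀ C : AddSubgroup M, St a C := fun C g m hm => by
    rw [Subsingleton.elim (a g m) m]; exact hm
  rw [sq_eq (e B) (e A)]
  haveI : Subsingleton (B ⧸ A.addSubgroupOf B) := Quot.Subsingleton
  exact zero h _

theorem md_sub (hM : Md p U a) (hB : St a B) : Md p U (a.sub B hB) :=
  ⟨by have := hM.fin; infer_instance, fun m => Subtype.ext (hM.tor m),
    fun u hu m => Subtype.ext (hM.trv u hu m)⟩

theorem md_quo (hM : Md p U a) (hB : St a B) : Md p U (a.quo B hB) :=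
  ⟨by have := hM.fin; infer_instance, fun m => QuotientAddGroup.induction_on m fun m => by
      rw [← QuotientAddGroup.mk_nsmul, hM.tor]; rfl,
    fun u hu m => QuotientAddGroup.induction_on m fun m =>
      congrArg (fun x : M => (x : M ⧸ B)) (hM.trv u hu m)⟩

theorem sub_eq (h : Ψ.Add p U) (hB : St a B) (hM : Md p U (a.sub B hB)) :
    Ψ.sq a B ⊥ = Ψ B (a.sub B hB) := by
  rw [sq_eq hB st_bot]
  exact (iso h (QuotientAddGroup.mk' ((⊥ : AddSubgroup M).addSubgroupOf B)) hM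
    ⟨(injective_iff_map_eq_zero _).2 fun x hx => Subtype.ext ((QuotientAddGroup.eq_zero_iff
      (N := (⊥ : AddSubgroup M).addSubgroupOf B) x).1 hx), QuotientAddGroup.mk_surjective⟩
    fun _ _ => rfl).symm

theorem quo_eq (h : Ψ.Add p U) (hB : St a B) (hM : Md p U a) :
    Ψ M a = Ψ B (a.sub B hB) + Ψ (M ⧸ B) (a.quo B hB) :=
  h _ _ _ _ _ _ B.subtype (QuotientAddGroup.mk' B) hM Subtype.val_injective
    QuotientAddGroup.mk_surjective (fun y => (QuotientAddGroup.eq_zero_iff y).trans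
      ⟨fun k => ⟨⟨y, k⟩, rfl⟩, fun ⟨x, e⟩ => e ▸ x.2⟩) (fun _ _ => rfl) fun _ _ => rfl

end

/-- the orbits of `U` -/
theorem ex_orb [U.Normal] (hi : U.index ≠ 0) {S : Type} {π : G →* Equiv.Perm S} (hf : Fo π) :
    ∃ (I : Type) (_ : Fintype I) (π' : G →* Equiv.Perm I) (d : S → I), Function.Surjective d ∧
      (∀ g s, d (π g s) = π' g (d s)) ∧ ∀ s s', d s = d s' ↔ ∃ u ∈ U, π u s = s' := by
  let R : Setoid S := ⟨fun s s' => ∃ u ∈ U, π u s = s', fun s => ⟨1, U.one_mem, pi_one π s⟩,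
    fun ⟨u, hu, e⟩ => ⟨u⁻¹, U.inv_mem hu, by rw [← e, pi_inv]⟩,
    fun ⟨u, hu, e⟩ ⟨v, hv, e'⟩ => ⟨v * u, U.mul_mem hv hu, by rw [pi_mul, e, e']⟩⟩
  let m : G → Quotient R → Quotient R := fun g => Quotient.map (π g) fun s s' ⟨u, hu, e⟩ =>
    ⟨g * u * g⁻¹, Subgroup.Normal.conj_mem inferInstance u hu g, by
      rw [pi_mul, pi_inv, pi_mul, e]⟩
  have m1 : ∀ x, m 1 x = x := fun x => Quotient.inductionOn x fun s => congrArg _ (pi_one π s)
  have m2 : ∀ g h x, m (g * h) x = m g (m h x) := fun g h x => Quotient.inductionOn x fun s =>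
    congrArg _ (pi_mul π g h s)
  haveI : Finite (G ⧸ U) := Nat.finite_of_card_ne_zero hi
  obtain ⟨t, ht⟩ := hf
  haveI : Finite (Quotient R) := Finite.of_surjective
    (fun x : t × (G ⧸ U) => Quotient.mk R (π x.2.out x.1)) fun x => Quotient.inductionOn x fun s => by
      obtain ⟨y, hy, g, rfl⟩ := ht s
      obtain ⟨u, hu⟩ := QuotientGroup.mk_out_eq_mul U g
      have k : ∃ v ∈ U, π v (π g y) = π (g : G ⧸ U).out y := ⟨g * u * g⁻¹,
        Subgroup.Normal.conj_mem inferInstance _ u.2 g, by rw [hu, pi_mul, pi_inv]⟩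
      exact ⟨(⟨y, hy⟩, (g : G ⧸ U)), (Quotient.sound (s := R) k).symm⟩
  exact ⟨Quotient R, Fintype.ofFinite _, MonoidHom.mk' (fun g => ⟨m g, m g⁻¹,
    fun x => by rw [← m2, inv_mul_cancel, m1], fun x => by rw [← m2, mul_inv_cancel, m1]⟩)
    fun g h => Equiv.ext (m2 g h), Quotient.mk R, Quotient.mk_surjective, fun _ _ => rfl,
    fun _ _ => Quotient.eq⟩

section

variable {I : Type} [Fintype I] {π : G →* Equiv.Perm I} {χ : G →* (ZMod p)ˣ}

/-- the standard pairing -/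
def dot (p : ℕ) (I : Type) [Fintype I] : (I → ZMod p) →+ (I → ZMod p) →+ ZMod p :=
  AddMonoidHom.mk' (fun a => AddMonoidHom.mk' (fun b => ∑ i, a i * b i) fun b b' => by
    simp only [Pi.add_apply, mul_add, Finset.sum_add_distrib]) fun a a' => AddMonoidHom.ext fun b => by
    simp only [Pi.add_apply, add_mul, Finset.sum_add_distrib, AddMonoidHom.mk'_apply,
      AddMonoidHom.add_apply]

theorem dot_ap (a b : I → ZMod p) : dot p I a b = ∑ i, a i * b i := rfl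

theorem dot_fa (g : G) (a b : I → ZMod p) : dot p I (fa π χ g a) (fa π χ⁻¹ g b) = dot p I a b := by
  rw [dot_ap, dot_ap, ← Equiv.sum_comp (π g⁻¹) fun i => a i * b i]
  refine Finset.sum_congr rfl fun i _ => ?_
  rw [fa_ap, fa_ap, mul_mul_mul_comm, MonoidHom.inv_apply, Units.mul_inv, one_mul]

theorem dot_l {a : I → ZMod p} (h : ∀ b, dot p I a b = 0) : a = 0 := by
  classical
  exact funext fun i => by simpa [dot_ap, Pi.single_apply] using h (Pi.single i 1)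

theorem dot_r {b : I → ZMod p} (h : ∀ a, dot p I a b = 0) : b = 0 := by
  classical
  exact funext fun i => by simpa [dot_ap, Pi.single_apply] using h (Pi.single i 1)

theorem inv_triv (hχ : ∀ u ∈ U, χ u = 1) : ∀ u ∈ U, χ⁻¹ u = 1 := fun u hu => by
  rw [MonoidHom.inv_apply, hχ u hu, inv_one]

theorem du_fa (d : Ψ.Du Ψ' p U) (hχ : ∀ u ∈ U, χ u = 1) (hI : ∀ u ∈ U, ∀ s, π u s = s) :
    Ψ _ (fa π χ) = Ψ' _ (fa π χ⁻¹) :=
  d _ _ _ _ (dot p I) (md_fa hχ hI) (md_fa (inv_triv hχ) hI) dot_fa (fun _ => dot_l) fun _ => dot_r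

/-- orthogonal subgroups -/
theorem du_orth (h : Ψ.Add p U) (h' : Ψ'.Add p U) (d : Ψ.Du Ψ' p U) (hχ : ∀ u ∈ U, χ u = 1)
    (hI : ∀ u ∈ U, ∀ s, π u s = s) {R J : AddSubgroup (I → ZMod p)} (hR : St (fa π χ) R)
    (hJ : St (fa π χ⁻¹) J) (ho : ∀ a ∈ R, ∀ b ∈ J, dot p I a b = 0) :
    Ψ.sq (fa π χ) R ⊥ + Ψ'.sq (fa π χ⁻¹) J ⊥ ≤ Ψ _ (fa π χ) := by
  let F : (I → ZMod p) →+ J →+ ZMod p := ((dot p I).flip.comp J.subtype).flip
  have hM := md_fa (π := π) hχ hI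
  have hM' := md_fa (π := π) (inv_triv hχ) hI
  have hK : St (fa π χ) F.ker := fun g a ha => AddMonoidHom.ext fun b => by
    have e : (b : I → ZMod p) = fa π χ⁻¹ g (fa π χ⁻¹ g⁻¹ b) := by
      show _ = (fa π χ⁻¹ g * fa π χ⁻¹ g⁻¹) b
      rw [← map_mul, mul_inv_cancel, map_one]; rfl
    show dot p I _ b = 0
    rw [e, dot_fa]
    exact DFunLike.congr_fun ha ⟨_, hJ _ _ b.2⟩
  have e1 := quo_eq h hK hM
  have e2 := chain h st_bot hR hK bot_le (fun a ha => AddMonoidHom.ext fun b => ho a ha b b.2)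
    (rel_fin _ _) (fun f _ => p_fun f) fun u hu f _ => sub_eq_zero.2 (hM.trv u hu f)
  have e3 := d _ _ _ _ (QuotientAddGroup.lift F.ker F fun _ ha => ha) (md_quo hM hK) (md_sub hM' hJ)
    (fun g x y => QuotientAddGroup.induction_on x fun x => dot_fa g x y)
    (fun x => QuotientAddGroup.induction_on x fun x hx =>
      (QuotientAddGroup.eq_zero_iff x).2 (AddMonoidHom.ext hx))
    fun y hy => Subtype.ext (dot_r fun a => hy a)
  rw [← sub_eq h hK (md_sub hM hK)] at e1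
  rw [← sub_eq h' hJ (md_sub hM' hJ)] at e3
  omega

end

theorem du_fu [U.Normal] (h : Ψ.Add p U) (h' : Ψ'.Add p U) (d : Ψ.Du Ψ' p U) (hi : U.index ≠ 0)
    {S : Type} {π : G →* Equiv.Perm S} (hf : Fo π) {χ : G →* (ZMod p)ˣ} (hχ : ∀ u ∈ U, χ u = 1) :
    Ψ.fu π U χ = Ψ'.fu π U χ⁻¹ := by
  obtain ⟨I, _, π', e, e1, e2, e3⟩ := ex_orb hi hf
  obtain ⟨a, -, b⟩ := fu_eq h π' e e1 e2 e3 hχ
  rw [a, (fu_eq h' π' e e1 e2 e3 (inv_triv hχ)).1, du_fa d hχ b]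

theorem du_ch (h : Ψ.Add p U) (h' : Ψ'.Add p U) (d : Ψ.Du Ψ' p U) {χ : G →* (ZMod p)ˣ}
    (hχ : ∀ u ∈ U, χ u = 1) : Ψ.ch χ = Ψ'.ch χ⁻¹ := by
  rw [AF.ch, AF.ch, top_bot h (md_fa hχ fun _ _ _ => rfl),
    top_bot h' (md_fa (inv_triv hχ) fun _ _ _ => rfl), du_fa d hχ fun _ _ _ => rfl]

section

variable [TopologicalSpace G] [IsTopologicalGroup G] [U.Normal] {X : Type} {π : G →* Equiv.Perm X}
  {I : Set G}

theorem fa_cj (χ : G →* (ZMod p)ˣ) (g : G) (f : G → ZMod p) (h : G) :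
    fa (cj G) χ g f h = (χ g : ZMod p) * f (g⁻¹ * h * g) := by
  rw [fa_ap, cj_apply, inv_inv]

theorem fa_pj (χ : G →* (ZMod p)ˣ) (g : G) (f : X × G → ZMod p) (x : X) (h : G) :
    fa (pj π) χ g f (x, h) = (χ g : ZMod p) * f (π g⁻¹ x, g⁻¹ * h * g) := by
  rw [fa_ap, pj_apply, inv_inv]

theorem cj_iff {g h : G} : g⁻¹ * h * g ∈ U ↔ h ∈ U :=
  ⟨fun k => by simpa [mul_assoc] using Subgroup.Normal.conj_mem inferInstance _ k g,
    fun k => Subgroup.Normal.conj_mem' inferInstance h k g⟩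

theorem fix_iff {g h : G} {x : X} : π (g⁻¹ * h * g) (π g⁻¹ x) = π g⁻¹ x ↔ π h x = x := by
  rw [pi_mul, pi_inv', pi_mul, (π g⁻¹).injective.eq_iff]

theorem gl_cj {f : G → ZMod p} (hf : f ∈ Gl p I U) {u : G} (hu : u ∈ U) (h : G) :
    f (u⁻¹ * h * u) = f h := by
  by_cases hh : h ∈ U
  · have e1 : f 1 = 0 := by
      have := hf.1 1 U.one_mem 1 U.one_mem
      rw [one_mul] at this
      exact left_eq_add.1 this
    have e2 := hf.1 _ (U.inv_mem hu) u hu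
    rw [inv_mul_cancel, e1] at e2
    rw [hf.1 _ (U.mul_mem (U.inv_mem hu) hh) u hu, hf.1 _ (U.inv_mem hu) h hh, add_right_comm,
      ← e2, zero_add]
  · rw [hf.2.1 _ hh, hf.2.1 _ fun k => hh (cj_iff.1 k)]

theorem gl_triv {χ : G →* (ZMod p)ˣ} (hχ : ∀ u ∈ U, χ u = 1) {f : G → ZMod p} (hf : f ∈ Gl p I U)
    {u : G} (hu : u ∈ U) : fa (cj G) χ u f = f := funext fun h => by
  rw [fa_cj, hχ u hu, Units.val_one, one_mul, gl_cj hf hu]

theorem st_kr (χ : G →* (ZMod p)ˣ) : St (fa (cj G) χ) (Kr p π I U) := fun g f hf =>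
  ⟨Gcl.st_gl χ g f hf.1, fun x h e => by rw [fa_cj, hf.2 _ _ (fix_iff.2 e), mul_zero]⟩

theorem st_lo (χ : G →* (ZMod p)ˣ) : St (fa (pj π) χ) (Lo p π U) := by
  rintro g f ⟨f1, f2, f3, W, hW, f4⟩
  refine ⟨fun x a ha b hb e e' => ?_, fun x a ha => ?_, st_fu χ g f f3, W, hW, fun w hw x => ?_⟩
  · rw [fa_pj, fa_pj, fa_pj, ← mul_add,
      ← f1 _ _ (cj_iff.2 ha) _ (cj_iff.2 hb) (fix_iff.2 e) (fix_iff.2 e')]
    congr 3
    group
  · rw [fa_pj, f2 _ _ fun k => ha ⟨cj_iff.1 k.1, fix_iff.1 k.2⟩, mul_zero]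
  · rw [fa_pj, f4 _ (hW.cj hw g), mul_zero]

theorem rs_pos (f : G → ZMod p) {x : X} {h : G} (e : π h x = x) : rs p π f (x, h) = f h := if_pos e

theorem rs_neg (f : G → ZMod p) {x : X} {h : G} (e : ¬ π h x = x) : rs p π f (x, h) = 0 := if_neg e

theorem rs_fa (χ : G →* (ZMod p)ˣ) (g : G) (f : G → ZMod p) :
    rs p π (fa (cj G) χ g f) = fa (pj π) χ g (rs p π f) := funext fun ⟨x, h⟩ => by
  rw [fa_pj]
  by_cases e : π h x = x
  · rw [rs_pos _ e, rs_pos _ (fix_iff.2 e), fa_cj]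
  · rw [rs_neg _ e, rs_neg _ fun k => e (fix_iff.1 k), mul_zero]

theorem rs_mem {f : G → ZMod p} (hf : f ∈ Gl p I U) : rs p π f ∈ Lo p π U := by
  obtain ⟨W, hW, f3⟩ := hf.2.2
  refine ⟨fun x a ha b hb e e' => ?_, fun x a ha => ?_, fun u hu s => ?_, W, hW.emp,
    fun w hw x => ?_⟩
  · rw [rs_pos _ e, rs_pos _ e', rs_pos _ (by rw [pi_mul, e', e]), hf.1 a ha b hb]
  · by_cases e : π a x = x
    · rw [rs_pos _ e, hf.2.1 _ fun k => ha ⟨k, e⟩]
    · exact rs_neg _ e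
  · have := congrFun (rs_fa (π := π) 1 u⁻¹ f) s
    rw [gl_triv (fun _ _ => rfl) hf (U.inv_mem hu), fa_ap, inv_inv] at this
    rw [this]
    exact (one_mul _).symm
  · by_cases e : π w x = x
    · rw [rs_pos _ e, f3 w hw]
    · exact rs_neg _ e

theorem rs_zero {f : G → ZMod p} (hf : f ∈ Gl p I U) : rs p π f = 0 ↔ f ∈ Kr p π I U :=
  ⟨fun e => ⟨hf, fun x g k => (rs_pos f k).symm.trans (congrFun e _)⟩, fun k =>
    funext fun ⟨x, g⟩ => by
      by_cases e : π g x = x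
      · exact (rs_pos _ e).trans (k.2 x g e)
      · exact rs_neg _ e⟩

theorem st_im (χ : G →* (ZMod p)ˣ) : St (fa (pj π) χ) ((Gl p I U).map (rs p π)) := by
  rintro g _ ⟨f, hf, rfl⟩
  exact ⟨_, Gcl.st_gl χ g f hf, rs_fa χ g f⟩

/-- kernel and image -/
theorem gl_split (h : Ψ.Add p U) (hG : Finite (Gl p I U)) {χ : G →* (ZMod p)ˣ}
    (hχ : ∀ u ∈ U, χ u = 1) {M : Type} [AddCommGroup M] {a : Ac G M} (s : (G → ZMod p) →+ M)
    {A K : AddSubgroup (G → ZMod p)} (l1 : A ≤ Gl p I U) (l2 : K ≤ A) (hA : St (fa (cj G) χ) A)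
    (hK : St (fa (cj G) χ) K) (he : ∀ g, ∀ f ∈ A, s (fa (cj G) χ g f) = a g (s f))
    (hk : ∀ f ∈ A, s f = 0 ↔ f ∈ K) :
    St a (A.map s) ∧ Ψ.sq (fa (cj G) χ) A ⊥ = Ψ.sq a (A.map s) ⊥ + Ψ.sq (fa (cj G) χ) K ⊥ := by
  have s1 : St a (A.map s) := by
    rintro g _ ⟨f, hf, rfl⟩
    exact ⟨_, hA g f hf, he g f hf⟩
  have i1 := rel_mono (rel_bot hG) le_rfl l1
  refine ⟨s1, ?_⟩
  rw [chain h st_bot hK hA bot_le l2 i1 (fun f _ => p_fun f)
    (fun u hu f hf => sub_eq_zero.2 (gl_triv hχ (l1 hf) hu)),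
    trans' h s hK st_bot s1 hA he (fun f hf => ⟨f, hf, rfl⟩) (by
      rintro _ ⟨f, hf, rfl⟩
      exact ⟨f, hf, sub_self _⟩) hk (rel_mono i1 bot_le le_rfl)
      (fun f _ => by rw [p_fun]; exact zero_mem _) fun u hu f hf => by
        rw [gl_triv hχ (l1 hf) hu, sub_self]; exact zero_mem _]

/-- the exact sequence of the restriction to the stabilisers -/
theorem seq (h : Ψ.Add p U) (hG : Finite (Gl p I U)) (hL : Finite (Lo p π U))
    {χ : G →* (ZMod p)ˣ} (hχ : ∀ u ∈ U, χ u = 1) :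
    Ψ.sq (fa (pj π) χ) (Lo p π U) ⊥ + Ψ.sq (fa (cj G) χ) (Kr p π I U) ⊥ =
      Ψ.sq (fa (pj π) χ) (Lo p π U) ((Gl p I U).map (rs p π)) +
        Ψ.sq (fa (cj G) χ) (Gl p I U) ⊥ := by
  have e1 := (gl_split h hG hχ (a := fa (pj π) χ) (K := Kr p π I U) (rs p π) le_rfl
    (fun f hf => hf.1)
    (Gcl.st_gl χ) (st_kr (π := π) χ) (fun g f _ => rs_fa χ g f) fun f hf => rs_zero hf).2
  have e2 := chain h st_bot (st_im (π := π) (I := I) χ) (st_lo χ) bot_le (by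
    rintro _ ⟨f, hf, rfl⟩
    exact rs_mem hf) (rel_bot hL) (fun f _ => p_fun f)
    fun u hu f hf => sub_eq_zero.2 (fa_triv hχ hf.2.2.1 hu)
  omega

end

end Cal

theorem Lv.em {G : Type} [Group G] [TopologicalSpace G] {ι : G →* GQ} {p : ℕ}
    {ω : G →* (ZMod p)ˣ} {T : Finset ℕ} {Q : Set Id} {hQ : Stb ι Q} {U : Subgroup G}
    (h : Lv ι p ω T hQ U) : Lv ι p ω T (em_stb ι) U :=
  ⟨h.odd, h.emb, h.cy, h.pT, h.pr, h.nor, h.opn, h.om, h.unr, h.big, fun _ k => k.elim,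
    ∅, fun x => x.2.elim⟩

open Cal in
theorem eul (hG : GCL) (hL : LCL) (hI : INF) : EUL := by
  have key : ∀ (G : Type) [Group G] [TopologicalSpace G] [IsTopologicalGroup G]
      [CompactSpace G] (ι : G →* GQ) (p : ℕ) [Fact p.Prime] (ω : G →* (ZMod p)ˣ) (T : Finset ℕ)
      (Q : Set Id) (hQ : Stb ι Q) (U : Subgroup G), Lv ι p ω T hQ U →
      Eul p (pT ι T) (pm ι hQ) (pI ι) (In ι (ov T ∪ Q)) ω U := by
    intro G _ _ _ _ ι p _ ω T Q hQ U h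
    haveI := h.nor
    obtain ⟨g1, g2⟩ := hG G ι p ω T Q hQ U h
    obtain ⟨l1, l2⟩ := hL G ι p ω T Q hQ U h
    obtain ⟨-, -, i2⟩ := hI G ι p ω U h.odd h.emb h.cy h.nor h.opn h.om
    refine ⟨g1, l1, fun Ψ a => ?_⟩
    have e1 := g2 Ψ a ω⁻¹ (inv_triv h.om)
    have e2 := l2 Ψ a ω⁻¹ (inv_triv h.om)
    have e3 := i2 Ψ a ω⁻¹ (inv_triv h.om)
    have e4 := seq a g1 l1 (χ := (1 : G →* (ZMod p)ˣ)) fun _ _ => rfl
    rw [show ω * ω⁻¹ = 1 from mul_inv_cancel ω] at e1 e2 e3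
    omega
  intro G _ _ _ _ ι p _ ω T Q hQ U h
  refine ⟨key G ι p ω T Q hQ U h, ?_⟩
  obtain ⟨a1, a2, a3⟩ := key G ι p ω T ∅ (em_stb ι) U h.em
  rw [Set.union_empty] at a1 a3
  refine ⟨a1, a2, fun Ψ a => ?_⟩
  have := a3 Ψ a
  rw [show Ψ.fu (pm ι (em_stb ι)) U ω⁻¹ = 0 from sq_sub a] at this
  rw [show Ψ.fu (1 : G →* Equiv.Perm Empty) U ω⁻¹ = 0 from sq_sub a]
  exact this

open Cal in
theorem reci (hG : GCL) (hT : TAM) (hS : SHA1) (hO : OKL) (hI : INF) : RECI := by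
  classical
  intro G _ _ _ _ ι p _ ω T Q hQ U h
  haveI := h.nor
  obtain ⟨g1, -⟩ := hG G ι p ω T Q hQ U h
  obtain ⟨g0, g2⟩ := hG G ι p ω T ∅ (em_stb ι) U h.em
  rw [Set.union_empty] at g0 g2
  obtain ⟨τ, φ, t1, t2, t3⟩ := hT G ι p ω T Q hQ U h
  have s1 := hS G ι p ω T Q hQ U h
  obtain ⟨-, o2, -, -⟩ := hO G ι p ω T Q hQ U h
  obtain ⟨i1, -, -⟩ := hI G ι p ω U h.odd h.emb h.cy h.nor h.opn h.om
  have hi : U.index ≠ 0 := by
    haveI := fin_quo h.opn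
    exact Subgroup.index_ne_zero_of_finite
  refine ⟨g1, g0, fun Ψ Ψ' a a' d => ?_⟩
  have e1 := g2 Ψ' a' 1 fun _ _ => rfl
  rw [show ω * 1 = ω from mul_one ω,
    show Ψ'.fu (pm ι (em_stb ι)) U (1 : G →* (ZMod p)ˣ) = 0 from sq_sub a'] at e1
  have i11 : (1 : G →* (ZMod p)ˣ)⁻¹ = 1 := MonoidHom.ext fun _ => inv_one
  have e2 := du_fu a a' d hi (π := pT ι T) o2.fin (χ := (1 : G →* (ZMod p)ˣ)) fun _ _ => rfl
  have e3 := du_fu a a' d hi i1 (χ := (1 : G →* (ZMod p)ˣ)) fun _ _ => rfl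
  have e4 := du_ch a a' d (χ := (1 : G →* (ZMod p)ˣ)) fun _ _ => rfl
  have e5 := du_ch a a' d (inv_triv h.om)
  rw [i11] at e2 e3 e4
  have iii : ω⁻¹⁻¹ = ω := MonoidHom.ext fun _ => inv_inv _
  rw [iii] at e5
  obtain ⟨J, _, π', e, q1, q2, q3⟩ := ex_orb hi h.qf
  obtain ⟨e6, -, q4⟩ := fu_eq a π' e q1 q2 q3 (inv_triv h.om)
  choose o ho using q1
  have c1 : ∀ f ∈ Gl p (In ι (ov T ∪ Q)) U, ∀ x, f (τ (o (e x))) = f (τ x) := fun f hf x => by
    obtain ⟨u, hu, k⟩ := (q3 _ _).1 (ho (e x))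
    have := (t1 f hf).1 u (o (e x))
    rw [k, h.om u hu, Units.val_one, one_mul] at this
    rw [← this, ← gl_cj hf (U.inv_mem hu), inv_inv]
  have c2 : ∀ y ∈ Gl p (In ι (ov T)) U, ∀ x, y (φ (o (e x))) = y (φ x) := fun y hy x => by
    obtain ⟨u, hu, k⟩ := (q3 _ _).1 (ho (e x))
    have := (t2 y hy).1 u (o (e x))
    rw [k] at this
    rw [← this, ← gl_cj hy (U.inv_mem hu), inv_inv]
  let t : (G → ZMod p) →+ (J → ZMod p) := AddMonoidHom.mk' (fun f i => f (τ (o i))) fun _ _ => rfl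
  let s : (G → ZMod p) →+ (J → ZMod p) := AddMonoidHom.mk' (fun f i => f (φ (o i))) fun _ _ => rfl
  obtain ⟨r1, e7⟩ := gl_split a g1 (χ := (1 : G →* (ZMod p)ˣ)) (fun _ _ => rfl) (a := fa π' ω⁻¹) t
    (A := Kr p (pT ι T) (In ι (ov T ∪ Q)) U) (K := ⊥) (fun f hf => hf.1) bot_le (st_kr _) st_bot
    (fun g f hf => funext fun i => by
      show fa (cj G) 1 g f (τ (o i)) = ((ω⁻¹ g : (ZMod p)ˣ) : ZMod p) * f (τ (o (π' g⁻¹ i)))
      have := (t1 f hf.1).1 g⁻¹ (o i)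
      rw [inv_inv, map_inv, ← c1 f hf.1, q2, ho] at this
      rw [fa_cj, this]
      exact one_mul _)
    fun f hf => ⟨fun k => s1 ▸ (⟨(t1 f hf.1).2 fun x => (c1 f hf.1 x).symm.trans (congrFun k (e x)),
      hf.2⟩ : f ∈ Kr p (pT ι T) (In ι (ov T)) U), fun k => by
        rw [AddSubgroup.mem_bot.1 k, map_zero]⟩
  obtain ⟨r2, e8⟩ := gl_split a' g0 h.om (a := fa π' ω⁻¹⁻¹) s
    (K := Kr p (pm ι hQ) (In ι (ov T)) U) le_rfl (fun f hf => hf.1) (Gcl.st_gl _) (st_kr _)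
    (fun g y hy => funext fun i => by
      show fa (cj G) ω g y (φ (o i)) = ((ω⁻¹⁻¹ g : (ZMod p)ˣ) : ZMod p) * y (φ (o (π' g⁻¹ i)))
      have := (t2 y hy).1 g⁻¹ (o i)
      rw [inv_inv, ← c2 y hy, q2, ho] at this
      rw [fa_cj, this, iii])
    fun y hy => ⟨fun k => (t2 y hy).2.1 fun x => (c2 y hy x).symm.trans (congrFun k (e x)),
      fun k => funext fun i => (t2 y hy).2.2 k _⟩
  have oi : Function.Injective o := Function.LeftInverse.injective ho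
  have e9 := du_orth a a' d (inv_triv h.om) q4 r1 r2 (by
    rintro _ ⟨f, hf, rfl⟩ _ ⟨y, hy, rfl⟩
    have := t3 f hf y hy (Finset.univ.image o)
      (fun x => ⟨_, Finset.mem_image_of_mem o (Finset.mem_univ (e x)), (q3 _ _).1 (ho (e x))⟩) (by
        intro r hr r' hr' u hu k
        obtain ⟨i, -, rfl⟩ := Finset.mem_image.1 hr
        obtain ⟨i', -, rfl⟩ := Finset.mem_image.1 hr'
        have := (q3 _ _).2 ⟨u, hu, k⟩
        rw [ho, ho] at this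
        rw [this])
    rwa [Finset.sum_image fun _ _ _ _ k => oi k] at this)
  rw [self a st_bot] at e7
  omega

end Vale.Agent.P022K.GW
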