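import Vale.Agent.P022K.GW.Cal

/-!
# P022K, block GW: twists, functions on finite sets, equivariant families with one relation
-/

set_option linter.all false

noncomputable section

namespace Vale.Agent.P022K.GW.Cal

variable {G : Type} [Group G] {p : ℕ} [Fact p.Prime] {U : Subgroup G} {Ψ : AF G}

section

variable {M : Type} [AddCommGroup M]

theorem val_smul (h : ∀ m : M, p • m = 0) (a b : ZMod p) (m : M) :
    (a * b).val • m = a.val • b.val • m := by
  rw [ZMod.val_mul, ← mul_smul]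
  conv_rhs => rw [← Nat.mod_add_div (a.val * b.val) p, add_smul, mul_smul, h, add_zero]

/-- the twist of an action on a module which is killed by `p` -/
def tws (χ : G →* (ZMod p)ˣ) (a : Ac G M) (h : ∀ m : M, p • m = 0) : Ac G M where
  toFun g := (nsmulAddMonoidHom (χ g : ZMod p).val).comp (a g : M →+ M)
  map_one' := AddMonoidHom.ext fun m => by
    show ((χ 1 : (ZMod p)ˣ) : ZMod p).val • a 1 m = m
    rw [map_one, map_one, Units.val_one, ZMod.val_one, one_smul]; rfl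
  map_mul' g g' := AddMonoidHom.ext fun m => by
    show ((χ (g * g') : (ZMod p)ˣ) : ZMod p).val • a (g * g') m =
      (χ g : ZMod p).val • a g ((χ g' : ZMod p).val • a g' m)
    rw [map_mul, map_mul, Units.val_mul, val_smul h, map_nsmul]; rfl

theorem tws_ap (χ : G →* (ZMod p)ˣ) (a : Ac G M) (h : ∀ m : M, p • m = 0) (g : G) (m : M) :
    tws χ a h g m = (χ g : ZMod p).val • a g m := rfl

end

open Classical in
/-- the twisted function -/
def twA (Ψ : AF G) (χ : G →* (ZMod p)ˣ) : AF G := fun M _ a =>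
  if h : ∀ m : M, p • m = 0 then Ψ M (tws χ a h) else 0

theorem md_tws {M : Type} [AddCommGroup M] {a : Ac G M} {χ : G →* (ZMod p)ˣ}
    (hχ : ∀ u ∈ U, χ u = 1) (h : Md p U a) : Md p U (tws χ a h.tor) :=
  ⟨h.fin, h.tor, fun u hu m => by
    rw [tws_ap, hχ u hu, Units.val_one, ZMod.val_one, one_smul, h.trv u hu]⟩

theorem twA_add (h : Ψ.Add p U) {χ : G →* (ZMod p)ˣ} (hχ : ∀ u ∈ U, χ u = 1) :
    (twA Ψ χ).Add p U := by
  intro A B C _ _ _ a b c i q hb hi hq he ei eq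
  have tA : ∀ m : A, p • m = 0 := fun m => hi (by rw [map_nsmul, hb.tor, map_zero])
  have tC : ∀ m : C, p • m = 0 := fun m => by
    obtain ⟨y, rfl⟩ := hq m
    rw [← map_nsmul, hb.tor, map_zero]
  simp only [twA, dif_pos tA, dif_pos tC, dif_pos hb.tor]
  exact h A B C _ _ _ i q (md_tws hχ hb) hi hq he
    (fun g x => by rw [tws_ap, tws_ap, map_nsmul, ei]) fun g y => by
      rw [tws_ap, tws_ap, map_nsmul, eq]

variable {S : Type} {π : G →* Equiv.Perm S}

theorem fa_ap (ξ : G →* (ZMod p)ˣ) (g : G) (f : S → ZMod p) (s : S) :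
    fa π ξ g f s = (ξ g : ZMod p) * f (π g⁻¹ s) := rfl

theorem p_fun (f : S → ZMod p) : p • f = 0 := funext fun s => by simp

theorem fa_mul (ξ χ : G →* (ZMod p)ˣ) (g : G) (f : S → ZMod p) :
    fa π (ξ * χ) g f = (χ g : ZMod p).val • fa π ξ g f := funext fun s => by
  rw [Pi.smul_apply, fa_ap, fa_ap, nsmul_eq_mul, ZMod.natCast_zmod_val, MonoidHom.mul_apply,
    Units.val_mul]
  ring

/-- stability does not depend on the character -/
theorem st_fa {ξ : G →* (ZMod p)ˣ} {A : AddSubgroup (S → ZMod p)} (h : St (fa π ξ) A)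
    (χ : G →* (ZMod p)ˣ) : St (fa π χ) A := fun g f hf => by
  rw [← mul_inv_cancel_left ξ χ, fa_mul]
  exact A.nsmul_mem (h g f hf) _

/-- the twisted function on spaces of functions -/
theorem twA_sq (ξ χ : G →* (ZMod p)ˣ) (B A : AddSubgroup (S → ZMod p)) :
    (twA Ψ χ).sq (fa π ξ) B A = Ψ.sq (fa π (ξ * χ)) B A := by
  by_cases h : St (fa π ξ) B ∧ St (fa π ξ) A
  · rw [sq_eq h.1 h.2, sq_eq (st_fa h.1 _) (st_fa h.2 _)]
    have t : ∀ m : B ⧸ A.addSubgroupOf B, p • m = 0 := fun m => by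
      induction m using QuotientAddGroup.induction_on with
      | H m =>
        rw [← QuotientAddGroup.mk_nsmul, show p • m = 0 from Subtype.ext (p_fun m.1)]
        rfl
    simp only [twA, dif_pos t]
    congr 1
    refine MonoidHom.ext fun g => AddMonoidHom.ext fun m => ?_
    induction m using QuotientAddGroup.induction_on with
    | H m =>
      refine Eq.trans (tws_ap _ _ _ _ _) ?_
      rw [aq_mk, ← QuotientAddGroup.mk_nsmul]
      exact congrArg _ (Subtype.ext (fa_mul ξ χ g m.1).symm)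
  · rw [AF.sq, dif_neg h, AF.sq, dif_neg fun k => h ⟨st_fa k.1 _, st_fa k.2 _⟩]

theorem twA_fu (ξ χ : G →* (ZMod p)ˣ) : (twA Ψ χ).fu π U ξ = Ψ.fu π U (ξ * χ) := twA_sq _ _ _ _

theorem twA_ch (ξ χ : G →* (ZMod p)ˣ) : (twA Ψ χ).ch ξ = Ψ.ch (ξ * χ) := twA_sq _ _ _ _

theorem st_fu [U.Normal] (χ : G →* (ZMod p)ˣ) : St (fa π χ) (Fu p π U) := fun g f hf u hu y => by
  rw [fa_ap, fa_ap, ← hf (g⁻¹ * u * g) (Subgroup.Normal.conj_mem' inferInstance u hu g) (π g⁻¹ y),
    ← Equiv.Perm.mul_apply, ← Equiv.Perm.mul_apply, ← map_mul, ← map_mul, mul_inv_cancel_right]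

theorem fa_triv {χ : G →* (ZMod p)ˣ} (hχ : ∀ u ∈ U, χ u = 1) {f : S → ZMod p} (hf : f ∈ Fu p π U)
    {u : G} (hu : u ∈ U) : fa π χ u f = f := funext fun s => by
  rw [fa_ap, hχ u hu, Units.val_one, one_mul, hf _ (U.inv_mem hu)]

theorem md_fa [Finite S] {χ : G →* (ZMod p)ˣ} (hχ : ∀ u ∈ U, χ u = 1)
    (hS : ∀ u ∈ U, ∀ s, π u s = s) : Md p U (fa π χ) :=
  ⟨inferInstance, p_fun, fun u hu f => fa_triv hχ (fun v hv s => by rw [hS v hv]) hu⟩

theorem rel_fin {M : Type} [AddCommGroup M] [Finite M] (A B : AddSubgroup M) : A.relIndex B ≠ 0 :=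
  AddSubgroup.index_ne_zero_of_finite

/-- functions fixed by `U` are functions on the orbits -/
theorem fu_eq [U.Normal] (h : Ψ.Add p U) {I : Type} [Finite I] (π' : G →* Equiv.Perm I) (d : S → I)
    (hs : Function.Surjective d) (he : ∀ g s, d (π g s) = π' g (d s))
    (ho : ∀ s s', d s = d s' ↔ ∃ u ∈ U, π u s = s') {χ : G →* (ZMod p)ˣ} (hχ : ∀ u ∈ U, χ u = 1) :
    Ψ.fu π U χ = Ψ _ (fa π' χ) ∧ Finite (Fu p π U) ∧ ∀ u ∈ U, ∀ i, π' u i = i := by
  have hI : ∀ u ∈ U, ∀ i, π' u i = i := fun u hu i => by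
    obtain ⟨s, rfl⟩ := hs i
    rw [← he]
    exact ((ho _ _).2 ⟨u, hu, rfl⟩).symm
  let c : (I → ZMod p) →+ (S → ZMod p) := AddMonoidHom.mk' (fun f s => f (d s)) fun _ _ => rfl
  have sur : ∀ f ∈ Fu p π U, ∃ f', c f' = f := fun f hf => by
    choose t ht using hs
    refine ⟨fun i => f (t i), funext fun s => ?_⟩
    obtain ⟨u, hu, e⟩ := (ho _ _).1 (ht (d s))
    show f (t (d s)) = f s
    rw [← hf u hu, e]
  have hM := md_fa (π := π') hχ hI
  refine ⟨?_, ?_, hI⟩
  · rw [← top_bot h hM]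
    refine (trans' h c st_bot st_bot (st_fu χ) st_top (fun g f _ => funext fun s => ?_)
      (fun f _ u hu s => ?_) (fun f hf => ?_) (fun f _ => ⟨fun e => funext fun i => ?_, fun e => ?_⟩)
      (rel_fin _ _) (fun f _ => p_fun f) fun u hu f _ => sub_eq_zero.2 (hM.trv u hu f)).symm
    · show (χ g : ZMod p) * f (π' g⁻¹ (d s)) = (χ g : ZMod p) * f (d (π g⁻¹ s))
      rw [he]
    · show f (d (π u s)) = f (d s)
      rw [he, hI u hu]
    · obtain ⟨f', e⟩ := sur f hf
      exact ⟨f', trivial, sub_eq_zero.2 e⟩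
    · obtain ⟨s, rfl⟩ := hs i
      exact congrFun (AddSubgroup.mem_bot.1 e) s
    · rw [AddSubgroup.mem_bot.1 e, map_zero]; exact zero_mem _
  · exact ((Set.finite_range c).subset fun f hf => sur f hf).to_subtype

/-- the action on a disjoint union -/
def sm {I J : Type} (π : G →* Equiv.Perm I) (π' : G →* Equiv.Perm J) : G →* Equiv.Perm (I ⊕ J) :=
  (Equiv.Perm.sumCongrHom I J).comp (π.prod π')

theorem sm_inl {I J : Type} (π : G →* Equiv.Perm I) (π' : G →* Equiv.Perm J) (g : G) (i : I) :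
    sm π π' g (Sum.inl i) = Sum.inl (π g i) := rfl

theorem sm_inr {I J : Type} (π : G →* Equiv.Perm I) (π' : G →* Equiv.Perm J) (g : G) (i : J) :
    sm π π' g (Sum.inr i) = Sum.inr (π' g i) := rfl

theorem sm_triv {I J : Type} {π : G →* Equiv.Perm I} {π' : G →* Equiv.Perm J}
    (hI : ∀ u ∈ U, ∀ s, π u s = s) (hJ : ∀ u ∈ U, ∀ s, π' u s = s) :
    ∀ u ∈ U, ∀ s, sm π π' u s = s := fun u hu s => by
  rcases s with s | s
  · rw [sm_inl, hI u hu]
  · rw [sm_inr, hJ u hu]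

theorem fa_sm (h : Ψ.Add p U) {I J : Type} [Finite I] [Finite J] {π : G →* Equiv.Perm I}
    {π' : G →* Equiv.Perm J} {χ : G →* (ZMod p)ˣ} (hχ : ∀ u ∈ U, χ u = 1)
    (hI : ∀ u ∈ U, ∀ s, π u s = s) (hJ : ∀ u ∈ U, ∀ s, π' u s = s) :
    Ψ _ (fa (sm π π') χ) = Ψ _ (fa π χ) + Ψ _ (fa π' χ) := by
  refine h _ _ _ _ _ _
    (AddMonoidHom.mk' (fun f => Sum.elim f 0) fun f f' => funext fun s => by
      rcases s with s | s <;> simp)
    (AddMonoidHom.mk' (fun f j => f (Sum.inr j)) fun _ _ => rfl) (md_fa hχ (sm_triv hI hJ))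
    (fun f f' e => funext fun i => congrFun e (Sum.inl i)) (fun f => ⟨Sum.elim 0 f, rfl⟩)
    (fun f => ⟨fun e => ⟨fun i => f (Sum.inl i), funext fun s => ?_⟩, ?_⟩)
    (fun g f => funext fun s => ?_) fun g f => rfl
  · rcases s with s | s
    · rfl
    · exact (congrFun e s).symm
  · rintro ⟨f, rfl⟩
    rfl
  · rcases s with s | s
    · rfl
    · exact (mul_zero _).symm

section

variable {M : Type} [AddCommGroup M] {a : Ac G M}

theorem rel_mu {B : AddSubgroup M} (h : B.FG) {n : ℕ} (hn : n ≠ 0) : (mu n B).relIndex B ≠ 0 := by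
  haveI : AddGroup.FG B := (AddGroup.fg_iff_addSubgroup_fg B).2 h
  haveI : Finite (B ⧸ (mu n B).addSubgroupOf B) := AddCommGroup.finite_of_fg_torsion _ fun x => by
    obtain ⟨z, rfl⟩ := QuotientAddGroup.mk_surjective x
    exact isOfFinAddOrder_iff_nsmul_eq_zero.2 ⟨n, hn.bot_lt, by
      rw [← QuotientAddGroup.mk_nsmul]; exact (QuotientAddGroup.eq_zero_iff _).2 ⟨z, z.2, rfl⟩⟩
  exact AddSubgroup.index_ne_zero_of_finite

theorem rel_of {A B : AddSubgroup M} (h : B.FG) {n : ℕ} (hn : n ≠ 0) (hp : ∀ z ∈ A, n • z ∈ B)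
    (ht : Finite (tor n A)) (le : B ≤ A) : B.relIndex A ≠ 0 := by
  have h1 : ((mu n B).comap (nsmulAddMonoidHom n)).relIndex A ≠ 0 := by
    rw [AddSubgroup.relIndex_comap]
    refine rel_mono (rel_mu h hn) le_rfl ?_
    rintro _ ⟨z, hz, rfl⟩
    exact hp z hz
  have h2 : (B ⊔ tor n A).relIndex A ≠ 0 := by
    rw [← AddSubgroup.inf_relIndex_right] at h1
    refine rel_mono h1 ?_ le_rfl
    rintro z ⟨⟨b, hb, e⟩, hz⟩
    exact AddSubgroup.mem_sup.2 ⟨b, hb, z - b, mem_tor.2 ⟨A.sub_mem hz (le hb), by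
      rw [nsmul_sub]; exact sub_eq_zero.2 e.symm⟩, by abel⟩
  refine AddSubgroup.relIndex_ne_zero_trans ?_ h2
  rw [AddSubgroup.relIndex_sup_left]
  exact rel_mono (rel_bot ht) bot_le le_rfl

/-- the permutation module -/
def pz {I : Type} (π : G →* Equiv.Perm I) : Ac G (I → ℤ) where
  toFun g := AddMonoidHom.mk' (fun f s => f (π g⁻¹ s)) fun _ _ => rfl
  map_one' := AddMonoidHom.ext fun f => funext fun s => by
    show f (π 1⁻¹ s) = f s
    rw [inv_one, map_one]; rfl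
  map_mul' g h := AddMonoidHom.ext fun f => funext fun s => by
    show f (π (g * h)⁻¹ s) = f (π h⁻¹ (π g⁻¹ s))
    rw [mul_inv_rev, map_mul]; rfl

theorem perm_inv {I : Type} (π : G →* Equiv.Perm I) (g : G) (i : I) : π g⁻¹ (π g i) = i := by
  rw [← Equiv.Perm.mul_apply, ← map_mul, inv_mul_cancel, map_one]; rfl

/-- **an equivariant family with one relation** -/
theorem perm (h : Ψ.Add p U) {A : AddSubgroup M} (hA : St a A) (hu : ∀ u ∈ U, ∀ m ∈ A, a u m = m)
    {I : Type} [Fintype I] (π : G →* Equiv.Perm I) (hI : ∀ u ∈ U, ∀ i, π u i = i) (y : I → M)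
    (yA : ∀ i, y i ∈ A) (hy : ∀ g i, y (π g i) = a g (y i)) (e : I → ℤ) (he : ∑ i, e i ≠ 0)
    (hr : ∀ c : I → ℤ, ∑ i, c i • y i = 0 ↔ ∃ t : ℤ, c = t • e) {n : ℕ} (hn : n ≠ 0)
    (hf : ∀ z ∈ A, ∃ c : I → ℤ, ∑ i, c i • y i = n • z) (ht : ∀ m ≠ 0, Finite (tor m A)) :
    (mu p A).relIndex A ≠ 0 ∧ Ψ.sq a A (mu p A) + Ψ.ch (1 : G →* (ZMod p)ˣ) =
      Ψ _ (fa π (1 : G →* (ZMod p)ˣ)) + Ψ.sq a (tor p A) ⊥ := by
  classical
  have pp : p.Prime := Fact.out
  let φ : (I → ℤ) →+ M := AddMonoidHom.mk' (fun a => ∑ i, a i • y i) fun a b => by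
    simp only [Pi.add_apply, add_smul, Finset.sum_add_distrib]
  let s : (I → ℤ) →+ ℤ := AddMonoidHom.mk' (fun a => ∑ i, a i) fun a b => by
    simp only [Pi.add_apply, Finset.sum_add_distrib]
  let s' : (I → ZMod p) →+ (Unit → ZMod p) := AddMonoidHom.mk' (fun a _ => ∑ i, a i) fun a b =>
    funext fun _ => by simp only [Pi.add_apply, Finset.sum_add_distrib]
  let r : (I → ℤ) →+ (I → ZMod p) := AddMonoidHom.mk' (fun a i => (a i : ZMod p)) fun a b =>
    funext fun i => by simp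
  have hφ : ∀ g c, φ (pz π g c) = a g (φ c) := fun g c => by
    show ∑ i, c (π g⁻¹ i) • y i = a g (∑ i, c i • y i)
    rw [← Equiv.sum_comp (π g), map_sum]
    exact Finset.sum_congr rfl fun i _ => by rw [perm_inv, hy g i, map_zsmul]
  have hs : ∀ g c, s (pz π g c) = s c := fun g c => Equiv.sum_comp (π g⁻¹) c
  have hs' : ∀ g c, s' (fa π 1 g c) = fa (1 : G →* Equiv.Perm Unit) 1 g (s' c) := fun g c =>
    funext fun _ => by
      show ∑ i, ((1 : (ZMod p)ˣ) : ZMod p) * c (π g⁻¹ i) = ((1 : (ZMod p)ˣ) : ZMod p) * ∑ i, c i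
      rw [← Finset.mul_sum, Equiv.sum_comp (π g⁻¹) c]
  have rs : ∀ c u, s' (r c) u = (s c : ZMod p) := fun c _ => (Int.cast_sum _ _).symm
  have s0 : St (pz π) s.ker := fun g a ha => (hs g a).trans ha
  have s0' : St (fa π (1 : G →* (ZMod p)ˣ)) s'.ker := fun g c hc => by
    show s' _ = 0
    rw [hs', show s' c = 0 from hc, map_zero]
  have s1 : St a (s.ker.map φ) := by
    rintro g _ ⟨a, ha, rfl⟩
    exact ⟨_, s0 g a ha, hφ g a⟩
  have le : s.ker.map φ ≤ A := by
    rintro _ ⟨c, -, rfl⟩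
    exact A.sum_mem fun i _ => A.zsmul_mem (yA i) _
  have inj : ∀ a ∈ s.ker, φ a = 0 → a = 0 := fun a ha e0 => by
    obtain ⟨c, rfl⟩ := (hr a).1 e0
    have : s (c • e) = 0 := ha
    rw [map_zsmul, smul_eq_mul] at this
    rw [(mul_eq_zero.1 this).resolve_right he, zero_smul]
  have t0 : tor p (s.ker.map φ) = ⊥ := by
    rw [eq_bot_iff]
    rintro _ ⟨⟨a, ha, rfl⟩, e0⟩
    have := inj (p • a) (s.ker.nsmul_mem ha p) (by rw [map_nsmul]; exact e0)
    rw [(smul_eq_zero.1 this).resolve_left pp.ne_zero, map_zero]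
    exact zero_mem _
  have fg0 : s.ker.FG := by
    have := IsNoetherian.noetherian (AddSubgroup.toIntSubmodule s.ker)
    exact (Submodule.fg_iff_addSubgroup_fg _).1 this
  have fg1 : (s.ker.map φ).FG := by
    obtain ⟨t, ht⟩ := fg0
    exact ⟨t.image φ, by rw [Finset.coe_image, ← AddMonoidHom.map_closure, ht]⟩
  have n0 : (s e).natAbs * n ≠ 0 := mul_ne_zero (Int.natAbs_ne_zero.2 he) hn
  have i1 : (s.ker.map φ).relIndex A ≠ 0 := rel_of fg1 n0 (fun z hz => by
    obtain ⟨a, ha⟩ := hf z hz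
    have k1 : s e • n • z ∈ s.ker.map φ := ⟨s e • a - s a • e, by
      show s _ = 0
      rw [map_sub, map_zsmul, map_zsmul, smul_eq_mul, smul_eq_mul, mul_comm, sub_self], by
      rw [map_sub, map_zsmul, map_zsmul, show φ e = 0 from (hr e).2 ⟨1, (one_smul _ _).symm⟩,
        smul_zero, sub_zero, show φ a = n • z from ha]⟩
    rw [mul_smul, ← natCast_zsmul]
    rcases Int.natAbs_eq (s e) with c | c
    · rwa [← c]
    · rw [c, neg_smul] at k1
      exact neg_mem_iff.1 k1) (ht _ n0) le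
  have m1 := rel_mu fg1 pp.ne_zero
  have e1 := lat pp h s1 hA le i1 hu m1 (by rw [t0]; infer_instance)
  have tu : ∀ u ∈ U, ∀ m ∈ s.ker, pz π u m - m ∈ mu p s.ker := fun u k m _ => by
    rw [show pz π u m = m from funext fun i => congrArg m (hI _ (U.inv_mem k) i), sub_self]
    exact zero_mem _
  have sat : ∀ c : I → ℤ, p • c ∈ s.ker → c ∈ s.ker := fun c hc => by
    have : s (p • c) = 0 := hc
    rw [map_nsmul] at this
    exact (smul_eq_zero.1 this).resolve_left pp.ne_zero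
  have e2 : Ψ.sq (pz π) s.ker (mu p s.ker) = Ψ.sq a (s.ker.map φ) (mu p (s.ker.map φ)) :=
    trans' h φ (st_mu s0 p) (st_mu s1 p) s1 s0 (fun g c _ => hφ g c) (fun c hc => ⟨c, hc, rfl⟩)
      (by
        rintro _ ⟨c, hc, rfl⟩
        exact ⟨c, hc, by rw [sub_self]; exact zero_mem _⟩)
      (fun c hc => ⟨by
        rintro ⟨_, ⟨d, hd, rfl⟩, e0⟩
        refine ⟨d, hd, sub_eq_zero.1 (inj _ (s.ker.sub_mem (s.ker.nsmul_mem hd p) hc) ?_)⟩
        rw [map_sub]
        exact sub_eq_zero.2 ((map_nsmul φ p d).trans e0), by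
        rintro ⟨d, hd, rfl⟩
        exact ⟨_, ⟨d, hd, rfl⟩, (map_nsmul φ p d).symm⟩⟩)
      (rel_mu fg0 pp.ne_zero) (fun m hm => ⟨m, hm, rfl⟩) tu
  obtain ⟨i0, -, -⟩ := Finset.exists_ne_zero_of_sum_ne_zero he
  have ss : ∀ t : ℤ, s (Pi.single i0 t) = t := fun t => by
    show ∑ j, (Pi.single i0 t : I → ℤ) j = t
    simp
  have e3 : Ψ.sq (pz π) s.ker (mu p s.ker) = Ψ.sq (fa π (1 : G →* (ZMod p)ˣ)) s'.ker ⊥ :=
    trans' h r (st_mu s0 p) st_bot s0' s0 (fun g c _ => funext fun i => (one_mul _).symm)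
      (fun c hc => funext fun u => by rw [rs, show s c = 0 from hc]; simp)
      (fun f hf => by
        let c : I → ℤ := fun i => ((f i).val : ℤ)
        have rc : r c = f := funext fun i => by
          show (((f i).val : ℤ) : ZMod p) = f i
          simp
        have h0 : (s c : ZMod p) = 0 := by
          rw [← rs c (), rc]; exact congrFun (show s' f = 0 from hf) ()
        refine ⟨c - Pi.single i0 (s c), by
          show s _ = 0
          rw [map_sub, ss, sub_self], ?_⟩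
        rw [map_sub, rc, sub_sub_cancel_left, neg_mem_iff]
        refine funext fun i => ?_
        show (((Pi.single i0 (s c) : I → ℤ) i : ℤ) : ZMod p) = 0
        rw [Pi.single_apply]
        split_ifs
        · exact h0
        · simp)
      (fun c hc => ⟨fun e0 => by
        have : ∀ i, ∃ t, c i = p * t := fun i =>
          (ZMod.intCast_zmod_eq_zero_iff_dvd _ _).1 (congrFun (AddSubgroup.mem_bot.1 e0) i)
        choose d hd using this
        have e' : p • d = c := funext fun i => by rw [hd i]; simp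
        exact ⟨d, sat d (e' ▸ hc), e'⟩, by
        rintro ⟨d, -, rfl⟩
        show r (p • d) = 0
        rw [map_nsmul, p_fun]⟩)
      (rel_mu fg0 pp.ne_zero) (fun m hm => ⟨m, hm, rfl⟩) tu
  have hM := md_fa (π := π) (χ := (1 : G →* (ZMod p)ˣ)) (fun _ _ => rfl) hI
  have e4 := chain h st_bot s0' st_top bot_le le_top (rel_fin _ _) (fun f _ => p_fun f)
    fun u hu f _ => sub_eq_zero.2 (hM.trv u hu f)
  have e5 : Ψ.sq (fa π (1 : G →* (ZMod p)ˣ)) ⊤ s'.ker = Ψ.ch (1 : G →* (ZMod p)ˣ) :=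
    trans' h s' s0' st_bot st_top st_top (fun g c _ => hs' g c) (fun _ _ => trivial)
      (fun f _ => ⟨Pi.single i0 (f ()), trivial, sub_eq_zero.2 (funext fun u => by
        show ∑ j, (Pi.single i0 (f ()) : I → ZMod p) j = f ()
        simp)⟩) (fun _ _ => Iff.rfl) (rel_fin _ _)
      (fun f _ => by rw [p_fun]; exact zero_mem _) fun u hu f _ => by
        rw [hM.trv u hu f, sub_self]; exact zero_mem _
  rw [t0, self h st_bot] at e1
  rw [top_bot h hM] at e4
  exact ⟨rel_mono (AddSubgroup.relIndex_ne_zero_trans m1 i1) (mu_mono p le) le_rfl, by omega⟩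

end

end Vale.Agent.P022K.GW.Cal
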