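import Vale.Agent.P022K.GW.Kum
import Vale.Agent.P022K.GW.Tws
import Vale.Agent.P022K.GW.Cor
import Vale.Agent.P022E.GW.Lat

/-!
# P022K, block GW: the class of the global characters (row `GCL`)
-/

set_option linter.all false

noncomputable section

namespace Vale.Agent.P022K.GW

open NumberField IsDedekindDomain
open scoped Pointwise
open Vale.Agent.P022 Vale.Agent.P022.C Vale.Agent.P022.H916
open Vale.Agent.P022E.GW (Ov Ch)
open Vale.Agent.P011.ArP (Mu Pw)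
open Vale.Agent.P027M.S (Inert)
open Vale.Agent.P027M.S.Cls (ordv_mul ordv_zpow ordv_pow unit_of)
open Vale.Agent.P022D.Sel (mv Big)
open Vale.Agent.P022D.Sel.Ux (gens ord_c c_mul c_one val_unit)

namespace Gcl

open Cal

variable {G : Type} [Group G] {p : ℕ} [Fact p.Prime] {U : Subgroup G} {Ψ : AF G}
  {L : Type} [Field L] [NumberField L]

/-- the primes of `L` -/
abbrev PL (L : Type) [Field L] : Type := HeightOneSpectrum (𝓞 L)

/-- the element of `L` -/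
def el (x : Additive Lˣ) : L := (Additive.toMul x : Lˣ)

theorem el_ne (x : Additive Lˣ) : el x ≠ 0 := Units.ne_zero _

theorem el_inj {x y : Additive Lˣ} (h : el x = el y) : x = y :=
  Additive.toMul.injective (Units.ext h)

theorem el_nsmul (n : ℕ) (x : Additive Lˣ) : el (n • x) = el x ^ n := by
  rw [el, toMul_nsmul, Units.val_pow_eq_pow_val]; rfl

/-- the order at `w` -/
def od (w : PL L) : Additive Lˣ →+ ℤ :=
  AddMonoidHom.mk' (fun x => ordv w (el x)) fun x y => ordv_mul w (el_ne x) (el_ne y)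

/-- the units outside `S` -/
def ES (S : Set (PL L)) : AddSubgroup (Additive Lˣ) where
  carrier := {x | ∀ w ∉ S, od w x = 0}
  add_mem' ha hb w hw := by rw [map_add, ha w hw, hb w hw, add_zero]
  zero_mem' w _ := map_zero _
  neg_mem' ha w hw := by rw [map_neg, ha w hw, neg_zero]

/-- the action on the multiplicative group -/
def aL (r : G →* (L ≃ₐ[ℚ] L)) : Ac G (Additive Lˣ) where
  toFun g := MonoidHom.toAdditive (Units.map ((r g).toRingEquiv : L →* L))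
  map_one' := AddMonoidHom.ext fun x => el_inj (by rw [map_one]; rfl)
  map_mul' g h := AddMonoidHom.ext fun x => el_inj (by rw [map_mul]; rfl)

theorem el_aL (r : G →* (L ≃ₐ[ℚ] L)) (g : G) (x : Additive Lˣ) : el (aL r g x) = r g (el x) := rfl

theorem mv_one (w : PL L) : mv (1 : L ≃ₐ[ℚ] L).toRingEquiv w = w := c_one (K := ℚ) w

theorem mv_mul (σ τ : L ≃ₐ[ℚ] L) (w : PL L) :
    mv (σ * τ).toRingEquiv w = mv σ.toRingEquiv (mv τ.toRingEquiv w) :=
  HeightOneSpectrum.ext (Ideal.ext fun _ => Iff.rfl)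

theorem od_aL (r : G →* (L ≃ₐ[ℚ] L)) (g : G) (w : PL L) (x : Additive Lˣ) :
    od (mv (r g).toRingEquiv w) (aL r g x) = od w x := by
  show ordv _ (r g (el x)) = ordv w (el x)
  rw [ord_c]
  congr 1
  exact HeightOneSpectrum.ext (Ideal.ext fun y => by
    show RingOfIntegers.mapRingEquiv (r g).toRingEquiv.symm
      (RingOfIntegers.mapRingEquiv (r g).toRingEquiv y) ∈ w.asIdeal ↔ _
    rw [show RingOfIntegers.mapRingEquiv (r g).toRingEquiv.symm
      (RingOfIntegers.mapRingEquiv (r g).toRingEquiv y) = y from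
        RingOfIntegers.ext ((r g).symm_apply_apply _)])

/-- the action on a stable set of primes -/
def pS (r : G →* (L ≃ₐ[ℚ] L)) {S : Set (PL L)} (h : ∀ g, ∀ w ∈ S, mv (r g).toRingEquiv w ∈ S) :
    G →* Equiv.Perm S where
  toFun g :=
    { toFun := fun w => ⟨_, h g _ w.2⟩
      invFun := fun w => ⟨_, h g⁻¹ _ w.2⟩
      left_inv := fun w => Subtype.ext (by
        show mv _ (mv _ w.1) = w.1
        rw [← mv_mul, ← map_mul, inv_mul_cancel, map_one, mv_one])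
      right_inv := fun w => Subtype.ext (by
        show mv _ (mv _ w.1) = w.1
        rw [← mv_mul, ← map_mul, mul_inv_cancel, map_one, mv_one]) }
  map_one' := Equiv.ext fun w => Subtype.ext (by
    show mv _ w.1 = w.1
    rw [map_one, mv_one])
  map_mul' g g' := Equiv.ext fun w => Subtype.ext (by
    show mv _ w.1 = mv _ (mv _ w.1)
    rw [map_mul, mv_mul])

/-- the action on the infinite places -/
def pP (r : G →* (L ≃ₐ[ℚ] L)) : G →* Equiv.Perm (InfinitePlace L) :=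
  (MulAction.toPermHom (L ≃ₐ[ℚ] L) (InfinitePlace L)).comp r

theorem st_ES (r : G →* (L ≃ₐ[ℚ] L)) {S : Set (PL L)}
    (h : ∀ g, ∀ w ∈ S, mv (r g).toRingEquiv w ∈ S) : St (aL r) (ES S) := fun g x hx w hw => by
  have e : w = mv (r g).toRingEquiv (mv (r g⁻¹).toRingEquiv w) := by
    rw [← mv_mul, ← map_mul, mul_inv_cancel, map_one, mv_one]
  rw [e, od_aL]
  exact hx _ fun k => hw (e ▸ h g _ k)

theorem fin_tor {m : ℕ} (hm : m ≠ 0) (A : AddSubgroup (Additive Lˣ)) : Finite (tor m A) := by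
  classical
  refine Set.Finite.to_subtype (Set.Finite.of_finite_image (f := el)
    ((Polynomial.nthRoots m (1 : L)).toFinset.finite_toSet.subset ?_) fun a _ b _ h => el_inj h)
  rintro _ ⟨z, hz, rfl⟩
  rw [Finset.mem_coe, Multiset.mem_toFinset, Polynomial.mem_nthRoots hm.bot_lt, ← el_nsmul,
    (mem_tor.1 hz).2]
  rfl

/-- global units -/
def un : Additive (𝓞 L)ˣ →+ Additive Lˣ :=
  MonoidHom.toAdditive (Units.map (algebraMap (𝓞 L) L : 𝓞 L →* L))

theorem od_un (w : PL L) (ε : Additive (𝓞 L)ˣ) : od w (un ε) = 0 := by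
  show ordv w (((Additive.toMul ε : (𝓞 L)ˣ) : 𝓞 L) : L) = 0
  rw [ordv, val_unit]; rfl

/-- **the unit theorem** -/
theorem unit_cnt (h : Ψ.Add p U) (r : G →* (L ≃ₐ[ℚ] L)) (hU : ∀ u ∈ U, r u = 1) {J : Type}
    [Finite J] (π : G →* Equiv.Perm J) (v : J → PL L) (inj : Function.Injective v)
    (hv : ∀ g i, v (π g i) = mv (r g).toRingEquiv (v i)) :
    (mu p (ES (Set.range v))).relIndex (ES (Set.range v)) ≠ 0 ∧
      Ψ.sq (aL r) (ES (Set.range v)) (mu p (ES (Set.range v))) + Ψ.ch (1 : G →* (ZMod p)ˣ) =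
        Ψ _ (fa π (1 : G →* (ZMod p)ˣ)) + Ψ _ (fa (pP r) (1 : G →* (ZMod p)ˣ)) +
          Ψ.sq (aL r) (tor p (ES (Set.range v))) ⊥ := by
  classical
  haveI := Fintype.ofFinite J
  obtain ⟨u, hu, hfi, e, e0, -, hrel⟩ := P022E.GW.Lt.mink (K := ℚ) (L := L)
  obtain ⟨n, y, n0, y0, hy, hτ⟩ := gens (K := ℚ) (L := L)
  let Y : J → Additive Lˣ := fun i => Additive.ofMul (Units.mk0 (y (v i)) (y0 _))
  let V : InfinitePlace L → Additive Lˣ := fun w => un (Additive.ofMul (u w))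
  have oY : ∀ w i, od w (Y i) = if w = v i then (n : ℤ) else 0 := fun w i => hy _ w
  have oS : ∀ (a : J → ℤ) i, od (v i) (∑ i, a i • Y i) = a i * n := fun a i => by
    simp only [map_sum, map_zsmul, oY, inj.eq_iff]
    simp
  have sV : ∀ b : InfinitePlace L → ℤ, ∑ w, b w • V w = un (Additive.ofMul (∏ w, u w ^ b w)) :=
    fun b => by
      rw [ofMul_prod, map_sum]
      simp only [ofMul_zpow, map_zsmul, V]
  have hJ : ∀ u ∈ U, ∀ i, π u i = i := fun u k i => inj (by rw [hv, hU u k, mv_one])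
  have hP : ∀ u ∈ U, ∀ w, pP r u w = w := fun u k w => by
    show r u • w = w
    rw [hU u k, one_smul]
  have YA : ∀ i, Y i ∈ ES (Set.range v) := fun i w hw => by
    rw [oY, if_neg fun k => hw ⟨i, k.symm⟩]
  rw [← fa_sm h (fun _ _ => rfl) hJ hP]
  refine perm h (st_ES r ?_) (fun u k m _ => el_inj (by rw [el_aL, hU u k]; rfl)) (sm π (pP r))
    (sm_triv hJ hP) (Sum.elim Y V) ?_ ?_ (Sum.elim 0 e) ?_ (fun c => ⟨fun k => ?_, ?_⟩)
    (mul_ne_zero hfi.index_ne_zero n0) (fun z hz => ?_) fun m hm => fin_tor hm _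
  · rintro g _ ⟨i, rfl⟩
    exact ⟨_, hv g i⟩
  · rintro (i | w)
    · exact YA i
    · exact fun w' _ => od_un _ _
  · rintro g (i | w)
    · refine el_inj ?_
      show y (v (π g i)) = r g (y (v i))
      rw [hτ, hv]; rfl
    · exact el_inj (hu (r g) w)
  · rw [Fintype.sum_sum_type]
    simp only [Sum.elim_inl, Sum.elim_inr, Pi.zero_apply, Finset.sum_const_zero, zero_add]
    exact (Finset.sum_pos (fun w _ => e0 w) Finset.univ_nonempty).ne'
  · rw [Fintype.sum_sum_type] at k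
    simp only [Sum.elim_inl, Sum.elim_inr] at k
    have ha : ∀ i, c (Sum.inl i) = 0 := fun i => by
      have := congrArg (od (v i)) k
      rw [sV, map_add, oS, od_un, add_zero, map_zero] at this
      exact (mul_eq_zero.1 this).resolve_right (Int.natCast_ne_zero.2 n0)
    simp only [ha, zero_smul, Finset.sum_const_zero, zero_add] at k
    rw [sV] at k
    obtain ⟨t, ht⟩ := (hrel fun w => c (Sum.inr w)).1
      (Units.ext (RingOfIntegers.coe_injective (congrArg el k)))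
    refine ⟨t, funext ?_⟩
    rintro (i | w)
    · simp [ha]
    · exact congrFun ht w
  · rintro ⟨t, rfl⟩
    rw [Fintype.sum_sum_type]
    simp only [Sum.elim_inl, Sum.elim_inr, Pi.smul_apply, Pi.zero_apply, smul_zero, zero_smul,
      Finset.sum_const_zero, zero_add]
    rw [sV, (hrel fun w => t • e w).2 ⟨t, rfl⟩]
    exact map_zero un
  · obtain ⟨ε, hε⟩ := unit_of (el_ne (n • z - ∑ i, od (v i) z • Y i)) fun w => by
      change od w _ = 0
      by_cases hw : w ∈ Set.range v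
      · obtain ⟨i, rfl⟩ := hw
        rw [map_sub, oS, map_nsmul]
        simp [mul_comm]
      · have k : n • z - ∑ i, od (v i) z • Y i ∈ ES (Set.range v) :=
          sub_mem (nsmul_mem hz n) (sum_mem fun i _ => zsmul_mem (YA i) _)
        exact k w hw
    obtain ⟨b, hb⟩ := Subgroup.mem_closure_range_iff_of_fintype.1
      ((Subgroup.closure (Set.range u)).pow_index_mem ε)
    refine ⟨Sum.elim (fun i => ((Subgroup.closure (Set.range u)).index : ℤ) * od (v i) z) b, ?_⟩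
    have h1 : un (Additive.ofMul ε) = n • z - ∑ i, od (v i) z • Y i := el_inj hε
    rw [Fintype.sum_sum_type]
    simp only [Sum.elim_inl, Sum.elim_inr]
    rw [sV, ← hb, ofMul_pow, map_nsmul, h1, mul_smul, nsmul_sub, ← Finset.sum_nsmul]
    simp only [mul_zsmul, natCast_zsmul]
    abel

theorem pw_nat {F : Type} [Monoid F] {ζ : F} (hζ : ζ ^ p = 1) (n : ℕ) :
    ζ ^ (n : ZMod p).val = ζ ^ n := by
  rw [ZMod.val_natCast]
  exact (pow_eq_pow_mod _ hζ).symm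

/-- the roots of unity -/
theorem tor_ch (h : Ψ.Add p U) (r : G →* (L ≃ₐ[ℚ] L)) (M : Mu p L) {ω : G →* (ZMod p)ˣ}
    (hω : ∀ u ∈ U, ω u = 1) (hr : ∀ g, r g M.ζ = M.ζ ^ (ω g : ZMod p).val) {S : Set (PL L)}
    (hS : St (aL r) (ES S)) : Ψ.ch ω = Ψ.sq (aL r) (tor p (ES S)) ⊥ := by
  have pp : p.Prime := Fact.out
  have z1 := M.prim.pow_eq_one
  let z : Additive Lˣ := Additive.ofMul (Units.mk0 M.ζ (M.prim.ne_zero pp.ne_zero))
  have ez : ∀ n : ℕ, el (n • z) = M.ζ ^ n := fun n => el_nsmul n z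
  let f : (Unit → ZMod p) →+ Additive Lˣ := AddMonoidHom.mk' (fun x => (x ()).val • z) fun x y =>
    el_inj (by
      show _ = el ((x ()).val • z) * el ((y ()).val • z)
      rw [ez, ez, ez, Pi.add_apply, ZMod.val_add, ← pow_add]
      exact (pow_eq_pow_mod _ z1).symm)
  have ef : ∀ x, el (f x) = M.ζ ^ (x ()).val := fun x => ez _
  have hM := md_fa (U := U) (π := (1 : G →* Equiv.Perm Unit)) hω fun _ _ _ => rfl
  refine trans' h f st_bot st_bot (st_tor hS p) st_top (fun g x _ => el_inj ?_) (fun x _ => ?_)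
    (fun y hy => ?_) (fun x _ => ⟨fun e => funext fun u => ?_, fun e => ?_⟩) (rel_fin _ _)
    (fun x _ => p_fun x) fun u hu x _ => sub_eq_zero.2 (hM.trv u hu x)
  · rw [el_aL, ef, ef, map_pow, hr, fa_ap, ZMod.val_mul, ← pow_mul]
    exact (pow_eq_pow_mod _ z1).symm
  · have e : p • f x = 0 := by rw [← map_nsmul, p_fun, map_zero]
    refine ⟨fun w _ => ?_, e⟩
    have := congrArg (od w) e
    rw [map_nsmul, map_zero] at this
    exact (smul_eq_zero.1 this).resolve_left pp.ne_zero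
  · obtain ⟨i, -, e⟩ := M.prim.eq_pow_of_pow_eq_one (ξ := el y) (by
      rw [← el_nsmul, (mem_tor.1 hy).2]; rfl)
    exact ⟨fun _ => i, trivial, sub_eq_zero.2 (el_inj (by rw [ef, pw_nat z1, e]))⟩
  · have := congrArg el (AddSubgroup.mem_bot.1 e)
    rw [ef] at this
    exact (ZMod.val_eq_zero _).1 (Nat.eq_zero_of_dvd_of_lt
      ((M.prim.pow_eq_one_iff_dvd _).1 this) (ZMod.val_lt _))
  · rw [AddSubgroup.mem_bot.1 e, map_zero]; exact zero_mem _

/-- a character which vanishes on an open subgroup -/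
theorem ch_open {Δ V : Subgroup GQ} {φ : GQ → ZMod p}
    (ha : ∀ g ∈ Δ, ∀ h ∈ Δ, φ (g * h) = φ g + φ h) (hV : IsOpen (V : Set GQ))
    (h0 : ∀ g ∈ V, g ∈ Δ → φ g = 0) : Ch Δ φ := by
  refine ⟨(IsLocallyConstant.iff_exists_open _).2 fun g => ⟨(fun u : Δ => (g : GQ)⁻¹ * u) ⁻¹' V,
    hV.preimage (by fun_prop), by simp [V.one_mem], fun y hy => ?_⟩, fun g g' => ha g g.2 g' g'.2⟩
  have k := Δ.mul_mem (Δ.inv_mem g.2) y.2
  have := ha g g.2 _ k
  rwa [mul_inv_cancel_left, h0 _ hy k, add_zero] at this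

section

variable (ι : G →* GQ) (U) (M : Mu p L) {j : L →+* Qb} (hj : ∀ g, ι g ∈ GK j ↔ g ∈ U)

open Classical in
/-- the Kummer map -/
def ka : Additive Lˣ →+ (G → ZMod p) :=
  AddMonoidHom.mk' (fun b g => if g ∈ U then (Kum.ex M j (Additive.toMul b)).choose (ι g) else 0)
    fun b b' => funext fun g => by
      by_cases hg : g ∈ U
      · simp only [Pi.add_apply, if_pos hg]
        exact Kum.uniq (Kum.ex M j _).choose_spec
          (Kum.mul (Kum.ex M j _).choose_spec (Kum.ex M j _).choose_spec) ((hj g).2 hg)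
      · simp only [Pi.add_apply, if_neg hg, add_zero]

variable {ι U M}

theorem ka_pos {b : Additive Lˣ} {f : GQ → ZMod p} (h : Km M j (Additive.toMul b) f) {g : G}
    (hg : g ∈ U) : ka U ι M hj b g = f (ι g) :=
  (if_pos hg).trans (Kum.uniq (Kum.ex M j _).choose_spec h ((hj g).2 hg))

theorem ka_neg (b : Additive Lˣ) {g : G} (hg : g ∉ U) : ka U ι M hj b g = 0 := if_neg hg

theorem ka_aL [U.Normal] {r : G →* (L ≃ₐ[ℚ] L)} {ω : G →* (ZMod p)ˣ}
    (hr : ∀ g x, j (r g x) = ι g (j x)) (hz : ∀ g, r g M.ζ = M.ζ ^ (ω g : ZMod p).val) (g : G)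
    (b : Additive Lˣ) : ka U ι M hj (aL r g b) = fa (cj G) ω g (ka U ι M hj b) := by
  funext h
  obtain ⟨f, hf⟩ := Kum.ex M j (Additive.toMul b)
  rw [fa_ap, cj_apply, inv_inv]
  by_cases hh : h ∈ U
  · rw [ka_pos hj (b := aL r g b) (Kum.conj (τ := (r g).toRingEquiv) (hr g) (hz g) hf) hh,
      ka_pos hj hf (Subgroup.Normal.conj_mem' inferInstance h hh g), map_mul, map_mul, map_inv]
  · rw [ka_neg hj _ hh, ka_neg hj _ fun k => hh ?_, mul_zero]
    simpa [mul_assoc] using Subgroup.Normal.conj_mem inferInstance _ k g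

theorem ka_zero (hs : ∀ h ∈ GK j, ∃ g, ι g = h) {S : Set (PL L)} {b : Additive Lˣ} (hb : b ∈ ES S) :
    ka U ι M hj b = 0 ↔ b ∈ mu p (ES S) := by
  refine ⟨fun e => ?_, ?_⟩
  · obtain ⟨f, hf⟩ := Kum.ex M j (Additive.toMul b)
    obtain ⟨y, hy⟩ := (Kum.triv hf).1 fun h hh => by
      obtain ⟨g, rfl⟩ := hs h hh
      rw [← ka_pos hj hf ((hj g).1 hh), e]; rfl
    have e' : p • Additive.ofMul y = b := congrArg Additive.ofMul hy
    refine ⟨Additive.ofMul y, fun w hw => ?_, e'⟩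
    have := hb w hw
    rw [← e', map_nsmul] at this
    exact (smul_eq_zero.1 this).resolve_left (Fact.out : p.Prime).ne_zero
  · rintro ⟨y, -, rfl⟩
    exact (map_nsmul _ p y).trans (p_fun _)

end

section

variable {ι : G →* GQ} {j : L →+* Qb} {r : G →* (L ≃ₐ[ℚ] L)}
  {dn : ∀ (l : ℕ) (P : Id), Ov l P → PL L}

/-- the primes of `L` below `A` -/
def SA (dn : ∀ (l : ℕ) (P : Id), Ov l P → PL L) (A : Set Id) : Set (PL L) :=
  {w | ∃ l P h, P ∈ A ∧ dn l P h = w}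

theorem sa_st (h4 : ∀ l P h g, dn l (ι g • P) (ov_smul h (ι g)) = mv (r g).toRingEquiv (dn l P h))
    {A : Set Id} (hA : Stb ι A) : ∀ g, ∀ w ∈ SA dn A, mv (r g).toRingEquiv w ∈ SA dn A := by
  rintro g _ ⟨l, P, h, hP, rfl⟩
  exact ⟨l, _, _, hA g P hP, h4 l P h g⟩

theorem sa_mem (h3 : ∀ l P h l' P' h', dn l P h = dn l' P' h' ↔ ∃ u ∈ U, ι u • P = P')
    {A : Set Id} (hA : Stb ι A) {l : ℕ} {P : Id} (h : Ov l P) : dn l P h ∈ SA dn A ↔ P ∈ A := by
  refine ⟨?_, fun k => ⟨l, P, h, k, rfl⟩⟩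
  rintro ⟨l', P', h', k, e⟩
  obtain ⟨u, -, rfl⟩ := (h3 _ _ _ _ _ _).1 e
  exact hA u P' k

/-- functions on the primes of a stable set -/
theorem sa_fu [U.Normal] (h3 : ∀ l P h l' P' h', dn l P h = dn l' P' h' ↔ ∃ u ∈ U, ι u • P = P')
    (h4 : ∀ l P h g, dn l (ι g • P) (ov_smul h (ι g)) = mv (r g).toRingEquiv (dn l P h))
    {A : Set Id} (hA : Stb ι A) (hp : ∀ P ∈ A, ∃ l, Ov l P) (hf : Fo (pm ι hA)) :
    Finite (SA dn A) ∧ ∀ Ψ : AF G, Ψ.Add p U → ∀ χ : G →* (ZMod p)ˣ, (∀ u ∈ U, χ u = 1) →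
      Ψ.fu (pm ι hA) U χ = Ψ _ (fa (pS r (sa_st h4 hA)) χ) := by
  choose l hl using fun P : A => hp P P.2
  let d : A → SA dn A := fun P => ⟨dn _ _ (hl P), _, _, _, P.2, rfl⟩
  have hs : Function.Surjective d := by
    rintro ⟨_, l', P, h, k, rfl⟩
    exact ⟨⟨P, k⟩, Subtype.ext ((h3 _ _ _ _ _ _).2 ⟨1, U.one_mem, by rw [map_one, one_smul]⟩)⟩
  have he : ∀ g P, d (pm ι hA g P) = pS r (sa_st h4 hA) g (d P) := fun g P => Subtype.ext
    (((h3 _ _ _ _ _ _).2 ⟨1, U.one_mem, by rw [map_one, one_smul]; rfl⟩).trans (h4 _ _ (hl P) g))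
  haveI : Finite (SA dn A) := by
    obtain ⟨s, hs'⟩ := hf
    refine (((s.finite_toSet.prod Set.finite_univ).image fun x : A × (L ≃ₐ[ℚ] L) =>
      mv x.2.toRingEquiv (d x.1).1).subset fun w hw => ?_).to_subtype
    obtain ⟨P, e⟩ := hs ⟨w, hw⟩
    obtain ⟨y, hy, g, rfl⟩ := hs' P
    rw [he] at e
    exact ⟨(y, r g), ⟨hy, trivial⟩, congrArg Subtype.val e⟩
  exact ⟨this, fun Ψ h χ hχ => (fu_eq h _ d hs he (fun P P' => Subtype.ext_iff.trans
    ((h3 _ _ _ _ _ _).trans (exists_congr fun u => and_congr_right fun _ =>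
      ⟨fun e => Subtype.ext e, fun e => congrArg Subtype.val e⟩))) hχ).1⟩

/-- functions on the infinite places -/
theorem inf_fu [U.Normal] (hr : ∀ g x, j (r g x) = ι g (j x))
    (h6 : ∀ φ : L →+* ℂ, ∃ Φ : Qb →+* ℂ, Φ.comp j = φ)
    (h8 : ∀ v v' : InfinitePlace Qb, v.comap j = v'.comap j ↔ ∃ u ∈ U, pI ι u v = v')
    (h : Ψ.Add p U) {χ : G →* (ZMod p)ˣ} (hχ : ∀ u ∈ U, χ u = 1) :
    Ψ.fu (pI ι) U χ = Ψ _ (fa (pP r) χ) := by
  refine (fu_eq h _ (fun v => v.comap j) (fun w => ?_) (fun g v => ?_) h8 hχ).1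
  · obtain ⟨Φ, e⟩ := h6 w.embedding
    exact ⟨InfinitePlace.mk Φ, (InfinitePlace.comap_mk _ _).trans (by
      rw [e, InfinitePlace.mk_embedding])⟩
  · refine InfinitePlace.ext _ _ fun x => ?_
    show v ((ι g).symm (j x)) = v (j ((r g).symm x))
    congr 1
    rw [AlgEquiv.symm_apply_eq, ← hr, AlgEquiv.apply_symm_apply]

variable [TopologicalSpace G] [IsTopologicalGroup G] [CompactSpace G] {M : Mu p L}

/-- the Kummer characters of the units -/
theorem ka_mem (hK : KUM2) (hι : Continuous ι) (ho : IsOpen (U : Set G))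
    (hj : ∀ g, ι g ∈ GK j ↔ g ∈ U) (h1 : ∀ l P h, below j P = (dn l P h).asIdeal)
    (h3 : ∀ l P h l' P' h', dn l P h = dn l' P' h' ↔ ∃ u ∈ U, ι u • P = P') {A : Set Id}
    (hA : Stb ι A) (hp : ∀ P, Ov p P → P ∈ A) (hc : ∀ g, ∀ i ∈ In ι A, g * i * g⁻¹ ∈ In ι A)
    (hU : ∀ i ∈ In ι A, i ∈ U) {b : Additive Lˣ} (hb : b ∈ ES (SA dn A)) :
    ka U ι M hj b ∈ Gl p (In ι A) U := by
  obtain ⟨f, hf⟩ := Kum.ex M j (Additive.toMul b)
  have hf' := hf
  obtain ⟨β, b1, b2⟩ := hf'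
  have key : ∀ g ∈ U, ι g β = β ↔ f (ι g) = 0 := fun g hg => by
    rw [b2 _ ((hj g).2 hg), mul_eq_right₀ (Kum.root_ne b1)]
    exact ⟨fun e => Kum.pw_inj (Kum.prim M j) (by rw [e]; simp), fun e => by rw [e]; simp⟩
  have ad := ad_core (W := U ⊓ (MulAction.stabilizer GQ β).comap ι) hc
    (ho.inter ((P022E.GW.Kc.stab_open β).preimage hι)) fun i hi => ⟨hU i hi, by
      obtain ⟨l, P, h, hP, k⟩ := id hi
      obtain ⟨τ, -, -, t⟩ := hK p L M j l P _ h (fun e => hP (hp P (e ▸ h))) (h1 l P h)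
      obtain ⟨t1, t2⟩ := t _ f hf
      refine (key i (hU i hi)).2 (t2 ?_ _ ((hj i).2 (hU i hi)) k)
      have := hb _ fun e => hP ((sa_mem h3 hA h).1 e)
      exact t1.trans ((congrArg Int.cast this).trans Int.cast_zero)⟩
  refine ⟨fun g hg g' hg' => ?_, fun g hg => ka_neg hj b hg, _, ad, fun w hw => ?_⟩
  · rw [ka_pos hj hf hg, ka_pos hj hf hg', ka_pos hj hf (U.mul_mem hg hg'), map_mul]
    exact (Kum.ch hf).2 ⟨_, (hj g).2 hg⟩ ⟨_, (hj g').2 hg'⟩
  · have := Subgroup.normalCore_le _ hw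
    rw [ka_pos hj hf this.1]
    exact (key w this.1).1 this.2

omit [CompactSpace G] in
/-- every admissible character is the Kummer character of a unit -/
theorem ka_onto (hK : KUM2) (hι : Topology.IsOpenEmbedding ι) (hj : ∀ g, ι g ∈ GK j ↔ g ∈ U)
    (hs : ∀ h ∈ GK j, ∃ g, ι g = h) (h1 : ∀ l P h, below j P = (dn l P h).asIdeal)
    (h2 : ∀ w, ∃ l P h, dn l P h = w) {A : Set Id} (hp : ∀ P, Ov p P → P ∈ A) {T : Finset ℕ}
    (hB : Big L T) (hT : P022D.Sel.ov L T ⊆ SA dn A) {f : G → ZMod p} (hf : f ∈ Gl p (In ι A) U) :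
    ∃ b ∈ ES (SA dn A), ka U ι M hj b = f := by
  classical
  obtain ⟨f1, f2, W, hW, f3⟩ := hf
  let f' : GQ → ZMod p := fun h => f (Function.invFun ι h)
  have e' : ∀ g, f' (ι g) = f g := fun g => congrArg f (Function.leftInverse_invFun hι.injective g)
  obtain ⟨b, hb⟩ := Kum.onto M j (f := f') (ch_open (V := W.map ι) (fun h hh h' hh' => by
    obtain ⟨g, rfl⟩ := hs h hh
    obtain ⟨g', rfl⟩ := hs h' hh'
    rw [← map_mul, e', e', e', f1 g ((hj g).1 hh) g' ((hj g').1 hh')])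
    (hι.isOpenMap _ hW.opn) (by
      rintro _ ⟨w, hw, rfl⟩ -
      rw [e', f3 w hw]))
  have dv : ∀ w ∉ SA dn A, (p : ℤ) ∣ ordv w (b : L) := fun w hw => by
    obtain ⟨l, P, h, rfl⟩ := h2 w
    have hP : P ∉ A := fun k => hw ⟨l, P, h, k, rfl⟩
    obtain ⟨τ, t0, t1, t⟩ := hK p L M j l P _ h (fun e => hP (hp P (e ▸ h))) (h1 l P h)
    obtain ⟨i, rfl⟩ := hs τ t0
    rw [← ZMod.intCast_zmod_eq_zero_iff_dvd, ← (t b f' hb).1, e']
    exact f3 i (hW.inc i ⟨l, P, h, hP, t1⟩)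
  obtain ⟨z, z0, hz⟩ := P022E.GW.Kc.ex_ord hB (P022E.GW.Kc.fin_ord b.ne_zero).toFinset
    fun w => -(ordv w (b : L) / p)
  refine ⟨Additive.ofMul b + p • Additive.ofMul (Units.mk0 z z0), fun w hw => ?_, ?_⟩
  · rw [map_add, map_nsmul]
    show ordv w (b : L) + p • ordv w z = 0
    rw [hz w fun k => hw (hT k)]
    split_ifs with c
    · rw [nsmul_eq_mul, mul_neg, Int.mul_ediv_cancel' (dv w hw), add_neg_cancel]
    · rw [Set.Finite.mem_toFinset, Set.mem_setOf_eq, not_not] at c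
      rw [c, smul_zero, add_zero]
  · rw [map_add, map_nsmul, p_fun, add_zero]
    funext g
    by_cases hg : g ∈ U
    · rw [ka_pos hj (b := Additive.ofMul b) hb hg, e']
    · rw [ka_neg hj _ hg, f2 g hg]

end

theorem st_gl [TopologicalSpace G] [IsTopologicalGroup G] [U.Normal] {I : Set G}
    (χ : G →* (ZMod p)ˣ) : St (fa (cj G) χ) (Gl p I U) := by
  rintro g f ⟨f1, f2, W, hW, f3⟩
  have e : ∀ h, fa (cj G) χ g f h = (χ g : ZMod p) * f (g⁻¹ * h * g) := fun h => by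
    show _ * f (g⁻¹ * h * g⁻¹⁻¹) = _
    rw [inv_inv]
  have m : ∀ h ∈ U, g⁻¹ * h * g ∈ U := fun h hh => Subgroup.Normal.conj_mem' inferInstance h hh g
  refine ⟨fun a ha b hb => ?_, fun a ha => ?_, W, hW, fun w hw => ?_⟩
  · rw [e, e, e, ← mul_add, ← f1 _ (m a ha) _ (m b hb)]
    congr 2
    group
  · rw [e, f2 _ fun k => ha ?_, mul_zero]
    simpa [mul_assoc] using Subgroup.Normal.conj_mem inferInstance _ k g
  · rw [e, f3 _ (hW.cj hw g), mul_zero]

end Gcl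

open Cal Gcl in
theorem gcl (hF : FLD) (hK : KUM2) (hO : OKL) : GCL := by
  intro G _ _ _ _ ι p _ ω T Q hQ U h
  obtain ⟨L, _, _, M, j, r, dn, hj, hB, hr, hz, h1, h2, h3, h4, h5, h6, -, h8⟩ :=
    hF G ι p ω T Q hQ U h
  obtain ⟨o1, o2, o3, o4⟩ := hO G ι p ω T Q hQ U h
  haveI := h.nor
  have hj' : ∀ g, ι g ∈ GK j ↔ g ∈ U := fun g => by
    rw [hj]; exact Subgroup.mem_map_iff_mem h.emb.injective
  have hs : ∀ x ∈ GK j, ∃ g, ι g = x := fun x hx => by
    rw [hj] at hx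
    exact hx.imp fun g hg => hg.2
  have hU : ∀ u ∈ U, r u = 1 := fun u hu => AlgEquiv.ext fun x => j.injective (by
    rw [hr]; exact (hj' u).2 hu x)
  have hA : Stb ι (ov T ∪ Q) := fun g P hP => hP.imp (ov_stb ι T g P) (hQ g P)
  have hp : ∀ P, Ov p P → P ∈ ov T ∪ Q := fun P k => Or.inl ⟨p, h.pT, k⟩
  obtain ⟨fT, eT⟩ := sa_fu (p := p) h3 h4 (ov_stb ι T) (fun P k => k.imp fun _ a => a.2) o2.fin
  obtain ⟨fQ, eQ⟩ := sa_fu (p := p) h3 h4 hQ (fun P k => (h.qp P k).imp fun _ a => a.2) h.qf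
  let v : SA dn (ov T) ⊕ SA dn Q → PL L := Sum.elim Subtype.val Subtype.val
  have dj : ∀ w ∈ SA dn (ov T), w ∉ SA dn Q := by
    rintro _ ⟨l, P, k, hP, rfl⟩ c
    obtain ⟨l', n1, n2⟩ := h.qp P ((sa_mem h3 hQ k).1 c)
    obtain ⟨l'', m1, m2⟩ := hP
    have e : dn l' P n2 = dn l'' P m2 :=
      (h3 _ _ _ _ _ _).2 ⟨1, U.one_mem, by rw [map_one, one_smul]⟩
    exact n1 ((h5 _ _ n2).1 (e ▸ (h5 _ _ m2).2 m1))
  have inj : Function.Injective v := by
    rintro (a | a) (b | b) e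
    · exact congrArg _ (Subtype.ext e)
    · exact absurd (show a.1 ∈ SA dn Q from (show a.1 = b.1 from e) ▸ b.2) (dj _ a.2)
    · exact absurd (show b.1 ∈ SA dn Q from (show a.1 = b.1 from e) ▸ a.2) (dj _ b.2)
    · exact congrArg _ (Subtype.ext e)
  have rg : Set.range v = SA dn (ov T ∪ Q) := by
    ext w
    constructor
    · rintro ⟨⟨w, l, P, k, hP, e⟩ | ⟨w, l, P, k, hP, e⟩, rfl⟩
      · exact ⟨l, P, k, Or.inl hP, e⟩
      · exact ⟨l, P, k, Or.inr hP, e⟩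
    · rintro ⟨l, P, k, hP | hP, e⟩
      · exact ⟨Sum.inl ⟨w, l, P, k, hP, e⟩, rfl⟩
      · exact ⟨Sum.inr ⟨w, l, P, k, hP, e⟩, rfl⟩
  have cnt := fun (Ψ : AF G) (a : Ψ.Add p U) => unit_cnt a r hU
    (sm (pS r (sa_st h4 (ov_stb ι T))) (pS r (sa_st h4 hQ))) v inj (by rintro g (i | i) <;> rfl)
  rw [rg] at cnt
  have sE := st_ES r (sa_st h4 hA)
  have hT : P022D.Sel.ov L T ⊆ SA dn (ov T ∪ Q) := fun w hw => by
    obtain ⟨l, P, k, rfl⟩ := h2 w
    exact ⟨l, P, k, Or.inl ⟨l, (h5 _ _ k).1 hw, k⟩, rfl⟩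
  have m1 := fun b => ka_mem (M := M) (b := b) hK h.emb.continuous h.opn hj' h1 h3 hA hp o1.cj
    fun i hi => o3.inc i (o4 hi)
  have m2 := fun f => ka_onto (M := M) (f := f) hK h.emb hj' hs h1 h2 hp hB hT
  have ix := (cnt (fun _ _ _ => 0) fun _ _ _ _ _ _ _ _ _ _ _ _ _ _ _ _ _ => rfl).1
  refine ⟨?_, fun Ψ a χ hχ => ?_⟩
  · have e : (ES (SA dn (ov T ∪ Q))).map (ka U ι M hj') = Gl p (In ι (ov T ∪ Q)) U := by
      ext f
      exact ⟨by rintro ⟨b, hb, rfl⟩; exact m1 b hb, m2 f⟩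
    have := AddSubgroup.relIndex_ker (ES (SA dn (ov T ∪ Q))) (ka U ι M hj')
    rw [← e]
    refine Nat.finite_of_card_ne_zero (this ▸ ?_)
    rw [← AddSubgroup.inf_relIndex_right] at ix
    exact rel_mono ix (fun b hb => (ka_zero hj' hs hb.2).2 hb.1) le_rfl
  have a' := twA_add a hχ
  have e1 := (cnt _ a').2
  have e2 : (twA Ψ χ).sq (aL r) (ES (SA dn (ov T ∪ Q))) (mu p (ES (SA dn (ov T ∪ Q)))) =
      (twA Ψ χ).sq (fa (cj G) ω) (Gl p (In ι (ov T ∪ Q)) U) ⊥ :=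
    trans' a' (ka U ι M hj') (st_mu sE p) st_bot (st_gl ω) sE (fun g b _ => ka_aL hj' hr hz g b) m1
      (fun f hf => by
        obtain ⟨b, hb, e⟩ := m2 f hf
        exact ⟨b, hb, sub_eq_zero.2 e⟩) (fun b hb => ka_zero hj' hs hb) ix
      (fun m hm => ⟨m, hm, rfl⟩) fun u hu m _ => by
        rw [show aL r u m = m from el_inj (by rw [el_aL, hU u hu]; rfl), sub_self]
        exact zero_mem _
  have tr : ∀ {S : Set (PL L)} (k : ∀ g, ∀ w ∈ S, mv (r g).toRingEquiv w ∈ S), ∀ u ∈ U, ∀ s,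
      pS r k u s = s := fun k u hu s => Subtype.ext (by
    show mv _ s.1 = s.1
    rw [hU u hu, mv_one])
  rw [e2, ← tor_ch a' r M h.om hz sE, fa_sm a' (fun _ _ => rfl) (tr _) (tr _),
    ← eT _ a' 1 fun _ _ => rfl, ← eQ _ a' 1 fun _ _ => rfl, ← inf_fu hr h6 h8 a' fun _ _ => rfl,
    twA_sq, twA_ch, twA_ch, twA_fu, twA_fu, twA_fu,
    show (1 : G →* (ZMod p)ˣ) * χ = χ from one_mul χ] at e1
  exact e1

end Vale.Agent.P022K.GW
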