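import Vale.Agent.P022K.GW.Shp
import Vale.Agent.P022K.GW.Pl
import Vale.Agent.P022K.Cheb.Main

/-!
# P022K, block GW: regular elements and the choice of the auxiliary primes
-/

set_option linter.all false

noncomputable section

namespace Vale.Agent.P022K.GW

open NumberField Module
open scoped Pointwise
open Vale.Agent.P022 Vale.Agent.P022.C Vale.Agent.P022.H853
open Vale.Agent.P027M.S (Inert)
open Vale.Agent.P022D.W (dec)
open Vale.Agent.P022E.GW (Ov Fb)

/-! ### regular elements -/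

section

variable {k : Type} [Field k]

theorem pow_lin (m : Matrix (Fin 2) (Fin 2) k) (n : ℕ) : ∃ a b : k, m ^ n = a • 1 + b • m := by
  induction n with
  | zero => exact ⟨1, 0, by simp⟩
  | succ n ih =>
    obtain ⟨a, b, h⟩ := ih
    refine ⟨-(b * m.det), a + b * m.trace, ?_⟩
    rw [pow_succ, h]
    ext i j
    fin_cases i <;> fin_cases j <;>
      simp [Matrix.mul_apply, Fin.sum_univ_two, Matrix.det_fin_two, Matrix.trace_fin_two] <;> ring

theorem nil_lin {m : Matrix (Fin 2) (Fin 2) k} (h : m.trace ^ 2 ≠ 4 * m.det) {a b : k}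
    (hn : IsNilpotent (a • (1 : Matrix (Fin 2) (Fin 2) k) + b • m)) :
    a • (1 : Matrix (Fin 2) (Fin 2) k) + b • m = 0 := by
  have h1 := (Matrix.isNilpotent_trace_of_isNilpotent hn).eq_zero
  have h2 : (a • (1 : Matrix (Fin 2) (Fin 2) k) + b • m).det = 0 := by
    obtain ⟨n, hn⟩ := hn
    refine IsNilpotent.eq_zero ⟨n, ?_⟩
    rw [← Matrix.det_pow, hn, Matrix.det_zero]
  simp [Matrix.det_fin_two, Matrix.trace_fin_two] at h h1 h2
  have hb : b ^ 2 * ((m 0 0 + m 1 1) ^ 2 - 4 * (m 0 0 * m 1 1 - m 0 1 * m 1 0)) = 0 := by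
    linear_combination (2 * a + b * (m 0 0 + m 1 1)) * h1 - 4 * h2
  have hb0 : b = 0 := pow_eq_zero_iff two_ne_zero |>.1
    ((mul_eq_zero.1 hb).resolve_right (sub_ne_zero.2 h))
  subst hb0
  have : a = 0 := by simpa using h2
  simp [this]

theorem rk_sl : finrank k (sl k) = 3 := by
  have e := (Matrix.traceLinearMap (Fin 2) k k).finrank_range_add_finrank_ker
  rw [LinearMap.range_eq_top.2 fun c => ⟨!![c, 0; 0, 0], by simp [Matrix.trace_fin_two]⟩,
    finrank_top, finrank_self, Module.finrank_matrix] at e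
  simp at e
  show finrank k (LinearMap.ker _) = 3
  omega

end

theorem rgo : RGO := by
  intro G k _ _ _ ρ g h2 hr
  refine ⟨?_, ?_, rk_sl⟩
  · obtain ⟨p, hp⟩ := CharP.exists k
    have pp : p.Prime := CharP.char_is_prime k p
    have : Fact p.Prime := ⟨pp⟩
    obtain ⟨a, n, hn, e⟩ := Nat.exists_eq_pow_mul_and_not_dvd (orderOf_pos (ρ g)).ne' p pp.ne_one
    refine ⟨n, fun h => hn ((CharP.cast_eq_zero_iff k p n).1 h), Units.ext ?_⟩
    obtain ⟨b, c, hb⟩ := pow_lin (ρ g).1 n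
    have e1 : ((ρ g).1 ^ n) ^ p ^ a = 1 := by
      rw [← pow_mul, mul_comm, ← e, ← Units.val_pow_eq_pow_val, pow_orderOf_eq_one, Units.val_one]
    have e2 : (b - 1) • (1 : Matrix (Fin 2) (Fin 2) k) + c • (ρ g).1 = (ρ g).1 ^ n - 1 := by
      rw [hb, sub_smul, one_smul]; abel
    have e3 := nil_lin hr (a := b - 1) (b := c) ⟨p ^ a, by
      rw [e2, sub_pow_char_pow_of_commute _ _ (Commute.one_right _), e1, one_pow, sub_self]⟩
    rw [e2, sub_eq_zero] at e3
    rw [Units.val_pow_eq_pow_val, e3, Units.val_one]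
  · let t : LinearMap.ker (ad0 ρ g - LinearMap.id) →ₗ[k] k :=
      ((Matrix.traceLinearMap (Fin 2) k k).comp (LinearMap.mulRight k (ρ g).1)).comp
        ((sl k).subtype.comp (Submodule.subtype _))
    refine (LinearMap.finrank_le_finrank_of_injective (f := t) ?_).trans (finrank_self k).le
    rw [injective_iff_map_eq_zero]
    rintro ⟨⟨x, h0⟩, h1⟩ h3
    replace h3 : (x * (ρ g).1).trace = 0 := h3
    replace h0 : x.trace = 0 := h0
    replace h1 : (ρ g).1 * x * (ρ g⁻¹).1 = x := congrArg Subtype.val (sub_eq_zero.1 h1)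
    have h4 : (ρ g).1 * x = x * (ρ g).1 := by
      conv_rhs => rw [← h1, mul_assoc, ← Units.val_mul, ← map_mul, inv_mul_cancel, map_one,
        Units.val_one, mul_one]
    unfold Rg at hr
    generalize (ρ g).1 = m at *
    have c0 := congrFun (congrFun h4 0) 0
    have c1 := congrFun (congrFun h4 0) 1
    have c2 := congrFun (congrFun h4 1) 0
    simp only [Matrix.mul_apply, Fin.sum_univ_two, Matrix.det_fin_two,
      Matrix.trace_fin_two] at hr h0 h3 c0 c1 c2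
    have hd := sub_ne_zero.2 hr
    have e11 : x 1 1 = -x 0 0 := by linear_combination h0
    rw [e11] at h3 c1 c2
    have x0 : x 0 0 = 0 := by
      refine (mul_eq_zero.1 (?_ : _ * x 0 0 = 0)).resolve_left (mul_ne_zero h2 hd)
      linear_combination 2 * (m 0 0 - m 1 1) * h3 - 2 * (m 0 0 - m 1 1) * c0 - 4 * m 1 0 * c1
    have x1 : x 0 1 = 0 := by
      refine (mul_eq_zero.1 (?_ : _ * x 0 1 = 0)).resolve_left hd
      linear_combination 2 * m 0 1 * h3 - 2 * m 0 1 * c0 + (m 0 0 - m 1 1) * c1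
    have x2 : x 1 0 = 0 := by
      refine (mul_eq_zero.1 (?_ : _ * x 1 0 = 0)).resolve_left hd
      linear_combination 2 * m 1 0 * h3 + 2 * m 1 0 * c0 - (m 0 0 - m 1 1) * c2
    refine Subtype.ext (Subtype.ext ?_)
    ext i j
    fin_cases i <;> fin_cases j <;> simp [x0, x1, x2, e11]

/-! ### the cyclotomic character -/

section

variable {G k : Type} [Group G] [Field k] {ι : G →* GQ} {p : ℕ} [Fact p.Prime]
  {ω : G →* (ZMod p)ˣ}

theorem up_one [CharP k p] {g : G} : (up ω : G →* kˣ) g = 1 ↔ ω g = 1 := by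
  rw [Units.ext_iff, Units.ext_iff]
  exact (ZMod.castHom (dvd_refl p) k).injective.eq_iff' (map_one _)

theorem cy_eq (h : Cy ι p ω) (g : G) : ω g = cyc p (ι g) := by
  have e := (h g _ (zt_prim p).pow_eq_one).symm.trans (cyc_spec (ι g) (zt_prim p).pow_eq_one)
  exact Units.ext (ZMod.val_injective p
    ((zt_prim p).pow_inj (ZMod.val_lt _) (ZMod.val_lt _) e))

theorem cyc_pow (h : Cy ι p ω) {g : G} (hg : ω g = 1) (n : ℕ) :
    cyc (p ^ (n + 1)) (ι g) ^ p ^ n = 1 := by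
  have pp : p.Prime := Fact.out
  have e := cyc_mod (m := p ^ (n + 1)) (dvd_pow_self p n.succ_ne_zero) (ι g)
  rw [← cy_eq h, hg, Units.val_one, ZMod.val_one] at e
  have e2 := dvd_sub_pow_of_dvd_sub (R := ℤ) e.symm.dvd n
  apply Units.ext
  rw [Units.val_pow_eq_pow_val, 
    ← ZMod.natCast_zmod_val ((cyc (p ^ (n + 1)) (ι g) : (ZMod (p ^ (n + 1)))ˣ) : ZMod (p ^ (n + 1))),
    Units.val_one, ← sub_eq_zero]
  have e3 := (ZMod.intCast_zmod_eq_zero_iff_dvd _ (p ^ (n + 1))).2 (by exact_mod_cast e2)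
  simpa using e3

variable [TopologicalSpace G] [IsTopologicalGroup G] [CompactSpace G]

theorem om_open (he : Topology.IsOpenEmbedding ι) (h : Cy ι p ω) : IsOpen (ω.ker : Set G) := by
  have : ω = (cyc p).comp ι := MonoidHom.ext (cy_eq h)
  rw [this]
  exact (isOpen_cyc p).preimage he.continuous

/-- an auxiliary prime in a given coset -/
theorem tw_ex (he : Topology.IsOpenEmbedding ι) {ρ : G →* GL (Fin 2) k} {m : ℕ} [NeZero m]
    {t : G} (h1 : cyc m (ι t) = 1) (h2 : Rg (ρ t)) {W : Subgroup G} (hW : IsOpen (W : Set G))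
    (hρ : W ≤ ρ.ker) (S : Finset ℕ) : ∃ l P, ∃ w ∈ W, Tw ι ρ m S l P (t * w) := by
  classical
  obtain ⟨R, -, hR⟩ := P022E.GW.Hy.ex_ram (U := ι.range) he.isOpen_range
  have ho : IsOpen ((W.map ι ⊓ (cyc m).ker : Subgroup GQ) : Set GQ) :=
    (Pl.map_open ι he hW).inter (isOpen_cyc m)
  obtain ⟨l, φ, hl, hS, hφ, hu⟩ := Cheb.cheb _ inferInstance (Pl.core_open ho) (ι t)
    (S ∪ R ∪ m.primeFactors)
  simp only [Finset.mem_union, not_or] at hS
  obtain ⟨⟨w, hw, e⟩, hc⟩ := Subgroup.normalCore_le _ hu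
  have e1 : ι (t * w) = φ := by rw [map_mul, e, mul_inv_cancel_left]
  have e2 := cyc_frob hl (m := m)
    (fun h => hS.2 (Nat.mem_primeFactors.2 ⟨hl, h, NeZero.ne m⟩)) hφ
  obtain ⟨P, p1, p2, p3⟩ := hφ
  have hP : Ov l P := ⟨hl, p1, p2⟩
  refine ⟨l, P, w, hw, hS.1.1, hP, by rw [e1]; exact p3, fun g hg => ?_, ?_, ?_⟩
  · obtain ⟨n, hn⟩ := (frb.2.1 l P φ hP p3).2 ι.range he.isOpen_range
      (fun i _ hi => hR l hS.1.2 P hP i hi) g ⟨trivial, hg⟩
    rw [← mul_inv_cancel_left (φ ^ n) g]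
    exact mul_mem (pow_mem (show φ ∈ ι.range from ⟨_, e1⟩) n) hn
  · replace hc : cyc m _ = 1 := hc
    rw [map_mul, map_inv, h1, inv_one, one_mul] at hc
    rw [hc, Units.val_one, ← Nat.cast_one, ZMod.natCast_eq_natCast_iff] at e2
    exact (Nat.modEq_iff_dvd' hl.one_le).1 e2
  · rw [map_mul, show ρ w = 1 from hρ hw, mul_one]; exact h2

/-- a power of a regular element which fixes the roots of unity of higher order -/
theorem rg_pow [Finite k] [CharP k p] (h2 : p ≠ 2) (h : Cy ι p ω) {ρ : G →* GL (Fin 2) k} {s : G}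
    (h1 : ω s = 1) (hs : Rg (ρ s)) (n : ℕ) : ∃ e m : ℕ, (m : k) ≠ 0 ∧ ρ s ^ m = 1 ∧
      ρ (s ^ e) = ρ s ∧ cyc (p ^ (n + 1)) (ι (s ^ e)) = 1 := by
  have pp : p.Prime := Fact.out
  have k2 : (2 : k) ≠ 0 := fun e => h2 ((Nat.prime_dvd_prime_iff_eq pp Nat.prime_two).1
    ((CharP.cast_eq_zero_iff k p 2).1 e))
  obtain ⟨m, hm, e1⟩ := (rgo G k ρ s k2 hs).1
  have hc : m.Coprime (p ^ n) := Nat.Coprime.pow_right _ ((Nat.Prime.coprime_iff_not_dvd pp).2
    fun d => hm ((CharP.cast_eq_zero_iff k p m).2 d)).symm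
  obtain ⟨e, e2, e3⟩ := Nat.chineseRemainder hc 1 0
  refine ⟨e, m, hm, e1, ?_, ?_⟩
  · rw [map_pow, pow_eq_pow_of_modEq e2 e1, pow_one]
  · rw [map_pow, map_pow, pow_eq_pow_of_modEq e3 (cyc_pow h h1 n), pow_zero]

end

/-! ### the classes are seen by Frobenius elements -/

section

variable {G k E : Type} [Group G] [Field k] [AddCommGroup E] [Module k E]

/-- left translation of functions -/
def lt (k G E : Type) [Group G] [Field k] [AddCommGroup E] [Module k E] :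
    Representation k G (G → E) where
  toFun s := LinearMap.funLeft k E fun g => s⁻¹ * g
  map_one' := by ext f g; simp
  map_mul' s t := by ext f g; simp [mul_assoc]

theorem add_pow_cj {U : Subgroup G} [hU : U.Normal] {Y : G → E}
    (hY : ∀ a ∈ U, ∀ b ∈ U, Y (a * b) = Y a + Y b) (s : G) {γ : G} (hγ : γ ∈ U) (m : ℕ) :
    (s * γ) ^ m * (s ^ m)⁻¹ ∈ U ∧ Y ((s * γ) ^ m * (s ^ m)⁻¹) =
      ∑ i ∈ Finset.range m, Y (s ^ (i + 1) * γ * (s ^ (i + 1))⁻¹) := by
  induction m with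
  | zero =>
    have := hY 1 U.one_mem 1 U.one_mem
    rw [mul_one, left_eq_add] at this
    simp [this]
  | succ m ih =>
    have e : (s * γ) ^ (m + 1) * (s ^ (m + 1))⁻¹ =
        (s * γ) ^ m * (s ^ m)⁻¹ * (s ^ (m + 1) * γ * (s ^ (m + 1))⁻¹) := by
      rw [pow_succ (s * γ), pow_succ s]; group
    have h := hU.conj_mem γ hγ (s ^ (m + 1))
    rw [e, hY _ ih.1 _ h, ih.2, Finset.sum_range_succ]
    exact ⟨mul_mem ih.1 h, rfl⟩

end

theorem kill : KILL := by
  intro G k N _ _ _ _ _ _ _ _ ι p _ _ ω ρ H B ν h2 he hc hρ hA l1 l2 l3 hP n S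
  classical
  have pp : p.Prime := Fact.out
  have : NeZero (p ^ (n + 1)) := ⟨pow_ne_zero _ pp.ne_zero⟩
  have dn : ∀ {l P φ}, Tw ι ρ (p ^ (n + 1)) S l P φ → Tw ι ρ (p ^ n) S l P φ := fun h =>
    ⟨h.out, h.ov, h.fb, h.deg, (pow_dvd_pow p n.le_succ).trans h.cg, h.rg⟩
  refine ⟨?_, fun y y1 y2 ⟨W, hW, y3⟩ y4 y5 => ?_⟩
  · obtain ⟨s, -, s1, s2, -⟩ := hA.2 k 1 fun _ _ _ => rfl
    obtain ⟨e, m, -, -, e2, e3⟩ := rg_pow h2 hc (up_one.1 s1) s2 n
    obtain ⟨l, P, w, -, h⟩ := tw_ex he e3 (ρ := ρ) (by rw [e2]; exact s2) hρ le_rfl S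
    exact ⟨l, P, _, dn h⟩
  set U := ρ.ker ⊓ (up ω : G →* kˣ).ker with hU
  let c : G →* (ZMod (p ^ (n + 1)))ˣ := (cyc (p ^ (n + 1))).comp ι
  let U' := U ⊓ c.ker
  have oU : IsOpen (U : Set G) := hρ.inter (by
    have : (up ω : G →* kˣ).ker = ω.ker := Subgroup.ext fun _ => up_one
    rw [this]; exact om_open he hc)
  have oU' : IsOpen (U' : Set G) := oU.inter ((isOpen_cyc _).preimage he.continuous)
  have oB : IsOpen (B : Set G) := Subgroup.isOpen_mono (l1.trans l2) oU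
  let x : G → Module.Dual k N := fun g => if h : g ∈ B then y ⟨g, h⟩ else 0
  have x0 : ∀ g : B, x g = y g := fun g => dif_pos g.2
  have x1 : ∀ a ∈ U, ∀ b ∈ U, x (a * b) = x a + x b := fun a ha b hb =>
    (x0 (⟨a, l2 (l1 ha)⟩ * ⟨b, l2 (l1 hb)⟩)).trans ((y1 _ (l1 ha) _ (l1 hb)).trans
      (congrArg₂ _ (x0 _).symm (x0 _).symm))
  have x4 : ∀ (g : B), ∀ u ∈ U, x (g * u * g⁻¹) = tw ((up ω).comp B.subtype) ν.dual g (x u) :=
    fun g u hu => (x0 (g * ⟨u, l2 (l1 hu)⟩ * g⁻¹)).trans ((y4 _ _).trans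
      (congrArg _ (x0 ⟨u, l2 (l1 hu)⟩).symm))
  -- the class does not vanish on the small subgroup
  have k1 : ∃ γ ∈ U', x γ ≠ 0 := by
    by_contra h
    push Not at h
    have a1 : ∀ u ∈ U, x u = 0 := fun u hu => by
      have m : (fun _ => x u) ∈ Fx (1 : B →* Equiv.Perm Unit)
          (tw ((up ω).comp B.subtype) ν.dual) := fun g _ => by
        have m1 : (g : G) * u * (g : G)⁻¹ * u⁻¹ ∈ U' :=
          ⟨U.mul_mem (Subgroup.Normal.conj_mem inferInstance u hu g) (U.inv_mem hu), by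
            show c _ = 1
            simp only [map_mul, map_inv]
            rw [mul_comm (c g), mul_inv_cancel_right, mul_inv_cancel]⟩
        have := x1 _ m1.1 _ hu
        rw [inv_mul_cancel_right, h _ m1, zero_add] at this
        exact this.symm.trans (x4 g u hu)
      rw [hP.h0] at m
      exact congrFun m ()
    have a2 := hP.h1 y y1 (fun u hu => (x0 u).symm.trans (a1 u hu)) fun g h _ => y4 g h
    exact y5 (funext fun g => by
      by_cases h : g ∈ H.subgroupOf B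
      exacts [a2 g h, y2 g h])
  let Y : G → G → Module.Dual k N := fun γ g => x (g⁻¹ * γ * g)
  have cU : ∀ u ∈ U, ∀ g : G, g⁻¹ * u * g ∈ U := fun u hu g => by
    simpa using Subgroup.Normal.conj_mem inferInstance u hu g⁻¹
  have Y1 : ∀ a ∈ U', ∀ b ∈ U', Y (a * b) = Y a + Y b := fun a ha b hb => funext fun g => by
    show x _ = x _ + x _
    rw [← x1 _ (cU a ha.1 g) _ (cU b hb.1 g)]
    congr 1; group
  have Y2 : ∀ s γ, lt k G _ s (Y γ) = Y (s * γ * s⁻¹) := fun s γ => funext fun g => by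
    show x _ = x _
    congr 1; group
  let M : Submodule k (G → Module.Dual k N) := Submodule.span k (Y '' U')
  have hM : ∀ s, M ≤ M.comap (lt k G _ s) := fun s => Submodule.span_le.2 (by
    rintro _ ⟨γ, hγ, rfl⟩
    show lt k G _ s (Y γ) ∈ M
    rw [Y2]
    exact Submodule.subset_span ⟨_, Subgroup.Normal.conj_mem inferInstance γ hγ s, rfl⟩)
  have : Nontrivial M := by
    obtain ⟨γ, hγ, h⟩ := k1
    refine ⟨⟨Y γ, Submodule.subset_span ⟨γ, hγ, rfl⟩⟩, 0, fun e => h ?_⟩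
    have := congrFun (congrArg Subtype.val e) 1
    simpa [Y] using this
  obtain ⟨s, w, s1, s2, w1, w2⟩ := hA.2 M ((lt k G _).subrepresentation M hM) fun z z1 z2 => by
    refine LinearMap.ext fun w => Subtype.ext ?_
    show lt k G _ z w.1 = w.1
    refine LinearMap.eqOn_span (g := LinearMap.id) ?_ w.2
    rintro _ ⟨γ, hγ, rfl⟩
    rw [Y2]
    funext g
    have z3 : g⁻¹ * z * g ∈ (Subgroup.center _).comap ρ := by
      simpa using Subgroup.Normal.conj_mem inferInstance z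
        (show z ∈ (Subgroup.center _).comap ρ from z1) g⁻¹
    have e := x4 ⟨_, l3 z3⟩ _ (cU γ hγ.1 g)
    have e1 : ν (⟨_, l3 z3⟩ : B)⁻¹ = 1 := hP.cen _ (inv_mem z3)
    have e2 : (up ω : G →* kˣ) (g⁻¹ * z * g) = 1 := by simp [z2]
    refine (congrArg x (by simp only [Subgroup.coe_inv]; group)).trans (e.trans ?_)
    show (((up ω : G →* kˣ) (g⁻¹ * z * g) : kˣ) : k) • ν.dual _ _ = _
    rw [e2, Units.val_one, one_smul, Representation.dual_apply, e1]
    rfl
  replace w2 : lt k G _ s w.1 = w.1 := congrArg Subtype.val w2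
  obtain ⟨e, m, m1, m2, e2, e3⟩ := rg_pow h2 hc (up_one.1 s1) s2 n
  have w3 : ∀ i : ℕ, lt k G _ (s ^ i) w.1 = w.1 := fun i => by
    induction i with
    | zero => rw [pow_zero, ap_one]
    | succ i ih => rw [pow_succ, ap_mul, w2, ih]
  set t := s ^ e with ht
  have t1 : t ^ m ∈ U' := ⟨⟨by
      show ρ _ = 1
      rw [map_pow, e2, m2], by
      show (up ω : G →* kˣ) _ = 1
      rw [map_pow, ht, map_pow, s1, one_pow, one_pow]⟩, by
    show c _ = 1
    rw [map_pow, show c t = 1 from e3, one_pow]⟩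
  have k2 : ∃ γ ∈ U', Y ((t * γ) ^ m) ≠ 0 := by
    by_contra h
    push Not at h
    have a0 := h 1 U'.one_mem
    rw [mul_one] at a0
    have a1 : (∑ i ∈ Finset.range m, lt k G _ (t ^ (i + 1))) w.1 = 0 := by
      refine LinearMap.eqOn_span (g := 0) ?_ w.2
      rintro _ ⟨γ, hγ, rfl⟩
      obtain ⟨b1, b2⟩ := add_pow_cj Y1 t hγ m
      have b3 := Y1 _ b1 _ t1
      rw [inv_mul_cancel_right, h γ hγ, a0, add_zero, b2] at b3
      rw [LinearMap.sum_apply]
      simp only [Y2]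
      exact b3.symm
    rw [LinearMap.sum_apply] at a1
    simp only [ht, ← pow_mul, w3, Finset.sum_const, Finset.card_range] at a1
    rw [← Nat.cast_smul_eq_nsmul k, smul_eq_zero] at a1
    exact w1 (Subtype.ext (a1.resolve_left m1))
  obtain ⟨γ, hγ, k3⟩ := k2
  obtain ⟨g, k4⟩ := Function.ne_iff.1 k3
  obtain ⟨W', hW', k5⟩ := ad_up (I := ∅) (fun _ _ h => h.elim) oB (fun _ h => h.elim) hW
  have := hW'.nor
  obtain ⟨l, P, v, hv, h⟩ := tw_ex he (t := t * γ) (m := p ^ (n + 1)) (ρ := ρ)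
    (by rw [map_mul, map_mul, e3, one_mul]; exact hγ.2)
    (by rw [map_mul, show ρ γ = 1 from hγ.1.1, mul_one, e2]; exact s2)
    (W := W' ⊓ U') (hW'.opn.inter oU') (fun _ h => h.2.1.1) S
  have u1 : (t * γ) ^ m ∈ U' := by
    have := mul_mem (add_pow_cj Y1 t hγ m).1 t1
    rwa [inv_mul_cancel_right] at this
  have u2 : ((t * γ) ^ m)⁻¹ * (t * γ * v) ^ m ∈ W' ⊓ U' := by
    rw [← QuotientGroup.eq, QuotientGroup.mk_pow, QuotientGroup.mk_pow,
      QuotientGroup.mk_mul_of_mem _ hv]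
  have u3 : (t * γ * v) ^ m ∈ U := by
    have := mul_mem u1.1 u2.2.1
    rwa [mul_inv_cancel_left] at this
  refine ⟨l, P, _, dn h, g⁻¹, ⟨g⁻¹ * (t * γ * v) ^ m * g, l2 (l1 (cU _ u3 g))⟩, ?_, ?_⟩
  · rw [← mul_smul, ← map_mul]
    show ι (g⁻¹ * _ * g * g⁻¹) • P = _
    rw [mul_inv_cancel_right, map_mul, mul_smul, map_pow,
      (Pl.dec_iff _ _).1 (pow_mem (Pl.fr_dec h.ov.2.1 h.ov.1.ne_zero h.fb) m)]
  · rw [← x0]
    show x (g⁻¹ * _ * g) ≠ 0
    obtain ⟨b1, b2⟩ := k5 _ u2.1 g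
    rw [show g⁻¹ * (t * γ * v) ^ m * g = g⁻¹ * (t * γ) ^ m * g *
        (g⁻¹ * (((t * γ) ^ m)⁻¹ * (t * γ * v) ^ m) * g) by group,
      x1 _ (cU _ u1.1 g) _ (cU _ u2.2.1 g), (x0 ⟨_, b1⟩).trans (y3 _ b2), add_zero]
    exact k4

end Vale.Agent.P022K.GW
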