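import Vale.Agent.P022K.GW.Eul
import Vale.Agent.P022K.GW.Loc

/-!
# P022K, block GW: tools for the row `LCL` (finite Herbrand quotient, normal basis, lattices)
-/

set_option linter.all false

noncomputable section

namespace Vale.Agent.P022K.GW

open NumberField IsDedekindDomain Module
open Vale.Agent.P022D.Sel (mv)
open Vale.Agent.P027M.S.Gen (val_cm)

namespace Lc

open Cal Gcl

section

variable {G : Type} [Group G] {p : ℕ} {U : Subgroup G} {Ψ : AF G} {M : Type} [AddCommGroup M]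
  {a : Ac G M}

theorem fin_of {F : Type} [Finite F] {A B : AddSubgroup M} (φ : B → F)
    (h : ∀ x y : B, φ x = φ y → x.1 - y.1 ∈ A) : A.relIndex B ≠ 0 := by
  haveI : Finite (B ⧸ A.addSubgroupOf B) := Finite.of_injective (fun q => φ q.out) fun q q' e => by
    rw [← QuotientAddGroup.out_eq' q, ← QuotientAddGroup.out_eq' q']
    exact QuotientAddGroup.eq_iff_sub_mem.2 (h _ _ e)
  exact AddSubgroup.index_ne_zero_of_finite

theorem st_quo {V A : AddSubgroup M} (hV : St a V) (hA : St a A) :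
    St (a.quo V hV) (A.map (QuotientAddGroup.mk' V)) := by
  rintro g _ ⟨m, hm, rfl⟩
  exact ⟨_, hA g m hm, rfl⟩

theorem st_cm {V : AddSubgroup M} (hV : St a V) (n : ℕ) :
    St a (V.comap (nsmulAddMonoidHom n)) := fun g m hm => by
  show n • a g m ∈ V
  rw [← map_nsmul]
  exact hV g _ hm

/-- the Herbrand quotient of a finite group -/
theorem herb (pp : p.Prime) (h : Ψ.Add p U) {V E P : AddSubgroup M} (hV : St a V) (hE : St a E)
    (hP : St a P) (le : V ≤ E) (hi : V.relIndex E ≠ 0) (hu : ∀ u ∈ U, ∀ m, a u m = m)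
    (mP : ∀ x, x ∈ P ↔ x ∈ E ∧ p • x ∈ V) : Ψ.sq a E (mu p E ⊔ V) = Ψ.sq a P V := by
  let q := QuotientAddGroup.mk' V
  have sA : St (a.quo V hV) (E.map q) := st_quo hV hE
  have q0 : ∀ m, q m = 0 ↔ m ∈ V := fun m => QuotientAddGroup.eq_zero_iff m
  have tu : ∀ {D : AddSubgroup M} (u : G), u ∈ U → ∀ m, a u m - m ∈ D := fun u k m => by
    rw [hu u k m, sub_self]; exact zero_mem _
  have m0 : mu p (⊥ : AddSubgroup (M ⧸ V)) = ⊥ := AddSubgroup.map_bot _
  have t0 : tor p (⊥ : AddSubgroup (M ⧸ V)) = ⊥ := bot_inf_eq _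
  have e0 := lat pp h st_bot sA bot_le (by
    rw [AddSubgroup.relIndex_bot_left, ← AddSubgroup.relIndex_ker, QuotientAddGroup.ker_mk']
    exact hi) (by
      rintro u k _ ⟨m, -, rfl⟩
      exact congrArg q (hu u k m)) (by rw [m0]; exact rel_bot inferInstance)
    (by rw [t0]; infer_instance)
  rw [m0, t0, self h st_bot] at e0
  have e1 : Ψ.sq a E (mu p E ⊔ V) = Ψ.sq (a.quo V hV) (E.map q) (mu p (E.map q)) :=
    trans' h q (st_sup (st_mu hE p) hV) (st_mu sA p) sA hE (fun _ _ _ => rfl)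
      (fun m hm => ⟨m, hm, rfl⟩) (by
        rintro _ ⟨m, hm, rfl⟩
        exact ⟨m, hm, by rw [sub_self]; exact zero_mem _⟩) (fun m hm => ⟨by
        rintro ⟨_, ⟨y, hy, rfl⟩, e⟩
        refine AddSubgroup.mem_sup.2 ⟨p • y, ⟨y, hy, rfl⟩, m - p • y, (q0 _).1 ?_, by abel⟩
        rw [map_sub, map_nsmul]
        exact sub_eq_zero.2 e.symm, fun k => by
        obtain ⟨_, ⟨y, hy, rfl⟩, v, hv, rfl⟩ := AddSubgroup.mem_sup.1 k
        refine ⟨q y, ⟨y, hy, rfl⟩, ?_⟩
        show p • q y = q (p • y + v)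
        rw [map_add, (q0 v).2 hv, add_zero, map_nsmul]⟩) (rel_mono hi le_sup_right le_rfl)
      (fun m hm => AddSubgroup.mem_sup_left ⟨m, hm, rfl⟩) fun u k m _ => tu u k m
  have e2 : Ψ.sq a P V = Ψ.sq (a.quo V hV) (tor p (E.map q)) ⊥ :=
    trans' h q hV st_bot (st_tor sA p) hP (fun _ _ _ => rfl)
      (fun m hm => mem_tor.2 ⟨⟨m, ((mP m).1 hm).1, rfl⟩, by
        rw [← map_nsmul]; exact (q0 _).2 ((mP m).1 hm).2⟩) (by
        rintro _ ⟨⟨m, hm, rfl⟩, k⟩
        exact ⟨m, (mP m).2 ⟨hm, (q0 _).1 ((map_nsmul q p m).trans k)⟩, sub_self _⟩)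
      (fun m _ => q0 m) (rel_mono hi le_rfl fun m hm => ((mP m).1 hm).1)
      (fun m hm => ((mP m).1 hm).2) fun u k m _ => tu u k m
  omega

end

variable {L : Type} [Field L] [NumberField L]

/-- a basis which is permuted like the embeddings -/
theorem nbas (F : Type) [Field F] [NumberField F] [Algebra F L] [IsGalois F L] :
    ∃ y : Basis (L →+* ℂ) ℚ L, ∀ (σ : L ≃ₐ[F] L) (φ : L →+* ℂ),
      y (φ.comp (σ.symm : L →+* L)) = σ (y φ) := by
  classical
  let b : Basis (F →+* ℂ) ℚ F :=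
    (Module.finBasis ℚ F).reindex (Fintype.equivFinOfCardEq (Embeddings.card F ℂ)).symm
  let d : (F →+* ℂ) × (L ≃ₐ[F] L) → (L →+* ℂ) := fun x =>
    (ComplexEmbedding.lift L x.1).comp (x.2.symm : L →+* L)
  have hd : Function.Bijective d := by
    rw [Fintype.bijective_iff_injective_and_card, Fintype.card_prod, Embeddings.card,
      Embeddings.card, Fintype.card_eq_nat_card, IsGalois.card_aut_eq_finrank, finrank_mul_finrank]
    refine ⟨fun ⟨ψ, σ⟩ ⟨ψ', σ'⟩ e => ?_, rfl⟩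
    have e1 : ψ = ψ' := RingHom.ext fun x => by
      have := RingHom.congr_fun e (algebraMap F L x)
      simpa [d] using this
    subst e1
    refine congrArg _ (AlgEquiv.symm_bijective.1 (AlgEquiv.ext fun x => ?_))
    exact (ComplexEmbedding.lift L ψ).injective (RingHom.congr_fun e x)
  refine ⟨(b.smulTower (IsGalois.normalBasis F L)).reindex (Equiv.ofBijective d hd), fun σ φ => ?_⟩
  obtain ⟨⟨ψ, τ⟩, rfl⟩ := hd.2 φ
  have k : ∀ x, (Equiv.ofBijective d hd).symm (d x) = x := (Equiv.ofBijective d hd).symm_apply_apply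
  rw [show (d (ψ, τ)).comp (σ.symm : L →+* L) = d (ψ, σ * τ) from rfl, Basis.reindex_apply,
    Basis.reindex_apply, k, k, Basis.smulTower_apply, Basis.smulTower_apply,
    Algebra.smul_def, Algebra.smul_def, map_mul σ, AlgEquiv.commutes,
    IsGalois.normalBasis_apply (σ * τ), IsGalois.normalBasis_apply τ]
  rfl

variable {G : Type} [Group G] {p : ℕ} [Fact p.Prime] {U : Subgroup G} {Ψ : AF G}
  (r : G →* (L ≃ₐ[ℚ] L))

/-- the action on the additive group -/
def aA : Ac G L where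
  toFun g := ((r g : L →+* L) : L →+ L)
  map_one' := AddMonoidHom.ext fun x => by rw [map_one]; rfl
  map_mul' g h := AddMonoidHom.ext fun x => by rw [map_mul]; rfl

/-- the action on the embeddings -/
def pL : G →* Equiv.Perm (L →+* ℂ) where
  toFun g :=
    { toFun := fun φ => φ.comp (r g⁻¹ : L →+* L)
      invFun := fun φ => φ.comp (r g : L →+* L)
      left_inv := fun φ => RingHom.ext fun x => by simp
      right_inv := fun φ => RingHom.ext fun x => by simp }
  map_one' := Equiv.ext fun φ => RingHom.ext fun x => by simp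
  map_mul' g g' := Equiv.ext fun φ => RingHom.ext fun x => by simp

theorem nbas' : ∃ y : Basis (L →+* ℂ) ℚ L, ∀ g φ, y (pL r g φ) = r g (y φ) := by
  obtain ⟨y, hy⟩ := nbas (L := L) (FixedPoints.subfield r.range L)
  refine ⟨y, fun g φ => (congrArg y ?_).trans
    (hy (MulSemiringAction.toAlgAut r.range _ L ⟨r g, g, rfl⟩) φ)⟩
  refine RingHom.ext fun x => ?_
  show φ (r g⁻¹ x) = φ ((r g)⁻¹ x)
  rw [map_inv]

/-- **lattices** -/
theorem lat_cnt (h : Ψ.Add p U) (hU : ∀ u ∈ U, r u = 1) {A : AddSubgroup L} (hA : St (aA r) A)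
    (l1 : ∀ x ∈ A, ∃ z : 𝓞 L, (z : L) = x) {m : ℕ} (hm : m ≠ 0) (l2 : ∀ z : 𝓞 L, m • (z : L) ∈ A) :
    (mu p A).relIndex A ≠ 0 ∧
      Ψ.sq (aA r) A (mu p A) = Ψ _ (fa (pL r) (1 : G →* (ZMod p)ˣ)) := by
  classical
  have pp : p.Prime := Fact.out
  obtain ⟨y, hy⟩ := nbas' r
  obtain ⟨n, hn⟩ := IsLocalization.exist_integer_multiples_of_finite (nonZeroDivisors ℤ)
    fun x : (L →+* ℂ) × Module.Free.ChooseBasisIndex ℤ (𝓞 L) => (integralBasis L).repr (y x.1) x.2
  obtain ⟨n', hn'⟩ := IsLocalization.exist_integer_multiples_of_finite (nonZeroDivisors ℤ)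
    fun x : (L →+* ℂ) × Module.Free.ChooseBasisIndex ℤ (𝓞 L) => y.repr (integralBasis L x.2) x.1
  have n0 : (n : ℤ) ≠ 0 := nonZeroDivisors.ne_zero n.2
  have n0' : (n' : ℤ) ≠ 0 := nonZeroDivisors.ne_zero n'.2
  have hI : ∀ u ∈ U, ∀ φ, pL r u φ = φ := fun u k φ => RingHom.ext fun x => by
    show φ (r u⁻¹ x) = φ x
    rw [hU _ (U.inv_mem k)]; rfl
  have yi : ∀ φ, ∃ z : 𝓞 L, (z : L) = (n : ℤ) • y φ := fun φ => by
    choose c hc using fun i => hn (φ, i)
    refine ⟨∑ i, c i • RingOfIntegers.basis L i, ?_⟩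
    rw [← (integralBasis L).sum_repr (y φ), Finset.smul_sum]
    refine (map_sum (algebraMap (𝓞 L) L) _ _).trans (Finset.sum_congr rfl fun i _ => ?_)
    rw [map_zsmul, ← integralBasis_apply, ← smul_assoc, ← hc i, algebraMap_smul]
  have zi : ∀ z : 𝓞 L, ∃ c : (L →+* ℂ) → ℤ, ∑ φ, c φ • y φ = (n' : ℤ) • (z : L) := fun z => by
    choose c hc using hn'
    refine ⟨fun φ => ∑ i, (RingOfIntegers.basis L).repr z i * c (φ, i), ?_⟩
    have e : (z : L) = ∑ i, (RingOfIntegers.basis L).repr z i • integralBasis L i := by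
      conv_lhs => rw [← (RingOfIntegers.basis L).sum_repr z]
      refine (map_sum (algebraMap (𝓞 L) L) _ _).trans (Finset.sum_congr rfl fun i _ => ?_)
      rw [map_zsmul, integralBasis_apply]
    simp only [Finset.sum_smul]
    rw [e, Finset.smul_sum, Finset.sum_comm]
    refine Finset.sum_congr rfl fun i _ => ?_
    rw [smul_comm, ← y.sum_repr (integralBasis L i), Finset.smul_sum, Finset.smul_sum]
    refine Finset.sum_congr rfl fun φ _ => ?_
    rw [mul_smul, ← smul_assoc (n' : ℤ), ← hc (φ, i), algebraMap_smul]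
  have tA : ∀ k ≠ 0, tor k A = ⊥ := fun k hk => eq_bot_iff.2 fun x hx =>
    (smul_eq_zero.1 (mem_tor.1 hx).2).resolve_left hk
  have hP := perm h hA (fun u k x _ => by show r u x = x; rw [hU u k]; rfl)
    (sm (pL r) (1 : G →* Equiv.Perm Unit)) (sm_triv hI fun _ _ _ => rfl)
    (Sum.elim (fun φ => m • (n : ℤ) • y φ) 0) (by
      rintro (φ | u)
      · obtain ⟨z, e⟩ := yi φ
        rw [Sum.elim_inl, ← e]
        exact l2 z
      · exact zero_mem _) (by
      rintro g (φ | u)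
      · show m • (n : ℤ) • y (pL r g φ) = r g (m • (n : ℤ) • y φ)
        rw [hy, map_nsmul, map_zsmul]
      · exact (map_zero _).symm) (Sum.elim 0 1) (by simp) (fun c => ?_)
    (n := m * ((n : ℤ) * n').natAbs) (mul_ne_zero hm (Int.natAbs_ne_zero.2 (mul_ne_zero n0 n0')))
    (fun x hx => ?_) fun k hk => by rw [tA k hk]; infer_instance
  · refine ⟨hP.1, ?_⟩
    have e := hP.2
    rw [tA p pp.ne_zero, self h st_bot, fa_sm h (fun _ _ => rfl) hI fun _ _ _ => rfl, AF.ch,
      top_bot h (md_fa (fun _ _ => rfl) fun _ _ _ => rfl)] at e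
    omega
  · rw [Fintype.sum_sum_type]
    simp only [Sum.elim_inl, Sum.elim_inr, Pi.zero_apply, smul_zero, Finset.sum_const_zero,
      add_zero]
    refine ⟨fun e => ⟨c (Sum.inr ()), funext ?_⟩, ?_⟩
    · have := Fintype.linearIndependent_iff.1 y.linearIndependent
        (fun φ => ((c (Sum.inl φ) * (m * n) : ℤ) : ℚ)) (by
          rw [← e]
          refine Finset.sum_congr rfl fun φ _ => ?_
          rw [Int.cast_smul_eq_zsmul, mul_smul, mul_smul, natCast_zsmul])
      rintro (φ | u)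
      · have k := Int.cast_eq_zero.1 (this φ)
        simpa [hm, n0] using k
      · simp
    · rintro ⟨t, rfl⟩
      simp
  · obtain ⟨z, rfl⟩ := l1 x hx
    obtain ⟨c, hc⟩ := zi z
    refine ⟨Sum.elim (fun φ => ((n : ℤ) * n').sign * c φ) 0, ?_⟩
    rw [Fintype.sum_sum_type]
    simp only [Sum.elim_inl, Sum.elim_inr, Pi.zero_apply, smul_zero, Finset.sum_const_zero,
      add_zero]
    rw [mul_smul, ← natCast_zsmul _ ((n : ℤ) * n').natAbs, ← Int.sign_mul_self_eq_natAbs, mul_smul,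
      mul_smul, ← hc, Finset.smul_sum, Finset.smul_sum, Finset.smul_sum]
    refine Finset.sum_congr rfl fun φ _ => ?_
    simp only [zsmul_eq_mul, nsmul_eq_mul]
    push_cast
    ring

/-! ### approximation -/

theorem val_mv (σ : L ≃ₐ[ℚ] L) (w : PL L) (x : L) :
    (mv σ.toRingEquiv w).valuation L (σ x) = w.valuation L x :=
  (val_cm _ w _).trans (congrArg _ (σ.symm_apply_apply x))

theorem apx_int {S : Set (PL L)} (hS : S.Finite) (z : PL L → L)
    (hz : ∀ w ∈ S, w.valuation L (z w) ≤ 1) {c : L} (hc : c ≠ 0) :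
    ∃ t : 𝓞 L, ∀ w ∈ S, w.valuation L (t - z w) < w.valuation L c := by
  have c0 : ∀ w : PL L, w.valuation L c ≠ 0 := fun w => (Valuation.ne_zero_iff _).2 hc
  choose a ha using fun w : hS.toFinset => w.1.exists_valuation_sub_lt_of_integer
    (hz w (hS.mem_toFinset.1 w.2)) (Units.mk0 _ (c0 w))
  choose n hn using fun w : PL L => WithZero.exists_exp_neg_natCast_lt (c0 w)
  obtain ⟨t, ht⟩ := IsDedekindDomain.exists_forall_sub_mem_ideal (s := hS.toFinset)
    (fun w => w.asIdeal) n (fun w _ => w.prime) (fun w _ w' _ e k => e (HeightOneSpectrum.ext k)) a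
  refine ⟨t, fun w hw => ?_⟩
  have k := ht w (hS.mem_toFinset.2 hw)
  rw [← HeightOneSpectrum.intValuation_le_pow_iff_mem,
    ← HeightOneSpectrum.valuation_of_algebraMap (K := L)] at k
  rw [← sub_add_sub_cancel _ (algebraMap (𝓞 L) L (a ⟨w, hS.mem_toFinset.2 hw⟩))]
  exact (w.valuation L).map_add_lt (((congrArg _ (map_sub (algebraMap (𝓞 L) L) _ _).symm).trans_le
    k).trans_lt (hn w)) (ha ⟨w, _⟩)

theorem ex_m {S : Set (PL L)} (hS : S.Finite) :
    ∃ m : ℕ, m ≠ 0 ∧ ∀ w ∈ S, w.valuation L (m : L) < 1 := by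
  refine ⟨∏ w ∈ hS.toFinset, Ideal.absNorm w.asIdeal, Finset.prod_ne_zero_iff.2 fun w _ e =>
    w.ne_bot (Ideal.absNorm_eq_zero_iff.1 e), fun w hw => ?_⟩
  rw [← map_natCast (algebraMap (𝓞 L) L), w.valuation_lt_one_iff_mem]
  exact w.asIdeal.mem_of_dvd (Nat.cast_dvd_cast (Finset.dvd_prod_of_mem _ (hS.mem_toFinset.2 hw)))
    (Ideal.absNorm_mem _)

end Lc

end Vale.Agent.P022K.GW
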